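import Crest.Agent.R072.LatIntA
import Crest.Prelude.Def_TriangularHilbert

-- ▼ part R072/LatIntB
section

/-! R072: lattice theorem on `ℤ²`, sup form, complex functions. -/

set_option autoImplicit false

namespace Crest.Agent.R072.LatticeInt

open Finset Crest.Agent.R072 Crest.Agent.R072.Assembly

/-- truncated discrete triangular form at `(x, y)`, radii `(A, B]`. -/
noncomputable def Bz (f g : ℤ → ℤ → ℂ) (A B : ℕ) (x y : ℤ) : ℂ :=
  ∑ s ∈ Ioc A B, (f (x + s) y * g x (y + s) - f (x - s) y * g x (y - s)) / (s : ℂ)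

/-- real version -/
noncomputable def Bzr (f g : ℤ → ℤ → ℝ) (A B : ℕ) (x y : ℤ) : ℝ :=
  ∑ s ∈ Ioc A B, (f (x + s) y * g x (y + s) - f (x - s) y * g x (y - s)) / (s : ℝ)

theorem Bzr_zero (f g : ℤ → ℤ → ℝ) (L : ℕ)
    (hf : ∀ x y, (L : ℤ) < |x| ∨ (L : ℤ) < |y| → f x y = 0)
    (hg : ∀ x y, (L : ℤ) < |x| ∨ (L : ℤ) < |y| → g x y = 0) (A B : ℕ) (x y : ℤ)
    (h : (L : ℤ) < |x| ∨ (L : ℤ) < |y|) : Bzr f g A B x y = 0 := by
  apply Finset.sum_eq_zero
  intro s _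
  rcases h with h | h
  · rw [hg x (y + s) (Or.inl h), hg x (y - s) (Or.inl h)]; simp
  · rw [hf (x + s) y (Or.inr h), hf (x - s) y (Or.inr h)]; simp

theorem Bz_zero (f g : ℤ → ℤ → ℂ) (L : ℕ)
    (hf : ∀ x y, (L : ℤ) < |x| ∨ (L : ℤ) < |y| → f x y = 0)
    (hg : ∀ x y, (L : ℤ) < |x| ∨ (L : ℤ) < |y| → g x y = 0) (A B : ℕ) (x y : ℤ)
    (h : (L : ℤ) < |x| ∨ (L : ℤ) < |y|) : Bz f g A B x y = 0 := by
  apply Finset.sum_eq_zero
  intro s _
  rcases h with h | h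
  · rw [hg x (y + s) (Or.inl h), hg x (y - s) (Or.inl h)]; simp
  · rw [hf (x + s) y (Or.inr h), hf (x - s) y (Or.inr h)]; simp

theorem Bz_re (f g : ℤ → ℤ → ℂ) (A B : ℕ) (x y : ℤ) :
    (Bz f g A B x y).re = Bzr (fun x y => (f x y).re) (fun x y => (g x y).re) A B x y -
      Bzr (fun x y => (f x y).im) (fun x y => (g x y).im) A B x y := by
  unfold Bz Bzr
  rw [Complex.re_sum, ← Finset.sum_sub_distrib]
  apply Finset.sum_congr rfl
  intro s _
  rw [Complex.div_natCast_re]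
  simp only [Complex.sub_re, Complex.mul_re]
  ring

theorem Bz_im (f g : ℤ → ℤ → ℂ) (A B : ℕ) (x y : ℤ) :
    (Bz f g A B x y).im = Bzr (fun x y => (f x y).re) (fun x y => (g x y).im) A B x y +
      Bzr (fun x y => (f x y).im) (fun x y => (g x y).re) A B x y := by
  unfold Bz Bzr
  rw [Complex.im_sum, ← Finset.sum_add_distrib]
  apply Finset.sum_congr rfl
  intro s _
  rw [Complex.div_natCast_im]
  simp only [Complex.sub_im, Complex.mul_im]
  ring

/-- box sum -/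
noncomputable def boxS (L : ℕ) (u : ℤ → ℤ → ℝ) : ℝ :=
  ∑ x ∈ Icc (-(L : ℤ)) L, ∑ y ∈ Icc (-(L : ℤ)) L, u x y

theorem boxS_nonneg (L : ℕ) (u : ℤ → ℤ → ℝ) (h : ∀ x y, 0 ≤ u x y) : 0 ≤ boxS L u :=
  Finset.sum_nonneg fun _ _ => Finset.sum_nonneg fun _ _ => h _ _

theorem boxS_mono (L : ℕ) (u v : ℤ → ℤ → ℝ) (h : ∀ x y, u x y ≤ v x y) : boxS L u ≤ boxS L v :=
  Finset.sum_le_sum fun _ _ => Finset.sum_le_sum fun _ _ => h _ _

theorem boxS_add (L : ℕ) (u v : ℤ → ℤ → ℝ) :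
    boxS L (fun x y => u x y + v x y) = boxS L u + boxS L v := by
  unfold boxS
  simp only [Finset.sum_add_distrib]

theorem boxS_mul (L : ℕ) (c : ℝ) (u : ℤ → ℤ → ℝ) :
    boxS L (fun x y => c * u x y) = c * boxS L u := by
  unfold boxS
  simp only [Finset.mul_sum]

/-- arithmetic: from `T ≤ K T^{1/3}` to `T ≤ K^{3/2}` -/
theorem abs_pow_arith {T K : ℝ} (hT : 0 ≤ T) (hK : 0 ≤ K) (h : T ≤ K * T ^ (1 / 3 : ℝ)) :
    T ≤ K ^ (3 / 2 : ℝ) := by
  rcases hT.eq_or_lt with h0 | h0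
  · rw [← h0]; positivity
  · have h1 : 0 < T ^ (1 / 3 : ℝ) := Real.rpow_pos_of_pos h0 _
    have h2 : T ^ (2 / 3 : ℝ) ≤ K := by
      have e : T = T ^ (2 / 3 : ℝ) * T ^ (1 / 3 : ℝ) := by
        rw [← Real.rpow_add h0]; norm_num
      rw [e] at h
      have h3 : T ^ (2 / 3 : ℝ) * T ^ (1 / 3 : ℝ) ≤ K * T ^ (1 / 3 : ℝ) := by
        convert h using 2
        rw [← e]
      exact le_of_mul_le_mul_right h3 h1
    calc T = (T ^ (2 / 3 : ℝ)) ^ (3 / 2 : ℝ) := by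
          rw [← Real.rpow_mul hT]; norm_num
      _ ≤ K ^ (3 / 2 : ℝ) := Real.rpow_le_rpow (by positivity) h2 (by norm_num)

theorem sqrt_mul_eq {a : ℝ} (ha : 0 ≤ a) : Real.sqrt a * a = a ^ (3 / 2 : ℝ) := by
  rcases ha.eq_or_lt with h | h
  · rw [← h]
    rw [Real.zero_rpow (by norm_num)]
    simp
  · rw [Real.sqrt_eq_rpow, show (3 / 2 : ℝ) = 1 / 2 + 1 by norm_num, Real.rpow_add h,
      Real.rpow_one]

theorem real_sup : ∃ C : ℝ, 0 ≤ C ∧ ∀ (n : ℕ), 1 ≤ n → ∀ (f g : ℤ → ℤ → ℝ) (L : ℕ),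
    (∀ x y, (L : ℤ) < |x| ∨ (L : ℤ) < |y| → f x y = 0) →
    (∀ x y, (L : ℤ) < |x| ∨ (L : ℤ) < |y| → g x y = 0) →
    ∀ (A B : ℤ → ℤ → Fin n → ℕ), (∀ x y j, A x y j ≤ B x y j) →
      (∀ x y i j, i ≠ j → B x y i ≤ A x y j ∨ B x y j ≤ A x y i) →
      boxS L (fun x y => (∑ j, |Bzr f g (A x y j) (B x y j) x y|) ^ (3 / 2 : ℝ)) ≤
        (C * Real.sqrt n) ^ (3 / 2 : ℝ) * (boxS L fun x y => |f x y| ^ 3) ^ (1 / 2 : ℝ) *
          (boxS L fun x y => |g x y| ^ 3) ^ (1 / 2 : ℝ) := by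
  obtain ⟨C, hC, hmain⟩ := lattice_int_real
  refine ⟨C, hC, ?_⟩
  intro n hn f g L hf hg A B hAB hdisj
  set S : ℤ → ℤ → ℝ := fun x y => ∑ j, |Bzr f g (A x y j) (B x y j) x y| with hS
  have hS0 : ∀ x y, 0 ≤ S x y := fun x y => Finset.sum_nonneg fun _ _ => abs_nonneg _
  have hSz : ∀ x y, (L : ℤ) < |x| ∨ (L : ℤ) < |y| → S x y = 0 := by
    intro x y h
    apply Finset.sum_eq_zero
    intro j _
    rw [Bzr_zero f g L hf hg _ _ x y h, abs_zero]
  set T : ℝ := boxS L (fun x y => S x y ^ (3 / 2 : ℝ)) with hT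
  have hT0 : 0 ≤ T := boxS_nonneg _ _ fun x y => Real.rpow_nonneg (hS0 x y) _
  have key := hmain n hn f g (fun x y => Real.sqrt (S x y)) L hf hg
    (fun x y h => by simp only [hSz x y h, Real.sqrt_zero])
    (fun x y j => SignType.sign (Bzr f g (A x y j) (B x y j) x y)) A B
    (fun x y j => by
      rcases lt_trichotomy (Bzr f g (A x y j) (B x y j) x y) 0 with h | h | h
      · simp [sign_neg h]
      · simp [h]
      · simp [sign_pos h]) hAB hdisj
  have e1 : ∑ x ∈ Icc (-(L : ℤ)) L, ∑ y ∈ Icc (-(L : ℤ)) L, Real.sqrt (S x y) *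
      ∑ j, ((SignType.sign (Bzr f g (A x y j) (B x y j) x y) : SignType) : ℝ) *
        ∑ s ∈ Ioc (A x y j) (B x y j),
          (f (x + s) y * g x (y + s) - f (x - s) y * g x (y - s)) / (s : ℝ) = T := by
    rw [hT]; unfold boxS
    apply Finset.sum_congr rfl; intro x _
    apply Finset.sum_congr rfl; intro y _
    have : ∑ j, ((SignType.sign (Bzr f g (A x y j) (B x y j) x y) : SignType) : ℝ) *
        ∑ s ∈ Ioc (A x y j) (B x y j),
          (f (x + s) y * g x (y + s) - f (x - s) y * g x (y - s)) / (s : ℝ) = S x y := by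
      rw [hS]
      apply Finset.sum_congr rfl; intro j _
      exact sign_mul_self _
    rw [this]
    exact sqrt_mul_eq (hS0 x y)
  have e2 : ∑ x ∈ Icc (-(L : ℤ)) L, ∑ y ∈ Icc (-(L : ℤ)) L, |Real.sqrt (S x y)| ^ 3 = T := by
    rw [hT]; unfold boxS
    apply Finset.sum_congr rfl; intro x _
    apply Finset.sum_congr rfl; intro y _
    rw [abs_of_nonneg (Real.sqrt_nonneg _), Real.sqrt_eq_rpow, ← Real.rpow_natCast,
      ← Real.rpow_mul (hS0 x y)]
    norm_num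
  rw [e1, e2, abs_of_nonneg hT0] at key
  set Nf : ℝ := boxS L fun x y => |f x y| ^ 3 with hNf
  set Ng : ℝ := boxS L fun x y => |g x y| ^ 3 with hNg
  have hNf0 : 0 ≤ Nf := boxS_nonneg _ _ fun x y => by positivity
  have hNg0 : 0 ≤ Ng := boxS_nonneg _ _ fun x y => by positivity
  have key' : T ≤ (C * Real.sqrt n * Nf ^ (1 / 3 : ℝ) * Ng ^ (1 / 3 : ℝ)) * T ^ (1 / 3 : ℝ) := by
    calc T ≤ _ := key
      _ = _ := by
        change C * Real.sqrt n * T ^ (1 / 3 : ℝ) * Nf ^ (1 / 3 : ℝ) * Ng ^ (1 / 3 : ℝ) = _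
        ring
  have h3 := abs_pow_arith hT0 (by positivity) key'
  refine h3.trans (le_of_eq ?_)
  rw [Real.mul_rpow (by positivity) (by positivity), Real.mul_rpow (by positivity) (by positivity),
    ← Real.rpow_mul hNf0, ← Real.rpow_mul hNg0]
  norm_num

theorem four_pow (a b c d : ℝ) (ha : 0 ≤ a) (hb : 0 ≤ b) (hc : 0 ≤ c) (hd : 0 ≤ d) :
    (a + b + c + d) ^ (3 / 2 : ℝ) ≤
      2 * (a ^ (3 / 2 : ℝ) + b ^ (3 / 2 : ℝ) + c ^ (3 / 2 : ℝ) + d ^ (3 / 2 : ℝ)) := by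
  have h := Real.rpow_sum_le_const_mul_sum_rpow (s := (univ : Finset (Fin 4)))
    (f := ![a, b, c, d]) (p := 3 / 2) (by norm_num)
  have h4 : ((4 : ℝ)) ^ ((3 / 2 : ℝ) - 1) = 2 := by
    rw [show (4 : ℝ) = 2 ^ (2 : ℝ) by norm_num, ← Real.rpow_mul (by norm_num)]
    norm_num
  simp only [Fin.sum_univ_four, card_univ, Fintype.card_fin, Nat.cast_ofNat, Matrix.cons_val_zero,
    Matrix.cons_val_one, Matrix.cons_val,
    abs_of_nonneg ha, abs_of_nonneg hb, abs_of_nonneg hc, abs_of_nonneg hd] at h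
  rw [h4] at h
  exact h

theorem complex_sup : ∃ C : ℝ, 0 ≤ C ∧ ∀ (n : ℕ), 1 ≤ n → ∀ (f g : ℤ → ℤ → ℂ) (L : ℕ),
    (∀ x y, (L : ℤ) < |x| ∨ (L : ℤ) < |y| → f x y = 0) →
    (∀ x y, (L : ℤ) < |x| ∨ (L : ℤ) < |y| → g x y = 0) →
    ∀ (A B : ℤ → ℤ → Fin n → ℕ), (∀ x y j, A x y j ≤ B x y j) →
      (∀ x y i j, i ≠ j → B x y i ≤ A x y j ∨ B x y j ≤ A x y i) →
      boxS L (fun x y => (∑ j, ‖Bz f g (A x y j) (B x y j) x y‖) ^ (3 / 2 : ℝ)) ≤
        (C * Real.sqrt n) ^ (3 / 2 : ℝ) * (boxS L fun x y => ‖f x y‖ ^ 3) ^ (1 / 2 : ℝ) *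
          (boxS L fun x y => ‖g x y‖ ^ 3) ^ (1 / 2 : ℝ) := by
  obtain ⟨C, hC, hmain⟩ := real_sup
  refine ⟨4 * C, by positivity, ?_⟩
  intro n hn f g L hf hg A B hAB hdisj
  have main : ∀ (f' g' : ℤ → ℤ → ℝ), (∀ x y, |f' x y| ≤ ‖f x y‖) → (∀ x y, |g' x y| ≤ ‖g x y‖) →
      boxS L (fun x y => (∑ j, |Bzr f' g' (A x y j) (B x y j) x y|) ^ (3 / 2 : ℝ)) ≤
        (C * Real.sqrt n) ^ (3 / 2 : ℝ) * (boxS L fun x y => ‖f x y‖ ^ 3) ^ (1 / 2 : ℝ) *
          (boxS L fun x y => ‖g x y‖ ^ 3) ^ (1 / 2 : ℝ) := by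
    intro f' g' hf' hg'
    refine (hmain n hn f' g' L ?_ ?_ A B hAB hdisj).trans ?_
    · intro x y h
      have := hf' x y
      rw [hf x y h, norm_zero] at this
      exact abs_eq_zero.1 (le_antisymm this (abs_nonneg _))
    · intro x y h
      have := hg' x y
      rw [hg x y h, norm_zero] at this
      exact abs_eq_zero.1 (le_antisymm this (abs_nonneg _))
    · have q1 : (boxS L fun x y => |f' x y| ^ 3) ≤ boxS L fun x y => ‖f x y‖ ^ 3 :=
        boxS_mono _ _ _ fun x y => pow_le_pow_left₀ (abs_nonneg _) (hf' x y) 3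
      have q2 : (boxS L fun x y => |g' x y| ^ 3) ≤ boxS L fun x y => ‖g x y‖ ^ 3 :=
        boxS_mono _ _ _ fun x y => pow_le_pow_left₀ (abs_nonneg _) (hg' x y) 3
      have p1 : 0 ≤ boxS L fun x y => |f' x y| ^ 3 := boxS_nonneg _ _ fun x y => by positivity
      have p2 : 0 ≤ boxS L fun x y => |g' x y| ^ 3 := boxS_nonneg _ _ fun x y => by positivity
      have p3 : 0 ≤ boxS L fun x y => ‖f x y‖ ^ 3 := boxS_nonneg _ _ fun x y => by positivity
      gcongr
  set R : ℝ := (C * Real.sqrt n) ^ (3 / 2 : ℝ) * (boxS L fun x y => ‖f x y‖ ^ 3) ^ (1 / 2 : ℝ) *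
          (boxS L fun x y => ‖g x y‖ ^ 3) ^ (1 / 2 : ℝ) with hR
  set fr : ℤ → ℤ → ℝ := fun x y => (f x y).re
  set fi : ℤ → ℤ → ℝ := fun x y => (f x y).im
  set gr : ℤ → ℤ → ℝ := fun x y => (g x y).re
  set gi : ℤ → ℤ → ℝ := fun x y => (g x y).im
  have hfr : ∀ x y, |fr x y| ≤ ‖f x y‖ := fun x y => Complex.abs_re_le_norm _
  have hfi : ∀ x y, |fi x y| ≤ ‖f x y‖ := fun x y => Complex.abs_im_le_norm _
  have hgr : ∀ x y, |gr x y| ≤ ‖g x y‖ := fun x y => Complex.abs_re_le_norm _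
  have hgi : ∀ x y, |gi x y| ≤ ‖g x y‖ := fun x y => Complex.abs_im_le_norm _
  have step : boxS L (fun x y => (∑ j, ‖Bz f g (A x y j) (B x y j) x y‖) ^ (3 / 2 : ℝ)) ≤
      2 * (R + R + R + R) := by
    calc boxS L (fun x y => (∑ j, ‖Bz f g (A x y j) (B x y j) x y‖) ^ (3 / 2 : ℝ))
        ≤ boxS L (fun x y => 2 * (
            (∑ j, |Bzr fr gr (A x y j) (B x y j) x y|) ^ (3 / 2 : ℝ) +
            (∑ j, |Bzr fi gi (A x y j) (B x y j) x y|) ^ (3 / 2 : ℝ) +
            (∑ j, |Bzr fr gi (A x y j) (B x y j) x y|) ^ (3 / 2 : ℝ) +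
            (∑ j, |Bzr fi gr (A x y j) (B x y j) x y|) ^ (3 / 2 : ℝ))) := by
          apply boxS_mono
          intro x y
          refine le_trans (Real.rpow_le_rpow (Finset.sum_nonneg fun _ _ => norm_nonneg _) ?_
            (by norm_num)) (four_pow _ _ _ _ (Finset.sum_nonneg fun _ _ => abs_nonneg _)
            (Finset.sum_nonneg fun _ _ => abs_nonneg _) (Finset.sum_nonneg fun _ _ => abs_nonneg _)
            (Finset.sum_nonneg fun _ _ => abs_nonneg _))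
          rw [← Finset.sum_add_distrib, ← Finset.sum_add_distrib, ← Finset.sum_add_distrib]
          apply Finset.sum_le_sum
          intro j _
          refine (Complex.norm_le_abs_re_add_abs_im _).trans ?_
          rw [Bz_re, Bz_im]
          have t1 := abs_sub (Bzr fr gr (A x y j) (B x y j) x y)
            (Bzr fi gi (A x y j) (B x y j) x y)
          have t2 := abs_add_le (Bzr fr gi (A x y j) (B x y j) x y)
            (Bzr fi gr (A x y j) (B x y j) x y)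
          linarith
      _ = 2 * (boxS L (fun x y => (∑ j, |Bzr fr gr (A x y j) (B x y j) x y|) ^ (3 / 2 : ℝ)) +
            boxS L (fun x y => (∑ j, |Bzr fi gi (A x y j) (B x y j) x y|) ^ (3 / 2 : ℝ)) +
            boxS L (fun x y => (∑ j, |Bzr fr gi (A x y j) (B x y j) x y|) ^ (3 / 2 : ℝ)) +
            boxS L (fun x y => (∑ j, |Bzr fi gr (A x y j) (B x y j) x y|) ^ (3 / 2 : ℝ))) := by
          rw [boxS_mul, boxS_add, boxS_add, boxS_add]
      _ ≤ 2 * (R + R + R + R) := by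
          have m1 := main fr gr hfr hgr
          have m2 := main fi gi hfi hgi
          have m3 := main fr gi hfr hgi
          have m4 := main fi gr hfi hgr
          gcongr
  refine step.trans (le_of_eq ?_)
  have e4 : (4 * C * Real.sqrt n) ^ (3 / 2 : ℝ) = 8 * (C * Real.sqrt n) ^ (3 / 2 : ℝ) := by
    rw [mul_assoc, Real.mul_rpow (by norm_num) (by positivity)]
    congr 1
    rw [show (4 : ℝ) = 2 ^ (2 : ℝ) by norm_num, ← Real.rpow_mul (by norm_num)]
    norm_num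
  rw [e4, hR]
  ring

open scoped ENNReal in
theorem tsum_box (L : ℕ) (u : ℤ → ℤ → ℝ) (hu : ∀ x y, 0 ≤ u x y)
    (hz : ∀ x y, (L : ℤ) < |x| ∨ (L : ℤ) < |y| → u x y = 0) :
    ∑' z : ℤ × ℤ, ENNReal.ofReal (u z.1 z.2) = ENNReal.ofReal (boxS L u) := by
  rw [tsum_eq_sum (s := Icc (-(L : ℤ)) L ×ˢ Icc (-(L : ℤ)) L)]
  · rw [Finset.sum_product]
    unfold boxS
    rw [ENNReal.ofReal_sum_of_nonneg (fun x _ => Finset.sum_nonneg fun y _ => hu x y)]
    apply Finset.sum_congr rfl; intro x _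
    rw [ENNReal.ofReal_sum_of_nonneg (fun y _ => hu x y)]
  · intro z hz'
    rw [mem_product, mem_Icc, mem_Icc, ← abs_le, ← abs_le, not_and_or, not_le, not_le] at hz'
    rw [hz _ _ hz', ENNReal.ofReal_zero]

open scoped ENNReal in
/-- **Lattice theorem on `ℤ²`, complex, sup form.** -/
theorem lattice_int : ∃ C : ℝ, 0 ≤ C ∧ ∀ (n : ℕ), 1 ≤ n → ∀ (f g : ℤ → ℤ → ℂ),
    (∃ L : ℕ, ∀ x y, (L : ℤ) < |x| ∨ (L : ℤ) < |y| → f x y = 0 ∧ g x y = 0) →
    ∀ (A B : ℤ → ℤ → Fin n → ℕ), (∀ x y j, A x y j ≤ B x y j) →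
      (∀ x y i j, i ≠ j → B x y i ≤ A x y j ∨ B x y j ≤ A x y i) →
      ∑' z : ℤ × ℤ, (∑ j, ‖Bz f g (A z.1 z.2 j) (B z.1 z.2 j) z.1 z.2‖ₑ) ^ (3 / 2 : ℝ) ≤
        ENNReal.ofReal (C * Real.sqrt n) ^ (3 / 2 : ℝ) *
          (∑' z : ℤ × ℤ, ‖f z.1 z.2‖ₑ ^ (3 : ℝ)) ^ (1 / 2 : ℝ) *
          (∑' z : ℤ × ℤ, ‖g z.1 z.2‖ₑ ^ (3 : ℝ)) ^ (1 / 2 : ℝ) := by
  obtain ⟨C, hC, hmain⟩ := complex_sup
  refine ⟨C, hC, ?_⟩
  intro n hn f g ⟨L, hL⟩ A B hAB hdisj
  have key := hmain n hn f g L (fun x y h => (hL x y h).1) (fun x y h => (hL x y h).2) A B hAB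
    hdisj
  have cube : ∀ (u : ℤ → ℤ → ℂ), (∀ x y, (L : ℤ) < |x| ∨ (L : ℤ) < |y| → u x y = 0) →
      ∑' z : ℤ × ℤ, ‖u z.1 z.2‖ₑ ^ (3 : ℝ) = ENNReal.ofReal (boxS L fun x y => ‖u x y‖ ^ 3) := by
    intro u hu
    rw [← tsum_box L (fun x y => ‖u x y‖ ^ 3) (fun x y => by positivity)
      (fun x y h => by rw [hu x y h]; simp)]
    apply tsum_congr
    intro z
    rw [← ofReal_norm, ENNReal.ofReal_rpow_of_nonneg (norm_nonneg _) (by norm_num)]
    norm_num
  have lhs : ∑' z : ℤ × ℤ, (∑ j, ‖Bz f g (A z.1 z.2 j) (B z.1 z.2 j) z.1 z.2‖ₑ) ^ (3 / 2 : ℝ) =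
      ENNReal.ofReal (boxS L
        (fun x y => (∑ j, ‖Bz f g (A x y j) (B x y j) x y‖) ^ (3 / 2 : ℝ))) := by
    rw [← tsum_box L _ (fun x y => Real.rpow_nonneg (Finset.sum_nonneg fun _ _ => norm_nonneg _) _)]
    · apply tsum_congr
      intro z
      rw [← ENNReal.ofReal_rpow_of_nonneg (Finset.sum_nonneg fun _ _ => norm_nonneg _)
        (by norm_num), ENNReal.ofReal_sum_of_nonneg (fun _ _ => norm_nonneg _)]
      simp only [ofReal_norm]
    · intro x y h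
      have : ∑ j, ‖Bz f g (A x y j) (B x y j) x y‖ = 0 := by
        apply Finset.sum_eq_zero
        intro j _
        rw [Bz_zero f g L (fun x y h => (hL x y h).1) (fun x y h => (hL x y h).2) _ _ x y h,
          norm_zero]
      rw [this]
      norm_num
  rw [lhs, cube f (fun x y h => (hL x y h).1), cube g (fun x y h => (hL x y h).2)]
  have n1 : 0 ≤ boxS L fun x y => ‖f x y‖ ^ 3 := boxS_nonneg _ _ fun x y => by positivity
  have n2 : 0 ≤ boxS L fun x y => ‖g x y‖ ^ 3 := boxS_nonneg _ _ fun x y => by positivity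
  rw [ENNReal.ofReal_rpow_of_nonneg (by positivity) (by norm_num),
    ENNReal.ofReal_rpow_of_nonneg n1 (by norm_num), ENNReal.ofReal_rpow_of_nonneg n2 (by norm_num),
    ← ENNReal.ofReal_mul (by positivity), ← ENNReal.ofReal_mul (by positivity)]
  exact ENNReal.ofReal_le_ofReal key

end Crest.Agent.R072.LatticeInt
end

-- ▼ part R072/LatticeInt
section

/-! R072: lattice theorem on `ℤ²` for complex functions, sup form.
Proofs in `LatIntA.lean` (real linearised form from `ZMod Q`) and `LatIntB.lean` (sup form, complex):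
`lattice_int_real`, `Bz`, `lattice_int`. -/
end

-- ▼ part R072/Transfer
section

set_option autoImplicit false

namespace Crest.Agent.R072.Transfer

open MeasureTheory Crest.AnalysisR
open scoped ENNReal

/-- Riemann sum of the truncated triangular form with mesh `δ` -/
noncomputable def Bdelta (F G : ℝ × ℝ → ℂ) (δ ε R : ℝ) (z : ℝ × ℝ) : ℂ :=
  ∑ᶠ s : ℤ, if ε < δ * |(s : ℝ)| ∧ δ * |(s : ℝ)| < R then
    F (z.1 + δ * s, z.2) * G (z.1, z.2 + δ * s) / (s : ℂ) else 0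

theorem continuous_slice {F G : ℝ × ℝ → ℂ} (hF : Continuous F) (hG : Continuous G) (z : ℝ × ℝ) :
    Continuous fun t : ℝ => F (z.1 + t, z.2) * G (z.1, z.2 + t) := by
  fun_prop

/-- floor to the grid of mesh `δ` -/
theorem floor_grid_le {δ : ℝ} (hδ : 0 < δ) (t : ℝ) : δ * ⌊t / δ⌋ ≤ t := by
  have := Int.floor_le (t / δ)
  calc δ * ⌊t / δ⌋ ≤ δ * (t / δ) := by gcongr
    _ = t := by field_simp

theorem lt_floor_grid {δ : ℝ} (hδ : 0 < δ) (t : ℝ) : t < δ * ⌊t / δ⌋ + δ := by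
  have := Int.lt_floor_add_one (t / δ)
  calc t = δ * (t / δ) := by field_simp
    _ < δ * (⌊t / δ⌋ + 1) := by gcongr
    _ = _ := by ring

theorem integral_step (φ : ℝ → ℂ) (R δ : ℝ) (hδ : 0 < δ) (hφ : ∀ t, R ≤ |t| → φ t = 0) :
    ∫ t, φ (δ * ⌊t / δ⌋) = ∑ᶠ s : ℤ, (δ : ℂ) * φ (δ * s) := by
  obtain ⟨N, hN⟩ : ∃ N : ℕ, R / δ ≤ N := exists_nat_ge _
  have hz : ∀ s : ℤ, s ∉ Finset.Icc (-(N : ℤ)) N → φ (δ * s) = 0 := by
    intro s hs
    apply hφ
    rw [abs_mul, abs_of_pos hδ]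
    have h1 : (N : ℝ) < |(s : ℝ)| := by
      simp only [Finset.mem_Icc, not_and_or, not_le] at hs
      have : (N : ℤ) < |s| := by
        rcases hs with hs | hs
        · have := neg_abs_le s; omega
        · have := le_abs_self s; omega
      exact_mod_cast this
    have : R ≤ δ * N := by
      rw [div_le_iff₀ hδ] at hN; linarith
    nlinarith
  have hsum : ∀ t : ℝ, φ (δ * ⌊t / δ⌋) =
      ∑ s ∈ Finset.Icc (-(N : ℤ)) N, ({t : ℝ | ⌊t / δ⌋ = s}.indicator (fun _ => φ (δ * s)) t) := by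
    intro t
    have : ∀ s : ℤ, ({t : ℝ | ⌊t / δ⌋ = s}.indicator (fun _ => φ (δ * s)) t) =
        if ⌊t / δ⌋ = s then φ (δ * s) else 0 := by
      intro s
      simp [Set.indicator_apply]
    simp_rw [this]
    rw [Finset.sum_ite_eq]
    split_ifs with h
    · rfl
    · exact hz _ h
  have hset : ∀ s : ℤ, {t : ℝ | ⌊t / δ⌋ = s} = Set.Ico (δ * s) (δ * s + δ) := by
    intro s
    ext t
    simp only [Set.mem_ofPred_eq, Int.floor_eq_iff, Set.mem_Ico]
    rw [le_div_iff₀ hδ, div_lt_iff₀ hδ]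
    constructor
    · rintro ⟨h1, h2⟩; constructor <;> nlinarith
    · rintro ⟨h1, h2⟩; constructor <;> nlinarith
  have hmeas : ∀ s : ℤ, MeasurableSet {t : ℝ | ⌊t / δ⌋ = s} := by
    intro s; rw [hset]; exact measurableSet_Ico
  have hvol : ∀ s : ℤ, volume {t : ℝ | ⌊t / δ⌋ = s} = ENNReal.ofReal δ := by
    intro s; rw [hset]; simp
  calc ∫ t, φ (δ * ⌊t / δ⌋) = ∫ t, ∑ s ∈ Finset.Icc (-(N : ℤ)) N,
        ({t : ℝ | ⌊t / δ⌋ = s}.indicator (fun _ => φ (δ * s)) t) := by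
        congr 1; ext t; exact hsum t
    _ = ∑ s ∈ Finset.Icc (-(N : ℤ)) N, ∫ t,
        ({t : ℝ | ⌊t / δ⌋ = s}.indicator (fun _ => φ (δ * s)) t) := by
        apply integral_finsetSum
        intro s _
        rw [integrable_indicator_iff (hmeas s)]
        exact integrableOn_const (by rw [hvol]; simp) (by simp)
    _ = ∑ s ∈ Finset.Icc (-(N : ℤ)) N, (δ : ℂ) * φ (δ * s) := by
        apply Finset.sum_congr rfl
        intro s _
        rw [integral_indicator (hmeas s), setIntegral_const]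
        simp only [Measure.real, hvol, ENNReal.toReal_ofReal hδ.le]
        rw [Complex.real_smul]
    _ = ∑ᶠ s : ℤ, (δ : ℂ) * φ (δ * s) := by
        rw [finsum_eq_sum_of_support_subset]
        intro s hs
        by_contra hc
        apply hs
        simp only [Finset.coe_Icc, Set.mem_Icc] at hc
        show (δ : ℂ) * φ (δ * s) = 0
        rw [hz s (by simpa using hc)]; simp

/-- the truncated kernel function -/
noncomputable def cut (h : ℝ → ℂ) (ε R : ℝ) (t : ℝ) : ℂ :=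
  if ε < |t| ∧ |t| < R then h t / (t : ℂ) else 0

theorem Bdelta_eq {F G : ℝ × ℝ → ℂ} {δ ε R : ℝ} (hδ : 0 < δ) (hε : 0 < ε) (z : ℝ × ℝ) :
    Bdelta F G δ ε R z =
      ∫ t, cut (fun t => F (z.1 + t, z.2) * G (z.1, z.2 + t)) ε R (δ * ⌊t / δ⌋) := by
  rw [integral_step _ R δ hδ]
  · unfold Bdelta
    apply finsum_congr
    intro s
    unfold cut
    rw [abs_mul, abs_of_pos hδ]
    split_ifs with h
    · have hs : (s : ℂ) ≠ 0 := by
        intro h0
        have : s = 0 := by exact_mod_cast h0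
        rw [this] at h
        simp at h
        linarith [h.1]
      have hδ' : (δ : ℂ) ≠ 0 := by exact_mod_cast hδ.ne'
      push_cast
      field_simp
    · simp
  · intro t ht
    unfold cut
    rw [if_neg]
    intro h
    linarith [h.2]

theorem continuousAt_cut {h : ℝ → ℂ} (hh : Continuous h) {ε R t : ℝ} (hε : 0 < ε)
    (h1 : |t| ≠ ε) (h2 : |t| ≠ R) : ContinuousAt (cut h ε R) t := by
  by_cases hc : ε < |t| ∧ |t| < R
  · have hev : (fun t => h t / (t : ℂ)) =ᶠ[nhds t] cut h ε R := by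
      have hopen : IsOpen {t : ℝ | ε < |t| ∧ |t| < R} :=
        (isOpen_lt continuous_const continuous_abs).inter
          (isOpen_lt continuous_abs continuous_const)
      filter_upwards [hopen.mem_nhds hc] with u hu
      unfold cut
      rw [if_pos hu]
    refine ContinuousAt.congr ?_ hev
    apply ContinuousAt.div hh.continuousAt (Complex.continuous_ofReal.continuousAt)
    have : t ≠ 0 := by
      intro h0
      rw [h0] at hc; simp at hc; linarith [hc.1]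
    exact_mod_cast this
  · have hev : (fun _ => (0 : ℂ)) =ᶠ[nhds t] cut h ε R := by
      rw [not_and_or, not_lt, not_lt] at hc
      rcases hc with hc | hc
      · have hlt : |t| < ε := lt_of_le_of_ne hc h1
        filter_upwards [(isOpen_lt continuous_abs continuous_const).mem_nhds hlt] with u hu
        unfold cut
        rw [if_neg]
        intro h'
        have hu' : |u| < ε := hu
        linarith [h'.1]
      · have hlt : R < |t| := lt_of_le_of_ne hc (Ne.symm h2)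
        filter_upwards [(isOpen_lt continuous_const continuous_abs).mem_nhds hlt] with u hu
        unfold cut
        rw [if_neg]
        intro h'
        have hu' : R < |u| := hu
        linarith [h'.2]
    exact ContinuousAt.congr continuousAt_const hev

/-- Riemann sums converge pointwise. -/
theorem Bdelta_tendsto {F G : ℝ × ℝ → ℂ} (hF : Continuous F) (hFc : HasCompactSupport F)
    (hG : Continuous G) (hGc : HasCompactSupport G) {ε R : ℝ} (hε : 0 < ε) (hR : ε < R)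
    (z : ℝ × ℝ) :
    Filter.Tendsto (fun k : ℕ => Bdelta F G (1 / ((k : ℝ) + 1)) ε R z) Filter.atTop
      (nhds (annularTriangularHT F G ε R z)) := by
  obtain ⟨MF, hMF⟩ := hF.bounded_above_of_compact_support hFc
  obtain ⟨MG, hMG⟩ := hG.bounded_above_of_compact_support hGc
  set h : ℝ → ℂ := fun t => F (z.1 + t, z.2) * G (z.1, z.2 + t) with hh
  have hcont : Continuous h := continuous_slice hF hG z
  have hMF0 : 0 ≤ MF := (norm_nonneg _).trans (hMF 0)
  have hbd : ∀ t, ‖h t‖ ≤ MF * MG := by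
    intro t
    rw [hh]
    simp only [norm_mul]
    exact mul_le_mul (hMF _) (hMG _) (norm_nonneg _) hMF0
  have hcutbd : ∀ t, ‖cut h ε R t‖ ≤ MF * MG / ε := by
    intro t
    unfold cut
    split_ifs with hc
    · rw [norm_div, Complex.norm_real, Real.norm_eq_abs]
      have : 0 ≤ MF * MG := (norm_nonneg _).trans (hbd t)
      calc ‖h t‖ / |t| ≤ MF * MG / |t| := by
            apply div_le_div_of_nonneg_right (hbd t) (abs_nonneg t)
        _ ≤ MF * MG / ε := by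
            apply div_le_div_of_nonneg_left this hε hc.1.le
    · simp
      have : 0 ≤ MF * MG := (norm_nonneg _).trans (hbd t)
      positivity
  have hint : annularTriangularHT F G ε R z = ∫ t, cut h ε R t := by
    unfold annularTriangularHT
    have hm : MeasurableSet {t : ℝ | ε < |t| ∧ |t| < R} :=
      ((isOpen_lt continuous_const continuous_abs).inter
          (isOpen_lt continuous_abs continuous_const)).measurableSet
    rw [← integral_indicator hm]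
    congr 1
    ext t
    simp only [Set.indicator_apply, Set.mem_ofPred_eq]
    rfl
  have hpos : ∀ k : ℕ, (0 : ℝ) < 1 / ((k : ℝ) + 1) := fun k => by positivity
  have hle1 : ∀ k : ℕ, (1 : ℝ) / ((k : ℝ) + 1) ≤ 1 := fun k => by
    rw [div_le_one (by positivity)]; linarith [Nat.cast_nonneg (α := ℝ) k]
  rw [hint]
  simp_rw [fun k : ℕ => Bdelta_eq (F := F) (G := G) (R := R) (hpos k) hε z]
  have hmeascut : Measurable (cut h ε R) := by
    unfold cut
    refine Measurable.ite ?_ ?_ measurable_const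
    · exact ((isOpen_lt continuous_const continuous_abs).inter
          (isOpen_lt continuous_abs continuous_const)).measurableSet
    · exact hcont.measurable.div (Complex.measurable_ofReal)
  apply tendsto_integral_of_dominated_convergence
    (fun t => (Set.Icc (-(|R| + 1)) (|R| + 1)).indicator (fun _ => MF * MG / ε) t)
  · intro k
    apply Measurable.aestronglyMeasurable
    apply hmeascut.comp
    apply Measurable.const_mul
    have : Measurable fun t : ℝ => ⌊t / (1 / ((k : ℝ) + 1))⌋ :=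
      Int.measurable_floor.comp (measurable_id.div_const _)
    exact (measurable_from_top (f := fun (n : ℤ) => (n : ℝ))).comp this
  · rw [integrable_indicator_iff measurableSet_Icc]
    exact integrableOn_const (by simp) (by simp)
  · intro k
    apply Filter.Eventually.of_forall
    intro t
    by_cases ht : t ∈ Set.Icc (-(|R| + 1)) (|R| + 1)
    · rw [Set.indicator_of_mem ht]
      exact hcutbd _
    · rw [Set.indicator_of_notMem ht]
      have : cut h ε R (1 / ((k : ℝ) + 1) * ⌊t / (1 / ((k : ℝ) + 1))⌋) = 0 := by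
        unfold cut
        rw [if_neg]
        rintro ⟨_, h2⟩
        apply ht
        have h3 := floor_grid_le (hpos k) t
        have h4 := lt_floor_grid (hpos k) t
        have h5 := hle1 k
        have h6 := abs_lt.mp (h2.trans_le (le_abs_self R))
        constructor <;> linarith [h6.1, h6.2]
      have e : ‖cut h ε R (1 / ((k : ℝ) + 1) * ⌊t / (1 / ((k : ℝ) + 1))⌋)‖ ≤ 0 := by
        rw [this]; simp
      exact e
  · have hnull : ∀ᵐ t : ℝ, t ∉ ({ε, -ε, R, -R} : Set ℝ) := by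
      apply Set.Countable.ae_notMem
      exact (Set.toFinite _).countable
    filter_upwards [hnull] with t ht
    simp only [Set.mem_insert_iff, Set.mem_singleton_iff, not_or] at ht
    have h1 : |t| ≠ ε := by
      intro h'
      rcases abs_eq hε.le |>.mp h' with h' | h'
      · exact ht.1 h'
      · exact ht.2.1 h'
    have h2 : |t| ≠ R := by
      intro h'
      rcases abs_eq (hε.trans hR).le |>.mp h' with h' | h'
      · exact ht.2.2.1 h'
      · exact ht.2.2.2 h'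
    have hca := continuousAt_cut hcont hε h1 h2
    refine hca.tendsto.comp ?_
    have hlim : Filter.Tendsto (fun k : ℕ => t - 1 / ((k : ℝ) + 1)) Filter.atTop (nhds t) := by
      have := (tendsto_one_div_add_atTop_nhds_zero_nat (𝕜 := ℝ)).const_sub t
      simpa using this
    refine tendsto_of_tendsto_of_tendsto_of_le_of_le hlim tendsto_const_nhds ?_ ?_
    · intro k
      have := lt_floor_grid (hpos k) t
      simp only
      linarith
    · intro k
      exact floor_grid_le (hpos k) t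


/-! ### tiling -/

/-- grid cell -/
def cell (δ : ℝ) (a : ℤ × ℤ) : Set (ℝ × ℝ) := {z | ⌊z.1 / δ⌋ = a.1 ∧ ⌊z.2 / δ⌋ = a.2}

theorem measurableSet_cell (δ : ℝ) (a : ℤ × ℤ) : MeasurableSet (cell δ a) := by
  have h1 : Measurable fun z : ℝ × ℝ => ⌊z.1 / δ⌋ := Int.measurable_floor.comp (by fun_prop)
  have h2 : Measurable fun z : ℝ × ℝ => ⌊z.2 / δ⌋ := Int.measurable_floor.comp (by fun_prop)
  exact (h1 (measurableSet_singleton a.1)).inter (h2 (measurableSet_singleton a.2))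

theorem lintegral_tile {δ : ℝ} (hδ : 0 < δ) {φ : ℝ × ℝ → ℝ≥0∞} (hφ : Measurable φ) :
    ∫⁻ z, φ z = ∫⁻ ξ in cell δ 0, ∑' a : ℤ × ℤ, φ (ξ.1 + δ * a.1, ξ.2 + δ * a.2) := by
  have hU : (⋃ a, cell δ a) = Set.univ := by
    ext z
    simp only [Set.mem_iUnion, Set.mem_univ, iff_true]
    exact ⟨(⌊z.1 / δ⌋, ⌊z.2 / δ⌋), rfl, rfl⟩
  have hd : Pairwise (Function.onFun Disjoint (cell δ)) := by
    intro a b hab
    rw [Function.onFun, Set.disjoint_left]
    rintro z ⟨h1, h2⟩ ⟨h3, h4⟩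
    exact hab (Prod.ext (h1.symm.trans h3) (h2.symm.trans h4))
  rw [← setLIntegral_univ, ← hU, lintegral_iUnion (measurableSet_cell δ) hd,
    lintegral_tsum (fun a => (by
      apply Measurable.aemeasurable
      exact hφ.comp (by fun_prop)))]
  congr 1
  ext a
  have hmp : MeasurePreserving (fun z : ℝ × ℝ => z + ((δ * a.1, δ * a.2) : ℝ × ℝ)) volume volume :=
    measurePreserving_add_right volume _
  have h := hmp.setLIntegral_comp_preimage (measurableSet_cell δ a) hφ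
  rw [← h]
  have hpre : (fun z : ℝ × ℝ => z + ((δ * a.1, δ * a.2) : ℝ × ℝ)) ⁻¹' cell δ a = cell δ 0 := by
    ext z
    simp only [cell, Set.mem_preimage, Set.mem_ofPred_eq, Prod.fst_add, Prod.snd_add,
      Prod.fst_zero, Prod.snd_zero]
    rw [add_div, add_div, mul_div_cancel_left₀ _ hδ.ne', mul_div_cancel_left₀ _ hδ.ne',
      Int.floor_add_intCast, Int.floor_add_intCast]
    simp
  rw [hpre]
  rfl

/-! ### configurations -/

/-- configurations of at most `n` disjoint rational annuli -/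
def Conf (n : ℕ) : Type :=
  Σ m : Fin (n + 1), {p : (Fin m → ℚ) × (Fin m → ℚ) //
    (∀ j, 0 < p.1 j ∧ p.1 j < p.2 j) ∧ ∀ i j, i ≠ j → p.2 i ≤ p.1 j ∨ p.2 j ≤ p.1 i}

instance (n : ℕ) : Countable (Conf n) := by
  unfold Conf
  infer_instance

/-- the sum over a configuration -/
noncomputable def Ssum (F G : ℝ × ℝ → ℂ) {n : ℕ} (ω : Conf n) (z : ℝ × ℝ) : ℝ≥0∞ :=
  ∑ j, ‖annularTriangularHT F G (ω.2.1.1 j : ℝ) (ω.2.1.2 j : ℝ) z‖ₑ

noncomputable def Sdelta (F G : ℝ × ℝ → ℂ) (δ : ℝ) {n : ℕ} (ω : Conf n) (z : ℝ × ℝ) : ℝ≥0∞ :=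
  ∑ j, ‖Bdelta F G δ (ω.2.1.1 j : ℝ) (ω.2.1.2 j : ℝ) z‖ₑ

theorem count_le (n : ℕ) (F G : ℝ × ℝ → ℂ) (z : ℝ × ℝ) :
    annulusCount n F G z ≤ ⨆ ω : Conf n, Ssum F G ω z := by
  unfold annulusCount
  refine iSup_le fun m => iSup_le fun hm => iSup_le fun ε => iSup_le fun R => iSup_le fun h1 =>
    iSup_le fun h2 => ?_
  exact le_iSup (fun ω : Conf n => Ssum F G ω z) ⟨⟨m, by omega⟩, ⟨(ε, R), h1, h2⟩⟩

/-- `Bdelta` in lattice form -/
theorem Bdelta_eq_Bz (F G : ℝ × ℝ → ℂ) {δ ε R : ℝ} (hδ : 0 < δ) (hε : 0 < ε) (hR : ε < R)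
    (ξ : ℝ × ℝ) (x y : ℤ) :
    Bdelta F G δ ε R (ξ.1 + δ * x, ξ.2 + δ * y) =
      LatticeInt.Bz (fun x y : ℤ => F (ξ.1 + δ * x, ξ.2 + δ * y))
        (fun x y : ℤ => G (ξ.1 + δ * x, ξ.2 + δ * y)) ⌊ε / δ⌋₊ (⌈R / δ⌉₊ - 1) x y := by
  have hRp : 0 < R := hε.trans hR
  have hiff : ∀ s : ℕ, s ∈ Finset.Ioc ⌊ε / δ⌋₊ (⌈R / δ⌉₊ - 1) ↔ ε < δ * s ∧ δ * s < R := by
    intro s
    rw [Finset.mem_Ioc]
    have hc : 0 < ⌈R / δ⌉₊ := Nat.ceil_pos.mpr (by positivity)
    have e1 : ⌊ε / δ⌋₊ < s ↔ ε < δ * s := by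
      rw [Nat.floor_lt (by positivity), div_lt_iff₀ hδ, mul_comm]
    have e2 : s ≤ ⌈R / δ⌉₊ - 1 ↔ δ * s < R := by
      have : s ≤ ⌈R / δ⌉₊ - 1 ↔ s < ⌈R / δ⌉₊ := by omega
      rw [this, Nat.lt_ceil, lt_div_iff₀ hδ, mul_comm]
    rw [e1, e2]
  set A := ⌊ε / δ⌋₊ with hA
  set B := ⌈R / δ⌉₊ - 1 with hB
  have hdisj : Disjoint ((Finset.Ioc A B).image (fun s : ℕ => (s : ℤ)))
      ((Finset.Ioc A B).image (fun s : ℕ => -(s : ℤ))) := by
    rw [Finset.disjoint_left]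
    intro s h1 h2
    rw [Finset.mem_image] at h1 h2
    obtain ⟨a, ha, rfl⟩ := h1
    obtain ⟨b, hb, h⟩ := h2
    rw [Finset.mem_Ioc] at ha hb
    omega
  unfold Bdelta LatticeInt.Bz
  rw [finsum_eq_sum_of_support_subset (s := (Finset.Ioc A B).image (fun s : ℕ => (s : ℤ)) ∪
      (Finset.Ioc A B).image (fun s : ℕ => -(s : ℤ)))]
  · rw [Finset.sum_union hdisj, Finset.sum_image (by intro a _ b _ h; simpa using h),
      Finset.sum_image (by intro a _ b _ h; simpa using h), ← Finset.sum_add_distrib]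
    apply Finset.sum_congr rfl
    intro s hs
    have h := (hiff s).mp hs
    have hs0 : 0 < s := by
      rw [Finset.mem_Ioc] at hs; omega
    have habs : |((s : ℤ) : ℝ)| = (s : ℝ) := by
      simp
    have habs' : |((-(s : ℤ) : ℤ) : ℝ)| = (s : ℝ) := by
      simp
    rw [habs, habs', if_pos h, if_pos h]
    have hsc : (s : ℂ) ≠ 0 := by exact_mod_cast hs0.ne'
    have e1 : ξ.1 + δ * (x : ℝ) + δ * ((s : ℤ) : ℝ) = ξ.1 + δ * (((x + s : ℤ)) : ℝ) := by
      push_cast; ring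
    have e2 : ξ.2 + δ * (y : ℝ) + δ * ((s : ℤ) : ℝ) = ξ.2 + δ * (((y + s : ℤ)) : ℝ) := by
      push_cast; ring
    have e3 : ξ.1 + δ * (x : ℝ) + δ * ((-(s : ℤ) : ℤ) : ℝ) = ξ.1 + δ * (((x - s : ℤ)) : ℝ) := by
      push_cast; ring
    have e4 : ξ.2 + δ * (y : ℝ) + δ * ((-(s : ℤ) : ℤ) : ℝ) = ξ.2 + δ * (((y - s : ℤ)) : ℝ) := by
      push_cast; ring
    simp only [e1, e2, e3, e4]
    push_cast
    field_simp
    ring
  · intro s hs
    simp only [Function.mem_support, ne_eq, ite_eq_right_iff, Classical.not_imp] at hs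
    have hcond := hs.1
    have habs : |(s : ℝ)| = ((s.natAbs : ℕ) : ℝ) := by
      rw [Nat.cast_natAbs]; push_cast; rfl
    rw [habs] at hcond
    have hmem := (hiff s.natAbs).mpr hcond
    simp only [Finset.coe_union, Finset.coe_image, Set.mem_union, Set.mem_image, Finset.mem_coe]
    rcases Int.natAbs_eq s with h | h
    · left; exact ⟨s.natAbs, hmem, h.symm⟩
    · right; exact ⟨s.natAbs, hmem, h.symm⟩

/-- radii in lattice units -/
noncomputable def LA (δ : ℝ) {n : ℕ} (ω : Conf n) (j : Fin n) : ℕ :=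
  if h : (j : ℕ) < (ω.1 : ℕ) then ⌊((ω.2.1.1 ⟨j, h⟩ : ℚ) : ℝ) / δ⌋₊ else 0

noncomputable def LB (δ : ℝ) {n : ℕ} (ω : Conf n) (j : Fin n) : ℕ :=
  if h : (j : ℕ) < (ω.1 : ℕ) then ⌈((ω.2.1.2 ⟨j, h⟩ : ℚ) : ℝ) / δ⌉₊ - 1 else 0

theorem LA_le_LB {δ : ℝ} (hδ : 0 < δ) {n : ℕ} (ω : Conf n) (j : Fin n) : LA δ ω j ≤ LB δ ω j := by
  unfold LA LB
  split_ifs with h
  · have h1 := (ω.2.2.1 ⟨j, h⟩).1
    have h2 := (ω.2.2.1 ⟨j, h⟩).2
    have h1' : (0 : ℝ) < ((ω.2.1.1 ⟨j, h⟩ : ℚ) : ℝ) := by exact_mod_cast h1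
    have h2' : ((ω.2.1.1 ⟨j, h⟩ : ℚ) : ℝ) < ((ω.2.1.2 ⟨j, h⟩ : ℚ) : ℝ) := by exact_mod_cast h2
    have : ⌊((ω.2.1.1 ⟨j, h⟩ : ℚ) : ℝ) / δ⌋₊ < ⌈((ω.2.1.2 ⟨j, h⟩ : ℚ) : ℝ) / δ⌉₊ := by
      rw [Nat.lt_ceil]
      calc (⌊((ω.2.1.1 ⟨j, h⟩ : ℚ) : ℝ) / δ⌋₊ : ℝ) ≤ ((ω.2.1.1 ⟨j, h⟩ : ℚ) : ℝ) / δ :=
            Nat.floor_le (by positivity)
        _ < _ := by gcongr
    omega
  · exact le_rfl

theorem LB_le_LA {δ : ℝ} (hδ : 0 < δ) {n : ℕ} (ω : Conf n) (i j : Fin n) (hij : i ≠ j) :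
    LB δ ω i ≤ LA δ ω j ∨ LB δ ω j ≤ LA δ ω i := by
  have key : ∀ r e : ℚ, 0 < e → r ≤ e → ⌈(r : ℝ) / δ⌉₊ - 1 ≤ ⌊(e : ℝ) / δ⌋₊ := by
    intro r e he hre
    have h1 : (r : ℝ) / δ ≤ (e : ℝ) / δ := by
      have : (r : ℝ) ≤ (e : ℝ) := by exact_mod_cast hre
      gcongr
    have h2 : ⌈(r : ℝ) / δ⌉₊ ≤ ⌊(e : ℝ) / δ⌋₊ + 1 := by
      rw [Nat.ceil_le]
      push_cast
      exact h1.trans (Nat.lt_floor_add_one _).le
    omega
  unfold LA LB
  by_cases hi : (i : ℕ) < (ω.1 : ℕ)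
  · by_cases hj : (j : ℕ) < (ω.1 : ℕ)
    · simp only [dif_pos hi, dif_pos hj]
      have hne : (⟨i, hi⟩ : Fin ω.1) ≠ ⟨j, hj⟩ := by
        intro h
        apply hij
        ext
        simpa using h
      rcases ω.2.2.2 ⟨i, hi⟩ ⟨j, hj⟩ hne with h | h
      · left
        exact key _ _ (ω.2.2.1 ⟨j, hj⟩).1 h
      · right
        exact key _ _ (ω.2.2.1 ⟨i, hi⟩).1 h
    · simp only [dif_pos hi, dif_neg hj]
      right; omega
  · by_cases hj : (j : ℕ) < (ω.1 : ℕ)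
    · simp only [dif_neg hi, dif_pos hj]
      left; omega
    · simp only [dif_neg hi, dif_neg hj]
      left; omega

theorem Sdelta_eq (F G : ℝ × ℝ → ℂ) {δ : ℝ} (hδ : 0 < δ) {n : ℕ} (ω : Conf n) (ξ : ℝ × ℝ)
    (a : ℤ × ℤ) :
    Sdelta F G δ ω (ξ.1 + δ * a.1, ξ.2 + δ * a.2) =
      ∑ j, ‖LatticeInt.Bz (fun x y : ℤ => F (ξ.1 + δ * x, ξ.2 + δ * y))
        (fun x y : ℤ => G (ξ.1 + δ * x, ξ.2 + δ * y)) (LA δ ω j) (LB δ ω j) a.1 a.2‖ₑ := by
  unfold Sdelta
  have hle : (ω.1 : ℕ) ≤ n := by have := ω.1.2; omega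
  apply Fintype.sum_of_injective (Fin.castLE hle) (Fin.castLE_injective hle)
  · intro j hj
    have hlt : ¬ (j : ℕ) < (ω.1 : ℕ) := by
      intro h
      apply hj
      exact ⟨⟨j, h⟩, by ext; simp⟩
    unfold LA LB LatticeInt.Bz
    rw [dif_neg hlt, dif_neg hlt]
    simp
  · intro j
    have hlt : ((Fin.castLE hle j : Fin n) : ℕ) < (ω.1 : ℕ) := by
      simp
    unfold LA LB
    rw [dif_pos hlt, dif_pos hlt]
    have h1 := (ω.2.2.1 j).1
    have h2 := (ω.2.2.1 j).2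
    have h1' : (0 : ℝ) < ((ω.2.1.1 j : ℚ) : ℝ) := by exact_mod_cast h1
    have h2' : ((ω.2.1.1 j : ℚ) : ℝ) < ((ω.2.1.2 j : ℚ) : ℝ) := by exact_mod_cast h2
    rw [Bdelta_eq_Bz F G hδ h1' h2']
    rfl


theorem continuous_Bdelta {F G : ℝ × ℝ → ℂ} (hF : Continuous F) (hG : Continuous G)
    {δ ε R : ℝ} (hδ : 0 < δ) : Continuous (Bdelta F G δ ε R) := by
  have hfin : {s : ℤ | ε < δ * |(s : ℝ)| ∧ δ * |(s : ℝ)| < R}.Finite := by
    obtain ⟨N, hN⟩ : ∃ N : ℕ, R / δ ≤ N := exists_nat_ge _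
    apply (Set.finite_Icc (-(N : ℤ)) N).subset
    intro s hs
    have h2 : δ * |(s : ℝ)| < R := hs.2
    have h3 : |(s : ℝ)| < N := by
      rw [div_le_iff₀ hδ] at hN
      nlinarith
    have h4 : |s| < (N : ℤ) := by exact_mod_cast h3
    rw [abs_lt] at h4
    simp only [Set.mem_Icc]
    omega
  have he : Bdelta F G δ ε R = fun z => ∑ s ∈ hfin.toFinset,
      F (z.1 + δ * s, z.2) * G (z.1, z.2 + δ * s) / (s : ℂ) := by
    ext z
    unfold Bdelta
    rw [finsum_eq_sum_of_support_subset (s := hfin.toFinset)]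
    · apply Finset.sum_congr rfl
      intro s hs
      rw [Set.Finite.mem_toFinset] at hs
      have hs' : ε < δ * |(s : ℝ)| ∧ δ * |(s : ℝ)| < R := hs
      rw [if_pos hs']
    · intro s hs
      simp only [Function.mem_support, ne_eq, ite_eq_right_iff, Classical.not_imp] at hs
      rw [Set.Finite.coe_toFinset]
      exact hs.1
  rw [he]
  apply continuous_finsetSum
  intro s _
  fun_prop

theorem measurable_Sdelta {F G : ℝ × ℝ → ℂ} (hF : Continuous F) (hG : Continuous G)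
    {δ : ℝ} (hδ : 0 < δ) {n : ℕ} (ω : Conf n) : Measurable (Sdelta F G δ ω) := by
  unfold Sdelta
  apply Finset.measurable_sum
  intro j _
  exact (continuous_Bdelta hF hG hδ).measurable.enorm

/-- the statement of the lattice theorem with constant `C` -/
def LatticeBound (C : ℝ) : Prop := ∀ (n : ℕ), 1 ≤ n → ∀ (f g : ℤ → ℤ → ℂ),
    (∃ L : ℕ, ∀ x y, (L : ℤ) < |x| ∨ (L : ℤ) < |y| → f x y = 0 ∧ g x y = 0) →
    ∀ (A B : ℤ → ℤ → Fin n → ℕ), (∀ x y j, A x y j ≤ B x y j) →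
      (∀ x y i j, i ≠ j → B x y i ≤ A x y j ∨ B x y j ≤ A x y i) →
      ∑' z : ℤ × ℤ, (∑ j, ‖LatticeInt.Bz f g (A z.1 z.2 j) (B z.1 z.2 j) z.1 z.2‖ₑ) ^ (3 / 2 : ℝ) ≤
        ENNReal.ofReal (C * Real.sqrt n) ^ (3 / 2 : ℝ) *
          (∑' z : ℤ × ℤ, ‖f z.1 z.2‖ₑ ^ (3 : ℝ)) ^ (1 / 2 : ℝ) *
          (∑' z : ℤ × ℤ, ‖g z.1 z.2‖ₑ ^ (3 : ℝ)) ^ (1 / 2 : ℝ)

theorem compact_box {F : ℝ × ℝ → ℂ} (hF : HasCompactSupport F) :
    ∃ L : ℝ, 0 ≤ L ∧ ∀ z : ℝ × ℝ, L < |z.1| ∨ L < |z.2| → F z = 0 := by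
  obtain ⟨L, hL⟩ := hF.isCompact.isBounded.exists_norm_le
  refine ⟨max L 0, le_max_right _ _, ?_⟩
  intro z hz
  by_contra hne
  have hmem : z ∈ tsupport F := subset_tsupport F hne
  have h := hL z hmem
  have h1 : |z.1| ≤ ‖z‖ := norm_fst_le z
  have h2 : |z.2| ≤ ‖z‖ := norm_snd_le z
  have h3 : L ≤ max L 0 := le_max_left _ _
  rcases hz with hz | hz <;> linarith

theorem lattice_box {F G : ℝ × ℝ → ℂ} (hF : HasCompactSupport F) (hG : HasCompactSupport G)
    {δ : ℝ} (hδ : 0 < δ) (ξ : ℝ × ℝ) :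
    ∃ L : ℕ, ∀ x y : ℤ, (L : ℤ) < |x| ∨ (L : ℤ) < |y| →
      F (ξ.1 + δ * x, ξ.2 + δ * y) = 0 ∧ G (ξ.1 + δ * x, ξ.2 + δ * y) = 0 := by
  obtain ⟨L1, h10, h1⟩ := compact_box hF
  obtain ⟨L2, h20, h2⟩ := compact_box hG
  obtain ⟨L, hL⟩ : ∃ L : ℕ, (L1 + L2 + |ξ.1| + |ξ.2|) / δ ≤ L := exists_nat_ge _
  refine ⟨L, ?_⟩
  intro x y hxy
  rw [div_le_iff₀ hδ] at hL
  have a1 : 0 ≤ |ξ.1| := abs_nonneg _
  have a2 : 0 ≤ |ξ.2| := abs_nonneg _
  have key : ∀ (u : ℤ) (t : ℝ), (L : ℤ) < |u| → |t| ≤ |ξ.1| + |ξ.2| → L1 + L2 < |t + δ * u| := by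
    intro u t hu ht
    have hu' : (L : ℝ) < |(u : ℝ)| := by exact_mod_cast hu
    have h3 : |δ * (u : ℝ)| ≤ |t + δ * u| + |t| := by
      have := abs_sub_abs_le_abs_sub (δ * (u : ℝ)) (-t)
      rw [abs_neg, sub_neg_eq_add, add_comm (δ * (u : ℝ)) t] at this
      linarith
    rw [abs_mul, abs_of_pos hδ] at h3
    nlinarith
  rcases hxy with h | h
  · have := key x ξ.1 h (by linarith)
    exact ⟨h1 _ (Or.inl (by simp only; linarith)), h2 _ (Or.inl (by simp only; linarith))⟩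
  · have := key y ξ.2 h (by linarith)
    exact ⟨h1 _ (Or.inr (by simp only; linarith)), h2 _ (Or.inr (by simp only; linarith))⟩

theorem delta_bound {C : ℝ} (hlat : LatticeBound C) {n : ℕ} (hn : 1 ≤ n) {F G : ℝ × ℝ → ℂ}
    (hF : Continuous F) (hFc : HasCompactSupport F) (hG : Continuous G)
    (hGc : HasCompactSupport G) {δ : ℝ} (hδ : 0 < δ) (Φ : Finset (Conf n)) :
    ∫⁻ z, (⨆ ω ∈ Φ, Sdelta F G δ ω z ^ (3 / 2 : ℝ)) ≤
      ENNReal.ofReal (C * Real.sqrt n) ^ (3 / 2 : ℝ) *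
        (∫⁻ z, ‖F z‖ₑ ^ (3 : ℝ)) ^ (1 / 2 : ℝ) * (∫⁻ z, ‖G z‖ₑ ^ (3 : ℝ)) ^ (1 / 2 : ℝ) := by
  have hmF : Measurable fun z => ‖F z‖ₑ ^ (3 : ℝ) := hF.measurable.enorm.pow_const _
  have hmG : Measurable fun z => ‖G z‖ₑ ^ (3 : ℝ) := hG.measurable.enorm.pow_const _
  have hmS : Measurable fun z => (⨆ ω ∈ Φ, Sdelta F G δ ω z ^ (3 / 2 : ℝ)) := by
    apply Measurable.biSup _ Φ.countable_toSet
    intro ω _
    exact (measurable_Sdelta hF hG hδ ω).pow_const _
  rw [lintegral_tile hδ hmS, lintegral_tile hδ hmF, lintegral_tile hδ hmG]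
  set K := ENNReal.ofReal (C * Real.sqrt n) ^ (3 / 2 : ℝ) with hK
  set P : ℝ × ℝ → ℝ≥0∞ := fun ξ => ∑' a : ℤ × ℤ, ‖F (ξ.1 + δ * a.1, ξ.2 + δ * a.2)‖ₑ ^ (3 : ℝ)
    with hP
  set Q : ℝ × ℝ → ℝ≥0∞ := fun ξ => ∑' a : ℤ × ℤ, ‖G (ξ.1 + δ * a.1, ξ.2 + δ * a.2)‖ₑ ^ (3 : ℝ)
    with hQ
  have hPm : Measurable P := by
    apply Measurable.tsum
    intro a
    exact hmF.comp (by fun_prop)
  have hQm : Measurable Q := by
    apply Measurable.tsum
    intro a
    exact hmG.comp (by fun_prop)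
  have hpt : ∀ ξ : ℝ × ℝ, ∑' a : ℤ × ℤ, (⨆ ω ∈ Φ, Sdelta F G δ ω
      (ξ.1 + δ * a.1, ξ.2 + δ * a.2) ^ (3 / 2 : ℝ)) ≤ K * (P ξ ^ (1 / 2 : ℝ) * Q ξ ^ (1 / 2 : ℝ)) := by
    intro ξ
    rcases Φ.eq_empty_or_nonempty with hΦ | hΦ
    · subst hΦ
      simp
    · have hex : ∀ a : ℤ × ℤ, ∃ ω : Conf n, (⨆ ω ∈ Φ, Sdelta F G δ ω
          (ξ.1 + δ * a.1, ξ.2 + δ * a.2) ^ (3 / 2 : ℝ)) =
          Sdelta F G δ ω (ξ.1 + δ * a.1, ξ.2 + δ * a.2) ^ (3 / 2 : ℝ) := by
        intro a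
        obtain ⟨ω, hω, he⟩ := Φ.exists_mem_eq_sup hΦ
          (fun ω => Sdelta F G δ ω (ξ.1 + δ * a.1, ξ.2 + δ * a.2) ^ (3 / 2 : ℝ))
        refine ⟨ω, ?_⟩
        rw [← he, Finset.sup_eq_iSup]
      choose om hom using hex
      simp_rw [hom, Sdelta_eq F G hδ]
      have h := hlat n hn (fun x y : ℤ => F (ξ.1 + δ * x, ξ.2 + δ * y))
        (fun x y : ℤ => G (ξ.1 + δ * x, ξ.2 + δ * y)) (lattice_box hFc hGc hδ ξ)
        (fun x y j => LA δ (om (x, y)) j) (fun x y j => LB δ (om (x, y)) j)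
        (fun x y j => LA_le_LB hδ _ j) (fun x y i j hij => LB_le_LA hδ _ i j hij)
      rw [← mul_assoc]
      exact h
  calc ∫⁻ ξ in cell δ 0, ∑' a : ℤ × ℤ, (⨆ ω ∈ Φ, Sdelta F G δ ω
      (ξ.1 + δ * a.1, ξ.2 + δ * a.2) ^ (3 / 2 : ℝ))
      ≤ ∫⁻ ξ in cell δ 0, K * (P ξ ^ (1 / 2 : ℝ) * Q ξ ^ (1 / 2 : ℝ)) :=
        lintegral_mono fun ξ => hpt ξ
    _ = K * ∫⁻ ξ in cell δ 0, P ξ ^ (1 / 2 : ℝ) * Q ξ ^ (1 / 2 : ℝ) := by
        rw [lintegral_const_mul]
        exact (hPm.pow_const _).mul (hQm.pow_const _)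
    _ ≤ K * ((∫⁻ ξ in cell δ 0, (P ξ ^ (1 / 2 : ℝ)) ^ (2 : ℝ)) ^ (1 / 2 : ℝ) *
          (∫⁻ ξ in cell δ 0, (Q ξ ^ (1 / 2 : ℝ)) ^ (2 : ℝ)) ^ (1 / 2 : ℝ)) := by
        gcongr
        exact ENNReal.lintegral_mul_le_Lp_mul_Lq (volume.restrict (cell δ 0))
          Real.HolderConjugate.two_two (hPm.pow_const _).aemeasurable
          (hQm.pow_const _).aemeasurable
    _ = K * (∫⁻ ξ in cell δ 0, P ξ) ^ (1 / 2 : ℝ) * (∫⁻ ξ in cell δ 0, Q ξ) ^ (1 / 2 : ℝ) := by
        have e : ∀ x : ℝ≥0∞, (x ^ (1 / 2 : ℝ)) ^ (2 : ℝ) = x := by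
          intro x
          rw [← ENNReal.rpow_mul]; norm_num
        simp_rw [e]
        rw [mul_assoc]

theorem Sdelta_tendsto {F G : ℝ × ℝ → ℂ}
    (hF : Continuous F) (hFc : HasCompactSupport F) (hG : Continuous G)
    (hGc : HasCompactSupport G) {n : ℕ} (ω : Conf n) (z : ℝ × ℝ) :
    Filter.Tendsto (fun k : ℕ => Sdelta F G (1 / ((k : ℝ) + 1)) ω z) Filter.atTop
      (nhds (Ssum F G ω z)) := by
  unfold Sdelta Ssum
  apply tendsto_finsetSum
  intro j _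
  have h1 := (ω.2.2.1 j).1
  have h2 := (ω.2.2.1 j).2
  have h1' : (0 : ℝ) < ((ω.2.1.1 j : ℚ) : ℝ) := by exact_mod_cast h1
  have h2' : ((ω.2.1.1 j : ℚ) : ℝ) < ((ω.2.1.2 j : ℚ) : ℝ) := by exact_mod_cast h2
  exact (Bdelta_tendsto hF hFc hG hGc h1' h2' z).enorm

/-- lattice bound integrated over shifts: for a finite family `𝒜` of rational annuli and `n`
disjoint members chosen depending on the point. -/
theorem count_cc : ∃ C : ℝ, 0 ≤ C ∧ ∀ (n : ℕ), 1 ≤ n → ∀ (F G : ℝ × ℝ → ℂ),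
    Continuous F → HasCompactSupport F → Continuous G → HasCompactSupport G →
    (∫⁻ z, annulusCount n F G z ^ (3 / 2 : ℝ)) ^ (2 / 3 : ℝ) ≤
      ENNReal.ofReal (C * Real.sqrt n) * eLpNorm F 3 volume * eLpNorm G 3 volume := by
  obtain ⟨C, hC, hlat⟩ := LatticeInt.lattice_int
  refine ⟨C, hC, ?_⟩
  intro n hn F G hF hFc hG hGc
  set RHS := ENNReal.ofReal (C * Real.sqrt n) ^ (3 / 2 : ℝ) *
        (∫⁻ z, ‖F z‖ₑ ^ (3 : ℝ)) ^ (1 / 2 : ℝ) * (∫⁻ z, ‖G z‖ₑ ^ (3 : ℝ)) ^ (1 / 2 : ℝ) with hRHS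
  have hδk : ∀ k : ℕ, (0 : ℝ) < 1 / ((k : ℝ) + 1) := fun k => by positivity
  have hSm : ∀ ω : Conf n, Measurable (Ssum F G ω) := by
    intro ω
    apply measurable_of_tendsto_metrizable
      (f := fun k : ℕ => Sdelta F G (1 / ((k : ℝ) + 1)) ω)
    · intro k; exact measurable_Sdelta hF hG (hδk k) ω
    · rw [tendsto_pi_nhds]
      intro z
      exact Sdelta_tendsto hF hFc hG hGc ω z
  have hfin : ∀ Φ : Finset (Conf n), ∫⁻ z, (⨆ ω ∈ Φ, Ssum F G ω z ^ (3 / 2 : ℝ)) ≤ RHS := by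
    intro Φ
    calc ∫⁻ z, (⨆ ω ∈ Φ, Ssum F G ω z ^ (3 / 2 : ℝ))
        ≤ ∫⁻ z, Filter.liminf (fun k : ℕ => ⨆ ω ∈ Φ,
            Sdelta F G (1 / ((k : ℝ) + 1)) ω z ^ (3 / 2 : ℝ)) Filter.atTop := by
          apply lintegral_mono
          intro z
          refine iSup₂_le fun ω hω => ?_
          have ht : Filter.Tendsto (fun k : ℕ => Sdelta F G (1 / ((k : ℝ) + 1)) ω z ^ (3 / 2 : ℝ))
              Filter.atTop (nhds (Ssum F G ω z ^ (3 / 2 : ℝ))) :=
            (ENNReal.continuous_rpow_const.tendsto _).comp (Sdelta_tendsto hF hFc hG hGc ω z)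
          rw [← ht.liminf_eq]
          refine Filter.liminf_le_liminf (Filter.Eventually.of_forall ?_)
            (by isBoundedDefault) (by isBoundedDefault)
          intro k
          exact le_iSup₂ (f := fun (ω : Conf n) (_ : ω ∈ Φ) =>
            Sdelta F G (1 / ((k : ℝ) + 1)) ω z ^ (3 / 2 : ℝ)) ω hω
      _ ≤ Filter.liminf (fun k : ℕ => ∫⁻ z, ⨆ ω ∈ Φ,
            Sdelta F G (1 / ((k : ℝ) + 1)) ω z ^ (3 / 2 : ℝ)) Filter.atTop := by
          apply lintegral_liminf_le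
          intro k
          apply Measurable.biSup _ Φ.countable_toSet
          intro ω _
          exact (measurable_Sdelta hF hG (hδk k) ω).pow_const _
      _ ≤ RHS := by
          apply Filter.liminf_le_of_le (by isBoundedDefault)
          intro b hb
          obtain ⟨k, hk⟩ := hb.exists
          exact hk.trans (delta_bound hlat hn hF hFc hG hGc (hδk k) Φ)
  have hmain : ∫⁻ z, annulusCount n F G z ^ (3 / 2 : ℝ) ≤ RHS := by
    calc ∫⁻ z, annulusCount n F G z ^ (3 / 2 : ℝ)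
        ≤ ∫⁻ z, ⨆ Φ : Finset (Conf n), ⨆ ω ∈ Φ, Ssum F G ω z ^ (3 / 2 : ℝ) := by
          apply lintegral_mono
          intro z
          simp only
          rw [← iSup_eq_iSup_finset]
          calc annulusCount n F G z ^ (3 / 2 : ℝ)
              ≤ (⨆ ω : Conf n, Ssum F G ω z) ^ (3 / 2 : ℝ) :=
                ENNReal.rpow_le_rpow (count_le n F G z) (by norm_num)
            _ = ⨆ ω : Conf n, Ssum F G ω z ^ (3 / 2 : ℝ) :=
                (ENNReal.orderIsoRpow (3 / 2 : ℝ) (by norm_num)).map_iSup _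
      _ = ⨆ Φ : Finset (Conf n), ∫⁻ z, ⨆ ω ∈ Φ, Ssum F G ω z ^ (3 / 2 : ℝ) := by
          apply lintegral_iSup_directed
          · intro Φ
            apply Measurable.aemeasurable
            apply Measurable.biSup _ Φ.countable_toSet
            intro ω _
            exact (hSm ω).pow_const _
          · intro Φ Ψ
            classical
            refine ⟨Φ ∪ Ψ, ?_, ?_⟩
            · intro z
              exact iSup₂_le fun ω hω => le_iSup₂ (f := fun (ω : Conf n) (_ : ω ∈ Φ ∪ Ψ) =>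
                Ssum F G ω z ^ (3 / 2 : ℝ)) ω (Finset.mem_union_left _ hω)
            · intro z
              exact iSup₂_le fun ω hω => le_iSup₂ (f := fun (ω : Conf n) (_ : ω ∈ Φ ∪ Ψ) =>
                Ssum F G ω z ^ (3 / 2 : ℝ)) ω (Finset.mem_union_right _ hω)
      _ ≤ RHS := iSup_le hfin
  calc (∫⁻ z, annulusCount n F G z ^ (3 / 2 : ℝ)) ^ (2 / 3 : ℝ) ≤ RHS ^ (2 / 3 : ℝ) :=
        ENNReal.rpow_le_rpow hmain (by norm_num)
    _ = ENNReal.ofReal (C * Real.sqrt n) * eLpNorm F 3 volume * eLpNorm G 3 volume := by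
        rw [hRHS, ENNReal.mul_rpow_of_nonneg _ _ (by norm_num),
          ENNReal.mul_rpow_of_nonneg _ _ (by norm_num), ← ENNReal.rpow_mul, ← ENNReal.rpow_mul,
          ← ENNReal.rpow_mul]
        rw [eLpNorm_eq_lintegral_rpow_enorm_toReal (by norm_num) (by norm_num),
          eLpNorm_eq_lintegral_rpow_enorm_toReal (by norm_num) (by norm_num)]
        norm_num

end Crest.Agent.R072.Transfer
end

-- ▼ part R072/Density

/-! R072: from continuous compactly supported functions to `L³` (density), any constant `K n`.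
(No imports from the rest of R072.) -/

set_option autoImplicit false

namespace Crest.Agent.R072.Density

open MeasureTheory Crest.AnalysisR Filter
open scoped ENNReal Topology

/-! ### the two shears are quasi-measure-preserving -/

theorem qmp_left : Measure.QuasiMeasurePreserving
    (fun w : (ℝ × ℝ) × ℝ => ((w.1.1 + w.2, w.1.2) : ℝ × ℝ)) (volume.prod volume) volume := by
  refine QuasiMeasurePreserving.prod_of_left (by fun_prop) ?_
  refine Eventually.of_forall fun t => ?_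
  have : MeasurePreserving (fun z : ℝ × ℝ => z + (t, 0)) volume volume :=
    measurePreserving_add_right volume _
  have h2 : (fun z : ℝ × ℝ => z + (t, 0)) = fun z : ℝ × ℝ => ((z.1 + t, z.2) : ℝ × ℝ) := by
    ext z <;> simp
  rw [h2] at this
  exact this.quasiMeasurePreserving

theorem qmp_right : Measure.QuasiMeasurePreserving
    (fun w : (ℝ × ℝ) × ℝ => ((w.1.1, w.1.2 + w.2) : ℝ × ℝ)) (volume.prod volume) volume := by
  refine QuasiMeasurePreserving.prod_of_left (by fun_prop) ?_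
  refine Eventually.of_forall fun t => ?_
  have : MeasurePreserving (fun z : ℝ × ℝ => z + (0, t)) volume volume :=
    measurePreserving_add_right volume _
  have h2 : (fun z : ℝ × ℝ => z + (0, t)) = fun z : ℝ × ℝ => ((z.1, z.2 + t) : ℝ × ℝ) := by
    ext z <;> simp
  rw [h2] at this
  exact this.quasiMeasurePreserving

/-- the integrand -/
noncomputable def kern (F G : ℝ × ℝ → ℂ) (w : (ℝ × ℝ) × ℝ) : ℂ :=
  F (w.1.1 + w.2, w.1.2) * G (w.1.1, w.1.2 + w.2) / (w.2 : ℂ)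

theorem aesm_kern {F G : ℝ × ℝ → ℂ} (hF : AEStronglyMeasurable F volume)
    (hG : AEStronglyMeasurable G volume) :
    AEStronglyMeasurable (kern F G) (volume.prod volume) := by
  have h1 := hF.comp_quasiMeasurePreserving qmp_left
  have h2 := hG.comp_quasiMeasurePreserving qmp_right
  have h3 : AEStronglyMeasurable (fun w : (ℝ × ℝ) × ℝ => ((w.2 : ℂ))⁻¹) (volume.prod volume) := by
    have : Measurable (fun w : (ℝ × ℝ) × ℝ => ((w.2 : ℂ))⁻¹) := by fun_prop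
    exact this.aestronglyMeasurable
  have h4 := (h1.mul h2).mul h3
  refine h4.congr (Eventually.of_forall fun w => ?_)
  simp only [kern, Pi.mul_apply, Function.comp, div_eq_mul_inv]

/-- the annulus -/
def ann (ε R : ℝ) : Set ℝ := {t : ℝ | ε < |t| ∧ |t| < R}

theorem measurableSet_ann (ε R : ℝ) : MeasurableSet (ann ε R) := by
  apply MeasurableSet.inter
  · exact measurableSet_lt measurable_const continuous_abs.measurable
  · exact measurableSet_lt continuous_abs.measurable measurable_const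

theorem ht_eq (F G : ℝ × ℝ → ℂ) (ε R : ℝ) (z : ℝ × ℝ) :
    annularTriangularHT F G ε R z = ∫ t in ann ε R, kern F G (z, t) := rfl

theorem aesm_kern_ann {F G : ℝ × ℝ → ℂ} (hF : AEStronglyMeasurable F volume)
    (hG : AEStronglyMeasurable G volume) (ε R : ℝ) :
    AEStronglyMeasurable (kern F G)
      ((volume : Measure (ℝ × ℝ)).prod (volume.restrict (ann ε R))) := by
  have h := aesm_kern hF hG
  have : (volume : Measure (ℝ × ℝ)).prod ((volume : Measure ℝ).restrict (ann ε R)) =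
      ((volume : Measure (ℝ × ℝ)).prod volume).restrict (Set.univ ×ˢ ann ε R) := by
    rw [← Measure.prod_restrict, Measure.restrict_univ]
  rw [this]
  exact h.restrict

theorem aemeasurable_ht {F G : ℝ × ℝ → ℂ} (hF : MemLp F 3 volume) (hG : MemLp G 3 volume)
    (ε R : ℝ) : AEStronglyMeasurable (annularTriangularHT F G ε R) volume := by
  have h := (aesm_kern_ann hF.1 hG.1 ε R).integral_prod_right'
  exact h

/-- the size of the annulus -/
theorem vol_ann_le (ε R : ℝ) : volume (ann ε R) ≤ ENNReal.ofReal (2 * R) := by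
  have : ann ε R ⊆ Set.Ioo (-R) R := by
    intro t ht
    exact abs_lt.1 ht.2
  refine (measure_mono this).trans ?_
  rw [Real.volume_Ioo]
  apply ENNReal.ofReal_le_ofReal
  linarith

/-- the majorant -/
noncomputable def maj (F G : ℝ × ℝ → ℂ) (ε R : ℝ) (z : ℝ × ℝ) : ℝ≥0∞ :=
  ∫⁻ t in ann ε R, ‖kern F G (z, t)‖ₑ

theorem enorm_ht_le (F G : ℝ × ℝ → ℂ) (ε R : ℝ) (z : ℝ × ℝ) :
    ‖annularTriangularHT F G ε R z‖ₑ ≤ maj F G ε R z := by
  rw [ht_eq]
  exact enorm_integral_le_lintegral_enorm _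

theorem eLpNorm_three {F : ℝ × ℝ → ℂ} : ∫⁻ z, ‖F z‖ₑ ^ (3 : ℝ) = eLpNorm F 3 volume ^ (3 : ℝ) := by
  rw [eLpNorm_eq_lintegral_rpow_enorm_toReal (by norm_num) (by norm_num)]
  simp only [ENNReal.toReal_ofNat]
  rw [← ENNReal.rpow_mul]
  norm_num

theorem lint_shift_left (f : ℝ × ℝ → ℝ≥0∞) (t : ℝ) :
    ∫⁻ z : ℝ × ℝ, f (z.1 + t, z.2) = ∫⁻ z : ℝ × ℝ, f z := by
  have h := lintegral_add_right_eq_self (μ := (volume : Measure (ℝ × ℝ))) f ((t, 0) : ℝ × ℝ)
  rw [← h]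
  apply lintegral_congr
  intro z
  congr 1
  ext <;> simp

theorem lint_shift_right (f : ℝ × ℝ → ℝ≥0∞) (t : ℝ) :
    ∫⁻ z : ℝ × ℝ, f (z.1, z.2 + t) = ∫⁻ z : ℝ × ℝ, f z := by
  have h := lintegral_add_right_eq_self (μ := (volume : Measure (ℝ × ℝ))) f ((0, t) : ℝ × ℝ)
  rw [← h]
  apply lintegral_congr
  intro z
  congr 1
  ext <;> simp

/-- Jensen for `3/2` -/
theorem jensen_three_halves {α : Type*} [MeasurableSpace α] (μ : Measure α) (f : α → ℝ≥0∞)
    (hf : AEMeasurable f μ) :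
    (∫⁻ a, f a ∂μ) ^ (3 / 2 : ℝ) ≤ (∫⁻ a, f a ^ (3 / 2 : ℝ) ∂μ) * μ Set.univ ^ (1 / 2 : ℝ) := by
  have hpq : (3 / 2 : ℝ).HolderConjugate 3 := by
    rw [Real.holderConjugate_iff]; norm_num
  have h := ENNReal.lintegral_mul_le_Lp_mul_Lq μ hpq hf (aemeasurable_const (b := (1 : ℝ≥0∞)))
  simp only [Pi.mul_apply, mul_one, ENNReal.one_rpow, lintegral_const, one_mul] at h
  calc (∫⁻ a, f a ∂μ) ^ (3 / 2 : ℝ)
      ≤ ((∫⁻ a, f a ^ (3 / 2 : ℝ) ∂μ) ^ (1 / (3 / 2) : ℝ) * μ Set.univ ^ (1 / 3 : ℝ)) ^ (3 / 2 : ℝ) :=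
        ENNReal.rpow_le_rpow h (by norm_num)
    _ = _ := by
        rw [ENNReal.mul_rpow_of_nonneg _ _ (by norm_num), ← ENNReal.rpow_mul, ← ENNReal.rpow_mul]
        norm_num

theorem lint_maj_le {F G : ℝ × ℝ → ℂ} (hF : AEStronglyMeasurable F volume)
    (hG : AEStronglyMeasurable G volume) {ε R : ℝ} (hε : 0 < ε) (hR : ε < R) :
    (∫⁻ z, maj F G ε R z ^ (3 / 2 : ℝ)) ^ (2 / 3 : ℝ) ≤
      ENNReal.ofReal (2 * R / ε) * eLpNorm F 3 volume * eLpNorm G 3 volume := by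
  set A := ann ε R with hA
  have hAm : MeasurableSet A := measurableSet_ann ε R
  have hk := aesm_kern_ann hF hG ε R
  -- pointwise in t
  have hin : ∀ t ∈ A, ∫⁻ z : ℝ × ℝ, ‖kern F G (z, t)‖ₑ ^ (3 / 2 : ℝ) ≤
      ENNReal.ofReal (1 / ε) ^ (3 / 2 : ℝ) * (eLpNorm F 3 volume ^ (3 / 2 : ℝ) *
        eLpNorm G 3 volume ^ (3 / 2 : ℝ)) := by
    intro t ht
    have h1 : ∀ z : ℝ × ℝ, ‖kern F G (z, t)‖ₑ ^ (3 / 2 : ℝ) ≤
        ENNReal.ofReal (1 / ε) ^ (3 / 2 : ℝ) *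
          ((‖F (z.1 + t, z.2)‖ₑ ^ (3 : ℝ)) ^ (1 / 2 : ℝ) *
            (‖G (z.1, z.2 + t)‖ₑ ^ (3 : ℝ)) ^ (1 / 2 : ℝ)) := by
      intro z
      have e1 : ‖kern F G (z, t)‖ₑ ≤ ENNReal.ofReal (1 / ε) *
          (‖F (z.1 + t, z.2)‖ₑ * ‖G (z.1, z.2 + t)‖ₑ) := by
        have : kern F G (z, t) = ((t : ℂ))⁻¹ * (F (z.1 + t, z.2) * G (z.1, z.2 + t)) := by
          simp only [kern, div_eq_mul_inv]; ring
        rw [this, enorm_mul, enorm_mul]
        gcongr
        rw [← ofReal_norm, norm_inv, Complex.norm_real, Real.norm_eq_abs]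
        apply ENNReal.ofReal_le_ofReal
        rw [one_div]
        exact inv_anti₀ hε ht.1.le
      calc ‖kern F G (z, t)‖ₑ ^ (3 / 2 : ℝ) ≤ (ENNReal.ofReal (1 / ε) *
          (‖F (z.1 + t, z.2)‖ₑ * ‖G (z.1, z.2 + t)‖ₑ)) ^ (3 / 2 : ℝ) :=
            ENNReal.rpow_le_rpow e1 (by norm_num)
        _ = _ := by
            rw [ENNReal.mul_rpow_of_nonneg _ _ (by norm_num),
              ENNReal.mul_rpow_of_nonneg _ _ (by norm_num), ← ENNReal.rpow_mul, ← ENNReal.rpow_mul]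
            norm_num
    have hFm : AEMeasurable (fun z : ℝ × ℝ => ‖F (z.1 + t, z.2)‖ₑ ^ (3 : ℝ)) volume := by
      have hmp : MeasurePreserving (fun z : ℝ × ℝ => ((z.1 + t, z.2) : ℝ × ℝ)) volume volume := by
        have : MeasurePreserving (fun z : ℝ × ℝ => z + (t, 0)) volume volume :=
          measurePreserving_add_right volume _
        have h2 : (fun z : ℝ × ℝ => z + (t, 0)) = fun z : ℝ × ℝ => ((z.1 + t, z.2) : ℝ × ℝ) := by
          ext z <;> simp
        rwa [h2] at this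
      exact ((hF.comp_quasiMeasurePreserving hmp.quasiMeasurePreserving).enorm).pow_const _
    have hGm : AEMeasurable (fun z : ℝ × ℝ => ‖G (z.1, z.2 + t)‖ₑ ^ (3 : ℝ)) volume := by
      have hmp : MeasurePreserving (fun z : ℝ × ℝ => ((z.1, z.2 + t) : ℝ × ℝ)) volume volume := by
        have : MeasurePreserving (fun z : ℝ × ℝ => z + (0, t)) volume volume :=
          measurePreserving_add_right volume _
        have h2 : (fun z : ℝ × ℝ => z + (0, t)) = fun z : ℝ × ℝ => ((z.1, z.2 + t) : ℝ × ℝ) := by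
          ext z <;> simp
        rwa [h2] at this
      exact ((hG.comp_quasiMeasurePreserving hmp.quasiMeasurePreserving).enorm).pow_const _
    calc ∫⁻ z : ℝ × ℝ, ‖kern F G (z, t)‖ₑ ^ (3 / 2 : ℝ)
        ≤ ∫⁻ z : ℝ × ℝ, ENNReal.ofReal (1 / ε) ^ (3 / 2 : ℝ) *
          ((‖F (z.1 + t, z.2)‖ₑ ^ (3 : ℝ)) ^ (1 / 2 : ℝ) *
            (‖G (z.1, z.2 + t)‖ₑ ^ (3 : ℝ)) ^ (1 / 2 : ℝ)) := lintegral_mono h1
      _ = ENNReal.ofReal (1 / ε) ^ (3 / 2 : ℝ) *
          ∫⁻ z : ℝ × ℝ, ((‖F (z.1 + t, z.2)‖ₑ ^ (3 : ℝ)) ^ (1 / 2 : ℝ) *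
            (‖G (z.1, z.2 + t)‖ₑ ^ (3 : ℝ)) ^ (1 / 2 : ℝ)) := by
          rw [lintegral_const_mul' _ _ (by
            exact ENNReal.rpow_ne_top_of_nonneg (by norm_num) ENNReal.ofReal_ne_top)]
      _ ≤ ENNReal.ofReal (1 / ε) ^ (3 / 2 : ℝ) *
          ((∫⁻ z : ℝ × ℝ, ‖F (z.1 + t, z.2)‖ₑ ^ (3 : ℝ)) ^ (1 / 2 : ℝ) *
            (∫⁻ z : ℝ × ℝ, ‖G (z.1, z.2 + t)‖ₑ ^ (3 : ℝ)) ^ (1 / 2 : ℝ)) := by
          gcongr
          exact ENNReal.lintegral_mul_norm_pow_le hFm hGm (by norm_num) (by norm_num) (by norm_num)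
      _ = _ := by
          rw [lint_shift_left (fun z => ‖F z‖ₑ ^ (3 : ℝ)) t,
            lint_shift_right (fun z => ‖G z‖ₑ ^ (3 : ℝ)) t, eLpNorm_three, eLpNorm_three,
            ← ENNReal.rpow_mul, ← ENNReal.rpow_mul]
          norm_num
  have hvol : volume A ≤ ENNReal.ofReal (2 * R) := vol_ann_le ε R
  have hmain : ∫⁻ z, maj F G ε R z ^ (3 / 2 : ℝ) ≤
      (ENNReal.ofReal (2 * R / ε) * eLpNorm F 3 volume * eLpNorm G 3 volume) ^ (3 / 2 : ℝ) := by
    calc ∫⁻ z, maj F G ε R z ^ (3 / 2 : ℝ)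
        ≤ ∫⁻ z : ℝ × ℝ, (∫⁻ t in A, ‖kern F G (z, t)‖ₑ ^ (3 / 2 : ℝ)) * volume A ^ (1 / 2 : ℝ) := by
          apply lintegral_mono_ae
          filter_upwards [hk.prodMk_left] with z hz
          have := jensen_three_halves (volume.restrict A) (fun t => ‖kern F G (z, t)‖ₑ) hz.enorm
          rw [Measure.restrict_apply_univ] at this
          exact this
      _ = (∫⁻ z : ℝ × ℝ, ∫⁻ t in A, ‖kern F G (z, t)‖ₑ ^ (3 / 2 : ℝ)) *
            volume A ^ (1 / 2 : ℝ) := by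
          rw [lintegral_mul_const']
          exact ENNReal.rpow_ne_top_of_nonneg (by norm_num)
            (ne_top_of_le_ne_top ENNReal.ofReal_ne_top hvol)
      _ = (∫⁻ t in A, ∫⁻ z : ℝ × ℝ, ‖kern F G (z, t)‖ₑ ^ (3 / 2 : ℝ)) *
            volume A ^ (1 / 2 : ℝ) := by
          rw [lintegral_lintegral_swap]
          exact (hk.enorm.pow_const (3 / 2 : ℝ))
      _ ≤ (∫⁻ _t in A, ENNReal.ofReal (1 / ε) ^ (3 / 2 : ℝ) * (eLpNorm F 3 volume ^ (3 / 2 : ℝ) *
        eLpNorm G 3 volume ^ (3 / 2 : ℝ))) * volume A ^ (1 / 2 : ℝ) := by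
          exact mul_le_mul' (setLIntegral_mono' hAm hin) le_rfl
      _ = (ENNReal.ofReal (1 / ε) * volume A * eLpNorm F 3 volume *
            eLpNorm G 3 volume) ^ (3 / 2 : ℝ) := by
          rw [setLIntegral_const, ENNReal.mul_rpow_of_nonneg _ _ (by norm_num),
            ENNReal.mul_rpow_of_nonneg _ _ (by norm_num),
            ENNReal.mul_rpow_of_nonneg _ _ (by norm_num)]
          have : volume A ^ (3 / 2 : ℝ) = volume A * volume A ^ (1 / 2 : ℝ) := by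
            conv_rhs => rw [← ENNReal.rpow_one (volume A)]
            rw [← ENNReal.rpow_mul, ← ENNReal.rpow_add_of_nonneg _ _ (by norm_num) (by norm_num)]
            norm_num
          rw [this]
          ring
      _ ≤ (ENNReal.ofReal (2 * R / ε) * eLpNorm F 3 volume *
            eLpNorm G 3 volume) ^ (3 / 2 : ℝ) := by
          apply ENNReal.rpow_le_rpow _ (by norm_num)
          gcongr
          calc ENNReal.ofReal (1 / ε) * volume A
              ≤ ENNReal.ofReal (1 / ε) * ENNReal.ofReal (2 * R) := by gcongr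
            _ = ENNReal.ofReal (2 * R / ε) := by
                rw [← ENNReal.ofReal_mul (by positivity)]
                congr 1
                field_simp
  calc (∫⁻ z, maj F G ε R z ^ (3 / 2 : ℝ)) ^ (2 / 3 : ℝ)
      ≤ ((ENNReal.ofReal (2 * R / ε) * eLpNorm F 3 volume *
            eLpNorm G 3 volume) ^ (3 / 2 : ℝ)) ^ (2 / 3 : ℝ) :=
        ENNReal.rpow_le_rpow hmain (by norm_num)
    _ = _ := by
        rw [← ENNReal.rpow_mul]
        norm_num

/-- single truncation: `‖B_{ε,R}(F,G)‖_{3/2} ≤ (2R/ε) ‖F‖₃ ‖G‖₃`. -/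
theorem single_bound {F G : ℝ × ℝ → ℂ} (hF : MemLp F 3 volume) (hG : MemLp G 3 volume)
    {ε R : ℝ} (hε : 0 < ε) (hR : ε < R) :
    (∫⁻ z, ‖annularTriangularHT F G ε R z‖ₑ ^ (3 / 2 : ℝ)) ^ (2 / 3 : ℝ) ≤
      ENNReal.ofReal (2 * R / ε) * eLpNorm F 3 volume * eLpNorm G 3 volume := by
  refine le_trans (ENNReal.rpow_le_rpow (lintegral_mono fun z => ?_) (by norm_num))
    (lint_maj_le hF.1 hG.1 hε hR)
  exact ENNReal.rpow_le_rpow (enorm_ht_le F G ε R z) (by norm_num)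

/-- the integrand is integrable for a.e. `z` -/
theorem ae_integrable {F G : ℝ × ℝ → ℂ} (hF : MemLp F 3 volume) (hG : MemLp G 3 volume)
    {ε R : ℝ} (hε : 0 < ε) (hR : ε < R) :
    ∀ᵐ z : ℝ × ℝ, IntegrableOn (fun t => kern F G (z, t)) (ann ε R) := by
  have hk := aesm_kern_ann hF.1 hG.1 ε R
  have hm : AEMeasurable (fun z => maj F G ε R z ^ (3 / 2 : ℝ)) volume := by
    have : AEMeasurable (fun z => maj F G ε R z) volume :=
      (hk.enorm).lintegral_prod_right'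
    exact this.pow_const _
  have hfin : ∫⁻ z, maj F G ε R z ^ (3 / 2 : ℝ) ≠ ∞ := by
    intro h
    have h2 := lint_maj_le hF.1 hG.1 hε hR
    rw [h, ENNReal.top_rpow_of_pos (by norm_num), top_le_iff] at h2
    exact ENNReal.mul_ne_top (ENNReal.mul_ne_top ENNReal.ofReal_ne_top hF.2.ne) hG.2.ne h2
  filter_upwards [hk.prodMk_left, ae_lt_top' hm hfin] with z hz hz2
  refine ⟨hz, ?_⟩
  have : maj F G ε R z ≠ ∞ := by
    intro h
    rw [h, ENNReal.top_rpow_of_pos (by norm_num)] at hz2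
    exact lt_irrefl _ hz2
  exact lt_top_iff_ne_top.2 this

/-- additivity a.e. -/
theorem ht_sub_left {F F' G : ℝ × ℝ → ℂ} (hF : MemLp F 3 volume) (hF' : MemLp F' 3 volume)
    (hG : MemLp G 3 volume) {ε R : ℝ} (hε : 0 < ε) (hR : ε < R) :
    ∀ᵐ z : ℝ × ℝ, annularTriangularHT (F - F') G ε R z =
      annularTriangularHT F G ε R z - annularTriangularHT F' G ε R z := by
  filter_upwards [ae_integrable hF hG hε hR, ae_integrable hF' hG hε hR] with z h1 h2
  rw [ht_eq, ht_eq, ht_eq, ← integral_sub h1 h2]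
  congr 1
  ext t
  simp only [kern, Pi.sub_apply]
  ring

theorem ht_sub_right {F G G' : ℝ × ℝ → ℂ} (hF : MemLp F 3 volume) (hG : MemLp G 3 volume)
    (hG' : MemLp G' 3 volume) {ε R : ℝ} (hε : 0 < ε) (hR : ε < R) :
    ∀ᵐ z : ℝ × ℝ, annularTriangularHT F (G - G') ε R z =
      annularTriangularHT F G ε R z - annularTriangularHT F G' ε R z := by
  filter_upwards [ae_integrable hF hG hε hR, ae_integrable hF hG' hε hR] with z h1 h2
  rw [ht_eq, ht_eq, ht_eq, ← integral_sub h1 h2]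
  congr 1
  ext t
  simp only [kern, Pi.sub_apply]
  ring

/-! ### the finite index set of families -/

/-- admissible families -/
structure Fam (n : ℕ) where
  m : ℕ
  hm : m ≤ n
  e : Fin m → ℚ
  R : Fin m → ℚ
  h : ∀ j, 0 < e j ∧ e j < R j
  d : ∀ i j, i ≠ j → R i ≤ e j ∨ R j ≤ e i

instance (n : ℕ) : Countable (Fam n) := by
  let f : Fam n → (Σ m : ℕ, (Fin m → ℚ) × (Fin m → ℚ)) := fun x => ⟨x.m, (x.e, x.R)⟩
  have hf : Function.Injective f := by
    rintro ⟨m, hm, e, R, h, d⟩ ⟨m', hm', e', R', h', d'⟩ hxy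
    simp only [f, Sigma.mk.injEq] at hxy
    obtain ⟨rfl, h2⟩ := hxy
    simp only [heq_eq_eq, Prod.mk.injEq] at h2
    obtain ⟨rfl, rfl⟩ := h2
    rfl
  exact hf.countable

/-- the sum over one family -/
noncomputable def SS {n : ℕ} (a : Fam n) (F G : ℝ × ℝ → ℂ) (z : ℝ × ℝ) : ℝ≥0∞ :=
  ∑ j, ‖annularTriangularHT F G (a.e j : ℝ) (a.R j : ℝ) z‖ₑ

theorem annulusCount_eq (n : ℕ) (F G : ℝ × ℝ → ℂ) (z : ℝ × ℝ) :
    annulusCount n F G z = ⨆ a : Fam n, SS a F G z := by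
  apply le_antisymm
  · unfold annulusCount
    refine iSup_le fun m => iSup_le fun hm => iSup_le fun e => iSup_le fun R => iSup_le fun h =>
      iSup_le fun d => ?_
    exact le_iSup (fun a : Fam n => SS a F G z) ⟨m, hm, e, R, h, d⟩
  · refine iSup_le fun a => ?_
    unfold annulusCount
    exact le_iSup_of_le a.m (le_iSup_of_le a.hm (le_iSup_of_le a.e (le_iSup_of_le a.R
      (le_iSup_of_le a.h (le_iSup_of_le a.d le_rfl)))))

/-- sup over a finite set of families -/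
noncomputable def TT {n : ℕ} (s : Finset (Fam n)) (F G : ℝ × ℝ → ℂ) (z : ℝ × ℝ) : ℝ≥0∞ :=
  s.sup fun a => SS a F G z

theorem SS_le_count {n : ℕ} (a : Fam n) (F G : ℝ × ℝ → ℂ) (z : ℝ × ℝ) :
    SS a F G z ≤ annulusCount n F G z := by
  rw [annulusCount_eq]
  exact le_iSup (fun a : Fam n => SS a F G z) a

theorem TT_le_count {n : ℕ} (s : Finset (Fam n)) (F G : ℝ × ℝ → ℂ) (z : ℝ × ℝ) :
    TT s F G z ≤ annulusCount n F G z := by
  unfold TT
  exact Finset.sup_le fun a _ => SS_le_count a F G z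

theorem annulusCount_eq_TT (n : ℕ) (F G : ℝ × ℝ → ℂ) (z : ℝ × ℝ) :
    annulusCount n F G z = ⨆ s : Finset (Fam n), TT s F G z := by
  apply le_antisymm
  · rw [annulusCount_eq]
    refine iSup_le fun a => le_iSup_of_le {a} ?_
    simp [TT]
  · exact iSup_le fun s => TT_le_count s F G z

theorem aemeasurable_SS {n : ℕ} (a : Fam n) {F G : ℝ × ℝ → ℂ} (hF : MemLp F 3 volume)
    (hG : MemLp G 3 volume) : AEMeasurable (fun z => SS a F G z) volume := by
  unfold SS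
  exact Finset.aemeasurable_fun_sum _ fun j _ => (aemeasurable_ht hF hG _ _).enorm

theorem aemeasurable_TT {n : ℕ} (s : Finset (Fam n)) {F G : ℝ × ℝ → ℂ} (hF : MemLp F 3 volume)
    (hG : MemLp G 3 volume) : AEMeasurable (fun z => TT s F G z) volume := by
  classical
  induction s using Finset.induction_on with
  | empty => simp [TT]
  | insert a s _ ih =>
    have : (fun z => TT (insert a s) F G z) = fun z => SS a F G z ⊔ TT s F G z := by
      ext z; simp [TT]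
    rw [this]
    exact (aemeasurable_SS a hF hG).sup ih

/-- the `L^{3/2}` size -/
noncomputable def N32 (f : ℝ × ℝ → ℝ≥0∞) : ℝ≥0∞ := (∫⁻ z, f z ^ (3 / 2 : ℝ)) ^ (2 / 3 : ℝ)

theorem N32_mono {f g : ℝ × ℝ → ℝ≥0∞} (h : ∀ᵐ z, f z ≤ g z) : N32 f ≤ N32 g := by
  unfold N32
  refine ENNReal.rpow_le_rpow (lintegral_mono_ae ?_) (by norm_num)
  filter_upwards [h] with z hz
  exact ENNReal.rpow_le_rpow hz (by norm_num)

theorem N32_zero : N32 (fun _ => 0) = 0 := by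
  unfold N32
  simp

theorem N32_add_le {f g : ℝ × ℝ → ℝ≥0∞} (hf : AEMeasurable f volume) (hg : AEMeasurable g volume) :
    N32 (fun z => f z + g z) ≤ N32 f + N32 g := by
  have h := ENNReal.lintegral_Lp_add_le (p := 3 / 2) hf hg (by norm_num)
  have e : (1 / (3 / 2) : ℝ) = 2 / 3 := by norm_num
  rw [e] at h
  exact h

theorem N32_sum_le {ι : Type*} (s : Finset ι) (f : ι → ℝ × ℝ → ℝ≥0∞)
    (hf : ∀ i ∈ s, AEMeasurable (f i) volume) :
    N32 (fun z => ∑ i ∈ s, f i z) ≤ ∑ i ∈ s, N32 (f i) := by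
  classical
  induction s using Finset.induction_on with
  | empty => simp [N32_zero]
  | insert a s ha ih =>
    simp only [Finset.sum_insert ha]
    refine (N32_add_le (hf a (Finset.mem_insert_self _ _)) ?_).trans ?_
    · exact Finset.aemeasurable_fun_sum _ fun i hi => hf i (Finset.mem_insert_of_mem hi)
    · gcongr
      exact ih fun i hi => hf i (Finset.mem_insert_of_mem hi)

/-- the crude constant of a family -/
noncomputable def cst {n : ℕ} (a : Fam n) : ℝ≥0∞ :=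
  ∑ j, ENNReal.ofReal (2 * (a.R j : ℝ) / (a.e j : ℝ))

theorem cst_ne_top {n : ℕ} (a : Fam n) : cst a ≠ ∞ := by
  unfold cst
  exact (ENNReal.sum_lt_top.2 fun j _ => ENNReal.ofReal_lt_top).ne

theorem N32_SS_le {n : ℕ} (a : Fam n) {F G : ℝ × ℝ → ℂ} (hF : MemLp F 3 volume)
    (hG : MemLp G 3 volume) :
    N32 (fun z => SS a F G z) ≤ cst a * eLpNorm F 3 volume * eLpNorm G 3 volume := by
  unfold SS cst
  refine (N32_sum_le _ _ fun j _ => (aemeasurable_ht hF hG _ _).enorm).trans ?_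
  rw [Finset.sum_mul, Finset.sum_mul]
  refine Finset.sum_le_sum fun j _ => ?_
  have h := a.h j
  exact single_bound hF hG (by exact_mod_cast h.1) (by exact_mod_cast h.2)

theorem N32_TT_le {n : ℕ} (s : Finset (Fam n)) {F G : ℝ × ℝ → ℂ} (hF : MemLp F 3 volume)
    (hG : MemLp G 3 volume) :
    N32 (fun z => TT s F G z) ≤ (∑ a ∈ s, cst a) * eLpNorm F 3 volume * eLpNorm G 3 volume := by
  have h1 : ∀ z, TT s F G z ≤ ∑ a ∈ s, SS a F G z := by
    intro z
    unfold TT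
    refine Finset.sup_le fun a ha => ?_
    exact Finset.single_le_sum (f := fun a => SS a F G z) (fun _ _ => zero_le) ha
  refine (N32_mono (Eventually.of_forall h1)).trans ?_
  refine (N32_sum_le _ _ fun a _ => aemeasurable_SS a hF hG).trans ?_
  rw [Finset.sum_mul, Finset.sum_mul]
  exact Finset.sum_le_sum fun a _ => N32_SS_le a hF hG

/-- a.e. triangle inequality for one family -/
theorem SS_ae_le {n : ℕ} (a : Fam n) {F G F' G' : ℝ × ℝ → ℂ} (hF : MemLp F 3 volume)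
    (hG : MemLp G 3 volume) (hF' : MemLp F' 3 volume) (hG' : MemLp G' 3 volume) :
    ∀ᵐ z : ℝ × ℝ, SS a F G z ≤ SS a F' G' z + (SS a (F - F') G' z + SS a F (G - G') z) := by
  have h1 : ∀ j, ∀ᵐ z : ℝ × ℝ, annularTriangularHT (F - F') G' (a.e j : ℝ) (a.R j : ℝ) z =
      annularTriangularHT F G' (a.e j : ℝ) (a.R j : ℝ) z -
        annularTriangularHT F' G' (a.e j : ℝ) (a.R j : ℝ) z := fun j =>
    ht_sub_left hF hF' hG' (by exact_mod_cast (a.h j).1) (by exact_mod_cast (a.h j).2)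
  have h2 : ∀ j, ∀ᵐ z : ℝ × ℝ, annularTriangularHT F (G - G') (a.e j : ℝ) (a.R j : ℝ) z =
      annularTriangularHT F G (a.e j : ℝ) (a.R j : ℝ) z -
        annularTriangularHT F G' (a.e j : ℝ) (a.R j : ℝ) z := fun j =>
    ht_sub_right hF hG hG' (by exact_mod_cast (a.h j).1) (by exact_mod_cast (a.h j).2)
  filter_upwards [ae_all_iff.2 h1, ae_all_iff.2 h2] with z hz1 hz2
  unfold SS
  rw [← Finset.sum_add_distrib, ← Finset.sum_add_distrib]
  refine Finset.sum_le_sum fun j _ => ?_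
  have e : annularTriangularHT F G (a.e j : ℝ) (a.R j : ℝ) z =
      annularTriangularHT F' G' (a.e j : ℝ) (a.R j : ℝ) z +
        (annularTriangularHT (F - F') G' (a.e j : ℝ) (a.R j : ℝ) z +
          annularTriangularHT F (G - G') (a.e j : ℝ) (a.R j : ℝ) z) := by
    rw [hz1 j, hz2 j]; ring
  rw [e]
  exact (enorm_add_le _ _).trans (add_le_add le_rfl (enorm_add_le _ _))

theorem TT_ae_le {n : ℕ} (s : Finset (Fam n)) {F G F' G' : ℝ × ℝ → ℂ} (hF : MemLp F 3 volume)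
    (hG : MemLp G 3 volume) (hF' : MemLp F' 3 volume) (hG' : MemLp G' 3 volume) :
    ∀ᵐ z : ℝ × ℝ, TT s F G z ≤ TT s F' G' z + (TT s (F - F') G' z + TT s F (G - G') z) := by
  have h : ∀ a : Fam n, ∀ᵐ z : ℝ × ℝ,
      SS a F G z ≤ SS a F' G' z + (SS a (F - F') G' z + SS a F (G - G') z) := fun a =>
    SS_ae_le a hF hG hF' hG'
  filter_upwards [ae_all_iff.2 h] with z hz
  unfold TT
  refine Finset.sup_le fun a ha => (hz a).trans ?_
  refine add_le_add ?_ (add_le_add ?_ ?_)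
  · exact Finset.le_sup (f := fun a => SS a F' G' z) ha
  · exact Finset.le_sup (f := fun a => SS a (F - F') G' z) ha
  · exact Finset.le_sup (f := fun a => SS a F (G - G') z) ha

/-- **Density.** -/
theorem count_density (K : ℝ≥0∞) (n : ℕ)
    (hcc : ∀ F G : ℝ × ℝ → ℂ, Continuous F → HasCompactSupport F → Continuous G →
      HasCompactSupport G → (∫⁻ z, annulusCount n F G z ^ (3 / 2 : ℝ)) ^ (2 / 3 : ℝ) ≤
        K * eLpNorm F 3 volume * eLpNorm G 3 volume)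
    (F G : ℝ × ℝ → ℂ) (hF : MemLp F 3 volume) (hG : MemLp G 3 volume) :
    (∫⁻ z, annulusCount n F G z ^ (3 / 2 : ℝ)) ^ (2 / 3 : ℝ) ≤
      K * eLpNorm F 3 volume * eLpNorm G 3 volume := by
  classical
  -- bound for finite sets of families
  have hfin : ∀ s : Finset (Fam n), N32 (fun z => TT s F G z) ≤
      K * eLpNorm F 3 volume * eLpNorm G 3 volume := by
    intro s
    set Cs : ℝ≥0∞ := ∑ a ∈ s, cst a with hCs
    have hCtop : Cs ≠ ∞ := (ENNReal.sum_lt_top.2 fun a _ => (cst_ne_top a).lt_top).ne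
    by_cases hF0 : eLpNorm F 3 volume = 0
    · refine (N32_TT_le s hF hG).trans ?_
      simp [hF0]
    by_cases hG0 : eLpNorm G 3 volume = 0
    · refine (N32_TT_le s hF hG).trans ?_
      simp [hG0]
    by_cases hK : K = ∞
    · rw [hK, ENNReal.top_mul hF0, ENNReal.top_mul hG0]
      exact le_top
    -- approximations
    have happ : ∀ η : ℝ≥0∞, η ≠ 0 → N32 (fun z => TT s F G z) ≤
        K * (eLpNorm F 3 volume + η) * (eLpNorm G 3 volume + η) +
          (Cs * η * (eLpNorm G 3 volume + η) + Cs * eLpNorm F 3 volume * η) := by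
      intro η hη
      obtain ⟨F', hF's, hF'e, hF'c, hF'm⟩ :=
        hF.exists_hasCompactSupport_eLpNorm_sub_le (by norm_num) hη
      obtain ⟨G', hG's, hG'e, hG'c, hG'm⟩ :=
        hG.exists_hasCompactSupport_eLpNorm_sub_le (by norm_num) hη
      have hF'n : eLpNorm F' 3 volume ≤ eLpNorm F 3 volume + η := by
        have : F' = F - (F - F') := by simp
        rw [this]
        refine (eLpNorm_sub_le hF.1 (hF.sub hF'm).1 (by norm_num)).trans ?_
        gcongr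
      have hG'n : eLpNorm G' 3 volume ≤ eLpNorm G 3 volume + η := by
        have : G' = G - (G - G') := by simp
        rw [this]
        refine (eLpNorm_sub_le hG.1 (hG.sub hG'm).1 (by norm_num)).trans ?_
        gcongr
      calc N32 (fun z => TT s F G z)
          ≤ N32 (fun z => TT s F' G' z + (TT s (F - F') G' z + TT s F (G - G') z)) :=
            N32_mono (TT_ae_le s hF hG hF'm hG'm)
        _ ≤ N32 (fun z => TT s F' G' z) + (N32 (fun z => TT s (F - F') G' z) +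
              N32 (fun z => TT s F (G - G') z)) := by
            refine (N32_add_le (aemeasurable_TT s hF'm hG'm)
              ((aemeasurable_TT s (hF.sub hF'm) hG'm).add
                (aemeasurable_TT s hF (hG.sub hG'm)))).trans ?_
            gcongr
            exact N32_add_le (aemeasurable_TT s (hF.sub hF'm) hG'm)
                (aemeasurable_TT s hF (hG.sub hG'm))
        _ ≤ K * eLpNorm F' 3 volume * eLpNorm G' 3 volume +
              (Cs * eLpNorm (F - F') 3 volume * eLpNorm G' 3 volume +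
                Cs * eLpNorm F 3 volume * eLpNorm (G - G') 3 volume) := by
            refine add_le_add ?_ (add_le_add (N32_TT_le s (hF.sub hF'm) hG'm)
              (N32_TT_le s hF (hG.sub hG'm)))
            refine (N32_mono (Eventually.of_forall fun z => TT_le_count s F' G' z)).trans ?_
            exact hcc F' G' hF'c hF's hG'c hG's
        _ ≤ _ := by gcongr
    have htend : Tendsto (fun η : ℝ≥0∞ => K * (eLpNorm F 3 volume + η) * (eLpNorm G 3 volume + η) +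
          (Cs * η * (eLpNorm G 3 volume + η) + Cs * eLpNorm F 3 volume * η)) (𝓝[≠] 0)
          (𝓝 (K * (eLpNorm F 3 volume + 0) * (eLpNorm G 3 volume + 0) +
          (Cs * 0 * (eLpNorm G 3 volume + 0) + Cs * eLpNorm F 3 volume * 0))) := by
      refine Tendsto.mono_left ?_ nhdsWithin_le_nhds
      have t0 : Tendsto (fun η : ℝ≥0∞ => η) (𝓝 0) (𝓝 0) := tendsto_id
      have tF : Tendsto (fun η : ℝ≥0∞ => eLpNorm F 3 volume + η) (𝓝 0)
          (𝓝 (eLpNorm F 3 volume + 0)) := tendsto_const_nhds.add t0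
      have tG : Tendsto (fun η : ℝ≥0∞ => eLpNorm G 3 volume + η) (𝓝 0)
          (𝓝 (eLpNorm G 3 volume + 0)) := tendsto_const_nhds.add t0
      have fF : eLpNorm F 3 volume + 0 ≠ ∞ := by rw [add_zero]; exact hF.2.ne
      have fG : eLpNorm G 3 volume + 0 ≠ ∞ := by rw [add_zero]; exact hG.2.ne
      have hKF : Tendsto (fun η : ℝ≥0∞ => K * (eLpNorm F 3 volume + η)) (𝓝 0)
          (𝓝 (K * (eLpNorm F 3 volume + 0))) := ENNReal.Tendsto.const_mul tF (Or.inr hK)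
      have hCη : Tendsto (fun η : ℝ≥0∞ => Cs * η) (𝓝 0) (𝓝 (Cs * 0)) :=
        ENNReal.Tendsto.const_mul t0 (Or.inr hCtop)
      refine Tendsto.add ?_ (Tendsto.add ?_ ?_)
      · exact ENNReal.Tendsto.mul hKF (Or.inr fG) tG (Or.inr (ENNReal.mul_ne_top hK fF))
      · exact ENNReal.Tendsto.mul hCη (Or.inr fG) tG (Or.inr (by simp))
      · exact ENNReal.Tendsto.const_mul t0 (Or.inr (ENNReal.mul_ne_top hCtop hF.2.ne))
    have hle := ge_of_tendsto htend (eventually_mem_nhdsWithin.mono fun η hη => happ η hη)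
    simpa using hle
  -- monotone convergence
  have hmono : ∫⁻ z, annulusCount n F G z ^ (3 / 2 : ℝ) =
      ⨆ s : Finset (Fam n), ∫⁻ z, TT s F G z ^ (3 / 2 : ℝ) := by
    have hdir : Directed (· ≤ ·) (fun (s : Finset (Fam n)) (z : ℝ × ℝ) =>
        TT s F G z ^ (3 / 2 : ℝ)) := by
      apply Monotone.directed_le
      intro s t hst z
      exact ENNReal.rpow_le_rpow (Finset.sup_mono hst) (by norm_num)
    rw [← lintegral_iSup_directed (fun s => (aemeasurable_TT s hF hG).pow_const _) hdir]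
    apply lintegral_congr
    intro z
    rw [annulusCount_eq_TT]
    exact (ENNReal.orderIsoRpow (3 / 2) (by norm_num)).map_iSup _
  have key : ∫⁻ z, annulusCount n F G z ^ (3 / 2 : ℝ) ≤
      (K * eLpNorm F 3 volume * eLpNorm G 3 volume) ^ (3 / 2 : ℝ) := by
    rw [hmono]
    refine iSup_le fun s => ?_
    have h := ENNReal.rpow_le_rpow (hfin s) (by norm_num : (0 : ℝ) ≤ 3 / 2)
    unfold N32 at h
    rw [← ENNReal.rpow_mul] at h
    norm_num at h
    exact h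
  calc (∫⁻ z, annulusCount n F G z ^ (3 / 2 : ℝ)) ^ (2 / 3 : ℝ)
      ≤ ((K * eLpNorm F 3 volume * eLpNorm G 3 volume) ^ (3 / 2 : ℝ)) ^ (2 / 3 : ℝ) :=
        ENNReal.rpow_le_rpow key (by norm_num)
    _ = _ := by
        rw [← ENNReal.rpow_mul]
        norm_num

end Crest.Agent.R072.Density
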