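import Crest.Agent.R072.DyadicA
import Mathlib
import Crest.Prelude.Def_DyadicTriangular

-- ▼ part R072/DyadicC
section

/-! R072: discrete dyadic theorem: telescoping and homogeneity. -/

set_option autoImplicit false

namespace Crest.Agent.R072.Dyadic

open Matrix Finset Crest.Agent.R072
open scoped MatrixOrder

theorem pot_nonneg (F0 F1 F2 : ℕ → ℕ → ℝ) (k n0 n1 n2 : ℕ) : 0 ≤ pot F0 F1 F2 k n0 n1 n2 := by
  unfold pot
  have h0 := phi_nonneg (psd_gram (blk F0 k n0 n1) (blk F2 k n2 n0))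
  have h1 := phi_nonneg (psd_gram' (blk F0 k n0 n1) (blk F1 k n1 n2))
  have h2 := phi_nonneg (psd_gram' (blk F1 k n1 n2) (blk F2 k n2 n0))
  linarith

/-- weighted potential sum at level `k` over `[0,N)²` nodes -/
noncomputable def psum (F0 F1 F2 : ℕ → ℕ → ℝ) (k N : ℕ) : ℝ :=
  (1 / 2 ^ k : ℝ) * ∑ n0 ∈ range N, ∑ n1 ∈ range N, pot F0 F1 F2 k n0 n1 (n0 ^^^ n1)

theorem sum_range_two_mul (f : ℕ → ℝ) (N : ℕ) :
    ∑ n ∈ range (2 * N), f n = ∑ n ∈ range N, ∑ a ∈ range 2, f (2 * n + a) := by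
  induction N with
  | zero => simp
  | succ N ih =>
    rw [show 2 * (N + 1) = 2 * N + 1 + 1 by ring, Finset.sum_range_succ, Finset.sum_range_succ, ih,
      Finset.sum_range_succ _ N]
    simp only [Finset.sum_range_succ, Finset.sum_range_zero, zero_add, add_zero]
    ring

theorem step_sum (F0 F1 F2 : ℕ → ℕ → ℝ) (k N : ℕ) :
    ∑ n0 ∈ range N, ∑ n1 ∈ range N, |dform F0 F1 F2 (k + 1) n0 n1 (n0 ^^^ n1)| ≤
      Real.pi * (psum F0 F1 F2 k (2 * N) - psum F0 F1 F2 (k + 1) N) := by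
  have h : ∑ n0 ∈ range N, ∑ n1 ∈ range N, |dform F0 F1 F2 (k + 1) n0 n1 (n0 ^^^ n1)| ≤
      ∑ n0 ∈ range N, ∑ n1 ∈ range N, Real.pi *
        ((1 / 2 ^ k : ℝ) * (∑ a ∈ range 2, ∑ b ∈ range 2,
            pot F0 F1 F2 k (2 * n0 + a) (2 * n1 + b) ((2 * n0 + a) ^^^ (2 * n1 + b))) -
          (1 / 2 ^ (k + 1) : ℝ) * pot F0 F1 F2 (k + 1) n0 n1 (n0 ^^^ n1)) :=
    Finset.sum_le_sum fun n0 _ => Finset.sum_le_sum fun n1 _ => dform_le F0 F1 F2 k n0 n1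
  refine h.trans (le_of_eq ?_)
  unfold psum
  simp only [← Finset.mul_sum, Finset.sum_sub_distrib]
  congr 2
  congr 1
  rw [sum_range_two_mul]
  refine Finset.sum_congr rfl fun n0 _ => ?_
  rw [Finset.sum_comm]
  refine Finset.sum_congr rfl fun a _ => ?_
  rw [sum_range_two_mul]

theorem telescope (F0 F1 F2 : ℕ → ℕ → ℝ) (m : ℕ) :
    ∑ k ∈ range m, ∑ n0 ∈ range (2 ^ (m - (k + 1))), ∑ n1 ∈ range (2 ^ (m - (k + 1))),
      |dform F0 F1 F2 (k + 1) n0 n1 (n0 ^^^ n1)| ≤ Real.pi * psum F0 F1 F2 0 (2 ^ m) := by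
  have h : ∀ k ∈ range m, ∑ n0 ∈ range (2 ^ (m - (k + 1))), ∑ n1 ∈ range (2 ^ (m - (k + 1))),
      |dform F0 F1 F2 (k + 1) n0 n1 (n0 ^^^ n1)| ≤
      Real.pi * psum F0 F1 F2 k (2 ^ (m - k)) - Real.pi * psum F0 F1 F2 (k + 1) (2 ^ (m - (k + 1))) := by
    intro k hk
    have hk' := Finset.mem_range.mp hk
    refine (step_sum F0 F1 F2 k _).trans (le_of_eq ?_)
    rw [show 2 * 2 ^ (m - (k + 1)) = 2 ^ (m - k) by
      rw [← pow_succ']; congr 1; omega]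
    ring
  refine (Finset.sum_le_sum h).trans ?_
  rw [Finset.sum_range_sub' (fun k => Real.pi * psum F0 F1 F2 k (2 ^ (m - k))) m]
  have h2 : 0 ≤ psum F0 F1 F2 m (2 ^ (m - m)) :=
    mul_nonneg (by positivity) (Finset.sum_nonneg fun _ _ => Finset.sum_nonneg fun _ _ =>
      pot_nonneg _ _ _ _ _ _ _)
  have h3 := mul_nonneg Real.pi_pos.le h2
  simp only [Nat.sub_zero]
  linarith

theorem xor_cancel (a x : ℕ) : a ^^^ (a ^^^ x) = x := by
  rw [← Nat.xor_assoc, Nat.xor_self, Nat.zero_xor]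

/-- xor with `a` permutes `[0, 2^m)` -/
theorem sum_xor (m a : ℕ) (ha : a < 2 ^ m) (f : ℕ → ℝ) :
    ∑ x ∈ range (2 ^ m), f (a ^^^ x) = ∑ x ∈ range (2 ^ m), f x := by
  refine Finset.sum_nbij' (fun x => a ^^^ x) (fun x => a ^^^ x) ?_ ?_ ?_ ?_ ?_
  · intro x hx
    exact Finset.mem_range.mpr (Nat.xor_lt_two_pow ha (Finset.mem_range.mp hx))
  · intro x hx
    exact Finset.mem_range.mpr (Nat.xor_lt_two_pow ha (Finset.mem_range.mp hx))
  · intro x _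
    exact xor_cancel a x
  · intro x _
    exact xor_cancel a x
  · intro x _
    rfl

theorem sq_add_bound (a b : ℝ) : (a ^ 2 + b ^ 2) * √(a ^ 2 + b ^ 2) ≤ √2 * (|a| ^ 3 + |b| ^ 3) := by
  rw [← sq_abs a, ← sq_abs b]
  have hx := abs_nonneg a
  have hy := abs_nonneg b
  set x := |a|
  set y := |b|
  have hs : 0 ≤ x ^ 2 + y ^ 2 := by positivity
  refine abs_le_of_sq_le_sq' ?_ (by positivity) |>.2
  rw [mul_pow, mul_pow, Real.sq_sqrt hs, Real.sq_sqrt (by norm_num)]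
  have hQ : 0 ≤ (x - y) ^ 2 * (x ^ 4 + 2 * x ^ 3 * y + 2 * x * y ^ 3 + y ^ 4) := by positivity
  nlinarith [hQ]

theorem phi_level0 (M : Matrix (Fin (2 ^ 0)) (Fin (2 ^ 0)) ℝ) (h : 0 ≤ M 0 0) :
    phi M = M 0 0 * √(M 0 0) := by
  letI : Unique (Fin (2 ^ 0)) := inferInstanceAs (Unique (Fin 1))
  have hd : (default : Fin (2 ^ 0)) = 0 := Subsingleton.elim _ _
  have := phi_unique (M := M) (by rw [hd]; exact h)
  rw [hd] at this
  exact this

theorem blk_zero_apply (F : ℕ → ℕ → ℝ) (a b : ℕ) (i j : Fin (2 ^ 0)) : blk F 0 a b i j = F a b := by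
  simp [blk]

theorem pot_zero_le (F0 F1 F2 : ℕ → ℕ → ℝ) (n0 n1 n2 : ℕ) :
    pot F0 F1 F2 0 n0 n1 n2 ≤ 2 * √2 * (|F0 n0 n1| ^ 3 + |F1 n1 n2| ^ 3 + |F2 n2 n0| ^ 3) := by
  have e1 : ∀ (F G : ℕ → ℕ → ℝ) (a b c d : ℕ),
      (blk F 0 a b * (blk F 0 a b)ᵀ + (blk G 0 c d)ᵀ * blk G 0 c d) 0 0
        = F a b ^ 2 + G c d ^ 2 := by
    intro F G a b c d
    simp only [Matrix.add_apply, mul_apply, transpose_apply, blk_zero_apply, Finset.sum_const,
      Finset.card_univ, Fintype.card_fin, pow_zero, one_smul]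
    ring
  have e2 : ∀ (F G : ℕ → ℕ → ℝ) (a b c d : ℕ),
      ((blk F 0 a b)ᵀ * blk F 0 a b + blk G 0 c d * (blk G 0 c d)ᵀ) 0 0
        = F a b ^ 2 + G c d ^ 2 := by
    intro F G a b c d
    simp only [Matrix.add_apply, mul_apply, transpose_apply, blk_zero_apply, Finset.sum_const,
      Finset.card_univ, Fintype.card_fin, pow_zero, one_smul]
    ring
  unfold pot
  rw [phi_level0 _ (by rw [e1]; positivity), phi_level0 _ (by rw [e2]; positivity),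
    phi_level0 _ (by rw [e2]; positivity), e1, e2, e2]
  have h1 := sq_add_bound (F0 n0 n1) (F2 n2 n0)
  have h2 := sq_add_bound (F0 n0 n1) (F1 n1 n2)
  have h3 := sq_add_bound (F1 n1 n2) (F2 n2 n0)
  linarith

/-- **Discrete dyadic theorem**: sum over all scales `k = 1..m` and all nodes inside `[0,2^m)`. -/
theorem dyadic_discrete (F0 F1 F2 : ℕ → ℕ → ℝ) (m : ℕ) :
    ∑ k ∈ range m, ∑ n0 ∈ range (2 ^ (m - (k + 1))), ∑ n1 ∈ range (2 ^ (m - (k + 1))),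
      |dform F0 F1 F2 (k + 1) n0 n1 (n0 ^^^ n1)| ≤
      Real.pi * (2 * Real.sqrt 2) *
        (∑ x ∈ range (2 ^ m), ∑ y ∈ range (2 ^ m), |F0 x y| ^ 3 +
         ∑ x ∈ range (2 ^ m), ∑ y ∈ range (2 ^ m), |F1 x y| ^ 3 +
         ∑ x ∈ range (2 ^ m), ∑ y ∈ range (2 ^ m), |F2 x y| ^ 3) := by
  refine (telescope F0 F1 F2 m).trans ?_
  rw [mul_assoc]
  refine mul_le_mul_of_nonneg_left ?_ Real.pi_pos.le
  unfold psum
  rw [pow_zero, div_one, one_mul]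
  have h : ∑ n0 ∈ range (2 ^ m), ∑ n1 ∈ range (2 ^ m), pot F0 F1 F2 0 n0 n1 (n0 ^^^ n1) ≤
      ∑ n0 ∈ range (2 ^ m), ∑ n1 ∈ range (2 ^ m),
        2 * √2 * (|F0 n0 n1| ^ 3 + |F1 n1 (n0 ^^^ n1)| ^ 3 + |F2 (n0 ^^^ n1) n0| ^ 3) :=
    Finset.sum_le_sum fun n0 _ => Finset.sum_le_sum fun n1 _ => pot_zero_le _ _ _ _ _ _
  refine h.trans (le_of_eq ?_)
  simp only [← Finset.mul_sum, Finset.sum_add_distrib]
  congr 1
  congr 1
  · congr 1
    rw [Finset.sum_comm]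
    refine Finset.sum_congr rfl fun n1 hn1 => ?_
    have := sum_xor m n1 (Finset.mem_range.mp hn1) (fun x => |F1 n1 x| ^ 3)
    rw [← this]
    refine Finset.sum_congr rfl fun n0 _ => ?_
    rw [Nat.xor_comm]
  · rw [Finset.sum_comm (f := fun x y => |F2 x y| ^ 3)]
    refine Finset.sum_congr rfl fun n0 hn0 => ?_
    exact sum_xor m n0 (Finset.mem_range.mp hn0) (fun x => |F2 x n0| ^ 3)

theorem dform_smul (F0 F1 F2 : ℕ → ℕ → ℝ) (a b c : ℝ) (k n0 n1 n2 : ℕ) :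
    dform (fun x y => a * F0 x y) (fun x y => b * F1 x y) (fun x y => c * F2 x y) k n0 n1 n2
      = (a * b * c) * dform F0 F1 F2 k n0 n1 n2 := by
  unfold dform
  simp only [Finset.mul_sum]
  refine Finset.sum_congr rfl fun i0 _ => Finset.sum_congr rfl fun i1 _ =>
    Finset.sum_congr rfl fun i2 _ => ?_
  ring

theorem homog_aux (F0 F1 F2 : ℕ → ℕ → ℝ) (m : ℕ) {a b c : ℝ} (ha : 0 < a) (hb : 0 < b)
    (hc : 0 < c) :
    a * b * c * ∑ k ∈ range m, ∑ n0 ∈ range (2 ^ (m - (k + 1))), ∑ n1 ∈ range (2 ^ (m - (k + 1))),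
      |dform F0 F1 F2 (k + 1) n0 n1 (n0 ^^^ n1)| ≤
      Real.pi * (2 * Real.sqrt 2) *
        (a ^ 3 * ∑ x ∈ range (2 ^ m), ∑ y ∈ range (2 ^ m), |F0 x y| ^ 3 +
         b ^ 3 * ∑ x ∈ range (2 ^ m), ∑ y ∈ range (2 ^ m), |F1 x y| ^ 3 +
         c ^ 3 * ∑ x ∈ range (2 ^ m), ∑ y ∈ range (2 ^ m), |F2 x y| ^ 3) := by
  have h := dyadic_discrete (fun x y => a * F0 x y) (fun x y => b * F1 x y)
    (fun x y => c * F2 x y) m
  simp only [dform_smul, abs_mul, abs_of_pos ha, abs_of_pos hb, abs_of_pos hc, mul_pow,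
    ← Finset.mul_sum] at h
  exact h

/-- homogeneous form -/
theorem dyadic_discrete_homog (F0 F1 F2 : ℕ → ℕ → ℝ) (m : ℕ) :
    ∑ k ∈ range m, ∑ n0 ∈ range (2 ^ (m - (k + 1))), ∑ n1 ∈ range (2 ^ (m - (k + 1))),
      |dform F0 F1 F2 (k + 1) n0 n1 (n0 ^^^ n1)| ≤
      27 * (∑ x ∈ range (2 ^ m), ∑ y ∈ range (2 ^ m), |F0 x y| ^ 3) ^ (1 / 3 : ℝ) *
        (∑ x ∈ range (2 ^ m), ∑ y ∈ range (2 ^ m), |F1 x y| ^ 3) ^ (1 / 3 : ℝ) *
        (∑ x ∈ range (2 ^ m), ∑ y ∈ range (2 ^ m), |F2 x y| ^ 3) ^ (1 / 3 : ℝ) := by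
  have hS : ∀ F : ℕ → ℕ → ℝ, 0 ≤ ∑ x ∈ range (2 ^ m), ∑ y ∈ range (2 ^ m), |F x y| ^ 3 :=
    fun F => Finset.sum_nonneg fun _ _ => Finset.sum_nonneg fun _ _ => by positivity
  have h0 := hS F0
  have h1 := hS F1
  have h2 := hS F2
  set S0 := ∑ x ∈ range (2 ^ m), ∑ y ∈ range (2 ^ m), |F0 x y| ^ 3 with hS0
  set S1 := ∑ x ∈ range (2 ^ m), ∑ y ∈ range (2 ^ m), |F1 x y| ^ 3 with hS1
  set S2 := ∑ x ∈ range (2 ^ m), ∑ y ∈ range (2 ^ m), |F2 x y| ^ 3 with hS2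
  set L := ∑ k ∈ range m, ∑ n0 ∈ range (2 ^ (m - (k + 1))), ∑ n1 ∈ range (2 ^ (m - (k + 1))),
      |dform F0 F1 F2 (k + 1) n0 n1 (n0 ^^^ n1)| with hL
  have hK : Real.pi * (2 * √2) * 3 ≤ 27 := by
    have h3 : Real.pi < 3.1416 := Real.pi_lt_d4
    have h4 : √2 ≤ 1.4143 := by
      rw [Real.sqrt_le_left (by norm_num)]; norm_num
    have h5 : 0 ≤ √(2 : ℝ) := Real.sqrt_nonneg 2
    nlinarith [Real.pi_pos]
  have key : ∀ ε : ℝ, 0 < ε → L ≤ 27 * (S0 + ε) ^ (1 / 3 : ℝ) * (S1 + ε) ^ (1 / 3 : ℝ)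
      * (S2 + ε) ^ (1 / 3 : ℝ) := by
    intro ε hε
    have cub : ∀ S : ℝ, 0 ≤ S → 0 < (S + ε) ^ (1 / 3 : ℝ) ∧
        (((S + ε) ^ (1 / 3 : ℝ))⁻¹) ^ 3 * S ≤ 1 := by
      intro S hS
      have hp : 0 < S + ε := by linarith
      refine ⟨Real.rpow_pos_of_pos hp _, ?_⟩
      rw [inv_pow, ← Real.rpow_natCast, ← Real.rpow_mul hp.le]
      norm_num
      rw [inv_mul_le_iff₀ hp]
      linarith
    obtain ⟨a0, a1⟩ := cub S0 h0
    obtain ⟨b0, b1⟩ := cub S1 h1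
    obtain ⟨c0, c1⟩ := cub S2 h2
    set a := (S0 + ε) ^ (1 / 3 : ℝ)
    set b := (S1 + ε) ^ (1 / 3 : ℝ)
    set c := (S2 + ε) ^ (1 / 3 : ℝ)
    have h := homog_aux F0 F1 F2 m (inv_pos.mpr a0) (inv_pos.mpr b0) (inv_pos.mpr c0)
    rw [← hS0, ← hS1, ← hS2, ← hL] at h
    have h' : a⁻¹ * b⁻¹ * c⁻¹ * L ≤ 27 := by
      refine h.trans (le_trans ?_ hK)
      exact mul_le_mul_of_nonneg_left (by linarith) (by positivity)
    have h'' := mul_le_mul_of_nonneg_left h' (by positivity : 0 ≤ a * b * c)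
    calc L = a * b * c * (a⁻¹ * b⁻¹ * c⁻¹ * L) := by
          field_simp
      _ ≤ a * b * c * 27 := h''
      _ = _ := by ring
  have hc : Continuous fun ε : ℝ => 27 * (S0 + ε) ^ (1 / 3 : ℝ) * (S1 + ε) ^ (1 / 3 : ℝ)
      * (S2 + ε) ^ (1 / 3 : ℝ) := by
    have hr : ∀ S : ℝ, Continuous fun ε : ℝ => (S + ε) ^ (1 / 3 : ℝ) := fun S =>
      (continuous_const.add continuous_id).rpow_const fun _ => Or.inr (by norm_num)
    exact ((continuous_const.mul (hr S0)).mul (hr S1)).mul (hr S2)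
  have ht := (hc.tendsto 0).mono_left (nhdsWithin_le_nhds (s := Set.Ioi 0))
  simp only [add_zero] at ht
  refine ge_of_tendsto ht ?_
  filter_upwards [self_mem_nhdsWithin] with ε hε
  exact key ε hε

end Crest.Agent.R072.Dyadic
end

-- ▼ part R072/Dyadic
section

/-! R072: discrete dyadic theorem (blueprint part C). Definitions `hs, dform, blk, pot` and
`dform_le` are in `DyadicA.lean`; `dyadic_discrete`, `dyadic_discrete_homog` in `DyadicC.lean`. -/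
end

-- ▼ part R072/DyadicContA
section

/-! R072: analytic preliminaries for `DyadicCont.lean` (step functions on the dyadic grid,
dominated convergence for the local form, averages over dyadic squares). -/

set_option autoImplicit false

namespace Crest.Agent.R072.DyadicCont

open MeasureTheory Set Filter Topology Crest.AnalysisR.TriangularDyadic

/-- integral of a function of the floor over a union of `n` cells of length `h`. -/
theorem integral_floor_cells' (h : ℝ) (hh : 0 < h) (φ : ℕ → ℝ) (A n : ℕ) :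
    IntegrableOn (fun x : ℝ => φ ⌊x / h⌋₊) (Ico (h * A) (h * ((A + n : ℕ) : ℝ))) ∧
    ∫ x in Ico (h * A) (h * ((A + n : ℕ) : ℝ)), φ ⌊x / h⌋₊
      = h * ∑ i ∈ Finset.range n, φ (A + i) := by
  induction n with
  | zero => simp
  | succ n ih =>
    obtain ⟨ih1, ih2⟩ := ih
    have h1 : Ico (h * (A : ℝ)) (h * ((A + (n + 1) : ℕ) : ℝ)) =
        Ico (h * (A : ℝ)) (h * ((A + n : ℕ) : ℝ)) ∪
          Ico (h * ((A + n : ℕ) : ℝ)) (h * ((A + (n + 1) : ℕ) : ℝ)) := by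
      rw [Ico_union_Ico_eq_Ico]
      · exact mul_le_mul_of_nonneg_left (by exact_mod_cast Nat.le_add_right A n) hh.le
      · exact mul_le_mul_of_nonneg_left (by exact_mod_cast Nat.le_succ (A + n)) hh.le
    have hd : Disjoint (Ico (h * (A : ℝ)) (h * ((A + n : ℕ) : ℝ)))
        (Ico (h * ((A + n : ℕ) : ℝ)) (h * ((A + (n + 1) : ℕ) : ℝ))) := by
      rw [Set.disjoint_left]
      intro x hx hx'
      exact absurd hx.2 (not_lt.mpr hx'.1)
    have hfl : ∀ x ∈ Ico (h * ((A + n : ℕ) : ℝ)) (h * ((A + (n + 1) : ℕ) : ℝ)),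
        ⌊x / h⌋₊ = A + n := by
      intro x hx
      have hx0 : 0 ≤ x / h := by
        apply div_nonneg _ hh.le
        exact le_trans (by positivity) hx.1
      rw [Nat.floor_eq_iff hx0]
      constructor
      · rw [le_div_iff₀ hh, mul_comm]; exact hx.1
      · rw [div_lt_iff₀ hh, mul_comm]
        have := hx.2
        push_cast at this ⊢
        rw [add_assoc]; exact this
    have hc : EqOn (fun x : ℝ => φ ⌊x / h⌋₊) (fun _ => φ (A + n))
        (Ico (h * ((A + n : ℕ) : ℝ)) (h * ((A + (n + 1) : ℕ) : ℝ))) := by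
      intro x hx
      simp only
      rw [hfl x hx]
    have hi2 : IntegrableOn (fun x : ℝ => φ ⌊x / h⌋₊)
        (Ico (h * ((A + n : ℕ) : ℝ)) (h * ((A + (n + 1) : ℕ) : ℝ))) := by
      refine (integrableOn_congr_fun hc measurableSet_Ico).mpr ?_
      exact integrableOn_const (by simp)
    refine ⟨by rw [h1]; exact ih1.union hi2, ?_⟩
    rw [h1, setIntegral_union hd measurableSet_Ico ih1 hi2, ih2,
      setIntegral_congr_fun measurableSet_Ico hc, setIntegral_const,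
      Real.volume_real_Ico_of_le
        (mul_le_mul_of_nonneg_left (by exact_mod_cast Nat.le_succ (A + n)) hh.le),
      Finset.sum_range_succ, smul_eq_mul]
    push_cast
    ring

theorem integral_floor_cells (h : ℝ) (hh : 0 < h) (φ : ℕ → ℝ) (A n : ℕ) :
    ∫ x in Ico (h * A) (h * ((A + n : ℕ) : ℝ)), φ ⌊x / h⌋₊
      = h * ∑ i ∈ Finset.range n, φ (A + i) := (integral_floor_cells' h hh φ A n).2

/-- the step size -/
theorem zpow_split {k : ℤ} {N K : ℕ} (hK : k + N = K) :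
    (2 : ℝ) ^ k = (2 : ℝ) ^ (-(N : ℤ)) * 2 ^ K := by
  have : k = -(N : ℤ) + (K : ℤ) := by omega
  rw [this, zpow_add₀ (by norm_num), zpow_natCast]

theorem interval_eq {k : ℤ} {N K : ℕ} (hK : k + N = K) (n : ℕ) :
    interval k n = Ico ((2 : ℝ) ^ (-(N : ℤ)) * ((2 ^ K * n : ℕ) : ℝ))
      ((2 : ℝ) ^ (-(N : ℤ)) * ((2 ^ K * n + 2 ^ K : ℕ) : ℝ)) := by
  unfold interval
  rw [zpow_split hK]
  push_cast
  congr 1 <;> ring

/-- discrete Haar sign -/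
noncomputable def hsA (K : ℕ) (i : ℕ) : ℝ := if i < 2 ^ (K - 1) then 1 else -1

theorem haarSign_eq {k : ℤ} {N K : ℕ} (hK : k + N = K) (hK1 : 1 ≤ K) (n : ℕ) {x : ℝ}
    (hx : x ∈ interval k n) :
    haarSign k n x = hsA K (⌊x / (2 : ℝ) ^ (-(N : ℤ))⌋₊ - 2 ^ K * n) := by
  set h : ℝ := (2 : ℝ) ^ (-(N : ℤ)) with hh
  have hpos : 0 < h := by positivity
  have hx' := hx
  rw [interval_eq hK] at hx'
  rw [← hh] at hx'
  have h2k : (2 : ℝ) ^ k = h * 2 ^ K := zpow_split hK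
  have h2k1 : (2 : ℝ) ^ (k - 1) = h * 2 ^ (K - 1) := by
    have : (k - 1) + (N : ℤ) = ((K - 1 : ℕ) : ℤ) := by omega
    exact zpow_split this
  have hx0 : 0 ≤ x / h := by
    apply div_nonneg _ hpos.le
    exact le_trans (by positivity) hx'.1
  have hlow : 2 ^ K * n ≤ ⌊x / h⌋₊ := by
    rw [Nat.le_floor_iff hx0, le_div_iff₀ hpos, mul_comm]
    exact hx'.1
  unfold haarSign hsA
  rw [h2k, h2k1]
  by_cases hc : x < h * 2 ^ K * n + h * 2 ^ (K - 1)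
  · have h1 : x ∈ Ico (h * 2 ^ K * n) (h * 2 ^ K * n + h * 2 ^ (K - 1)) := by
      refine ⟨?_, hc⟩
      have := hx'.1
      push_cast at this
      rw [mul_assoc]; exact this
    have h2 : ⌊x / h⌋₊ - 2 ^ K * n < 2 ^ (K - 1) := by
      have : ⌊x / h⌋₊ < 2 ^ K * n + 2 ^ (K - 1) := by
        rw [Nat.floor_lt hx0, div_lt_iff₀ hpos]
        push_cast
        linarith
      omega
    rw [if_pos h1, if_pos h2]
  · have h1 : x ∉ Ico (h * 2 ^ K * n) (h * 2 ^ K * n + h * 2 ^ (K - 1)) := fun hm => hc hm.2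
    have h1' : x ∈ Ico (h * 2 ^ K * n + h * 2 ^ (K - 1)) (h * 2 ^ K * (n + 1)) := by
      refine ⟨not_lt.mp hc, ?_⟩
      have := hx'.2
      push_cast at this
      linarith
    have h2 : ¬ (⌊x / h⌋₊ - 2 ^ K * n < 2 ^ (K - 1)) := by
      have : 2 ^ K * n + 2 ^ (K - 1) ≤ ⌊x / h⌋₊ := by
        rw [Nat.le_floor_iff hx0, le_div_iff₀ hpos]
        push_cast
        linarith [not_lt.mp hc]
      omega
    rw [if_neg h1, if_pos h1', if_neg h2]

/-- the step function attached to an array -/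
noncomputable def stepf (h : ℝ) (g : ℕ → ℕ → ℝ) (z : ℝ × ℝ) : ℝ := g ⌊z.1 / h⌋₊ ⌊z.2 / h⌋₊

theorem measurable_stepf (h : ℝ) (g : ℕ → ℕ → ℝ) : Measurable (stepf h g) := by
  unfold stepf
  have h1 : Measurable (fun p : ℕ × ℕ => g p.1 p.2) := Measurable.of_discrete
  exact h1.comp ((measurable_fst.div_const h).nat_floor.prodMk (measurable_snd.div_const h).nat_floor)

theorem localForm_stepf {k : ℤ} {N K : ℕ} (hK : k + N = K) (hK1 : 1 ≤ K) (n0 n1 n2 : ℕ)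
    (g0 g1 g2 : ℕ → ℕ → ℝ) :
    localForm k n0 n1 n2 (stepf ((2 : ℝ) ^ (-(N : ℤ))) g0) (stepf ((2 : ℝ) ^ (-(N : ℤ))) g1)
      (stepf ((2 : ℝ) ^ (-(N : ℤ))) g2) =
    ((2 : ℝ) ^ (-(N : ℤ))) ^ 2 * ((1 / 2 ^ K : ℝ) *
      ∑ i0 ∈ Finset.range (2 ^ K), ∑ i1 ∈ Finset.range (2 ^ K), ∑ i2 ∈ Finset.range (2 ^ K),
        g0 (2 ^ K * n0 + i0) (2 ^ K * n1 + i1) * g1 (2 ^ K * n1 + i1) (2 ^ K * n2 + i2) *
        g2 (2 ^ K * n2 + i2) (2 ^ K * n0 + i0) * (hsA K i0 * hsA K i1 * hsA K i2)) := by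
  set h : ℝ := (2 : ℝ) ^ (-(N : ℤ)) with hh
  have hpos : 0 < h := by positivity
  have h2k : (2 : ℝ) ^ k = h * 2 ^ K := zpow_split hK
  -- the integrand as a function of the floors
  set Φ : ℕ → ℕ → ℕ → ℝ := fun a b c => g0 a b * g1 b c * g2 c a *
    (hsA K (a - 2 ^ K * n0) * hsA K (b - 2 ^ K * n1) * hsA K (c - 2 ^ K * n2)) with hΦ
  have e1 : ∀ x0 ∈ interval k n0, ∀ x1 ∈ interval k n1,
      (∫ x2 in interval k n2, stepf h g0 (x0, x1) * stepf h g1 (x1, x2) * stepf h g2 (x2, x0) *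
        (haarSign k n0 x0 * haarSign k n1 x1 * haarSign k n2 x2)) =
      h * ∑ i2 ∈ Finset.range (2 ^ K), Φ ⌊x0 / h⌋₊ ⌊x1 / h⌋₊ (2 ^ K * n2 + i2) := by
    intro x0 hx0 x1 hx1
    rw [← integral_floor_cells h hpos (fun c => Φ ⌊x0 / h⌋₊ ⌊x1 / h⌋₊ c) (2 ^ K * n2) (2 ^ K),
      ← interval_eq hK n2]
    refine setIntegral_congr_fun (by unfold interval; exact measurableSet_Ico) ?_
    intro x2 hx2
    simp only [stepf, hΦ]
    rw [haarSign_eq hK hK1 n0 hx0, haarSign_eq hK hK1 n1 hx1, haarSign_eq hK hK1 n2 hx2]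
  have e2 : ∀ x0 ∈ interval k n0,
      (∫ x1 in interval k n1, ∫ x2 in interval k n2,
        stepf h g0 (x0, x1) * stepf h g1 (x1, x2) * stepf h g2 (x2, x0) *
        (haarSign k n0 x0 * haarSign k n1 x1 * haarSign k n2 x2)) =
      h * ∑ i1 ∈ Finset.range (2 ^ K),
        (h * ∑ i2 ∈ Finset.range (2 ^ K), Φ ⌊x0 / h⌋₊ (2 ^ K * n1 + i1) (2 ^ K * n2 + i2)) := by
    intro x0 hx0
    rw [← integral_floor_cells h hpos
      (fun b => h * ∑ i2 ∈ Finset.range (2 ^ K), Φ ⌊x0 / h⌋₊ b (2 ^ K * n2 + i2))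
      (2 ^ K * n1) (2 ^ K), ← interval_eq hK n1]
    refine setIntegral_congr_fun (by unfold interval; exact measurableSet_Ico) ?_
    intro x1 hx1
    exact e1 x0 hx0 x1 hx1
  have e3 : (∫ x0 in interval k n0, ∫ x1 in interval k n1, ∫ x2 in interval k n2,
        stepf h g0 (x0, x1) * stepf h g1 (x1, x2) * stepf h g2 (x2, x0) *
        (haarSign k n0 x0 * haarSign k n1 x1 * haarSign k n2 x2)) =
      h * ∑ i0 ∈ Finset.range (2 ^ K), (h * ∑ i1 ∈ Finset.range (2 ^ K),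
        (h * ∑ i2 ∈ Finset.range (2 ^ K),
          Φ (2 ^ K * n0 + i0) (2 ^ K * n1 + i1) (2 ^ K * n2 + i2))) := by
    rw [← integral_floor_cells h hpos
      (fun a => h * ∑ i1 ∈ Finset.range (2 ^ K), (h * ∑ i2 ∈ Finset.range (2 ^ K),
          Φ a (2 ^ K * n1 + i1) (2 ^ K * n2 + i2)))
      (2 ^ K * n0) (2 ^ K), ← interval_eq hK n0]
    refine setIntegral_congr_fun (by unfold interval; exact measurableSet_Ico) ?_
    intro x0 hx0
    exact e2 x0 hx0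
  unfold localForm
  rw [e3]
  have hz : (2 : ℝ) ^ (-k) = 1 / (h * 2 ^ K) := by
    rw [zpow_neg, h2k, one_div]
  rw [hz]
  simp only [hΦ, Nat.add_sub_cancel_left]
  simp only [← Finset.mul_sum]
  field_simp

/-- square integral of a step function -/
theorem integral_stepf_sq (h : ℝ) (hh : 0 < h) (g : ℕ → ℕ → ℝ) (n : ℕ)
    (hint : IntegrableOn (fun z => |stepf h g z| ^ 3) (Ico 0 (h * n) ×ˢ Ico 0 (h * n))) :
    ∫ z in Ico 0 (h * n) ×ˢ Ico 0 (h * n), |stepf h g z| ^ 3 =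
      h ^ 2 * ∑ x ∈ Finset.range n, ∑ y ∈ Finset.range n, |g x y| ^ 3 := by
  rw [Measure.volume_eq_prod] at hint ⊢
  rw [setIntegral_prod _ hint]
  have e1 : ∀ x : ℝ, (∫ y in Ico 0 (h * n), |stepf h g (x, y)| ^ 3) =
      h * ∑ j ∈ Finset.range n, |g ⌊x / h⌋₊ j| ^ 3 := by
    intro x
    have := integral_floor_cells h hh (fun j => |g ⌊x / h⌋₊ j| ^ 3) 0 n
    simp only [Nat.cast_zero, mul_zero, zero_add] at this
    exact this
  simp only [e1]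
  have := integral_floor_cells h hh (fun i => h * ∑ j ∈ Finset.range n, |g i j| ^ 3) 0 n
  simp only [Nat.cast_zero, mul_zero, zero_add] at this
  rw [this, ← Finset.mul_sum]
  ring

/-- iterated dominated convergence -/
theorem tendsto_triple {μ0 μ1 μ2 : Measure ℝ} [IsFiniteMeasure μ0] [IsFiniteMeasure μ1]
    [IsFiniteMeasure μ2] (H : ℕ → ℝ → ℝ → ℝ → ℝ) (L : ℝ → ℝ → ℝ → ℝ) (M : ℝ)
    (hmeas : ∀ N, Measurable (fun p : ℝ × ℝ × ℝ => H N p.1 p.2.1 p.2.2))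
    (hb : ∀ N x y z, |H N x y z| ≤ M)
    (hlim : ∀ᵐ x ∂μ0, ∀ᵐ y ∂μ1, ∀ᵐ z ∂μ2, Tendsto (fun N => H N x y z) atTop (𝓝 (L x y z))) :
    Tendsto (fun N => ∫ x, ∫ y, ∫ z, H N x y z ∂μ2 ∂μ1 ∂μ0) atTop
      (𝓝 (∫ x, ∫ y, ∫ z, L x y z ∂μ2 ∂μ1 ∂μ0)) := by
  have hM : 0 ≤ M := (abs_nonneg _).trans (hb 0 0 0 0)
  -- strong measurability
  have hs3 : ∀ N, StronglyMeasurable (fun p : ℝ × ℝ × ℝ => H N p.1 p.2.1 p.2.2) :=
    fun N => (hmeas N).stronglyMeasurable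
  have hs3' : ∀ N, StronglyMeasurable (fun p : (ℝ × ℝ) × ℝ => H N p.1.1 p.1.2 p.2) := by
    intro N
    exact ((hmeas N).comp (MeasurableEquiv.prodAssoc.measurable)).stronglyMeasurable
  have hs2 : ∀ N, StronglyMeasurable (fun q : ℝ × ℝ => ∫ z, H N q.1 q.2 z ∂μ2) := by
    intro N
    exact (hs3' N).integral_prod_right
  have hs1 : ∀ N, StronglyMeasurable (fun x : ℝ => ∫ y, ∫ z, H N x y z ∂μ2 ∂μ1) := by
    intro N
    exact (hs2 N).integral_prod_right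
  have bz : ∀ N x y, ‖∫ z, H N x y z ∂μ2‖ ≤ M * μ2.real univ := by
    intro N x y
    exact norm_integral_le_of_norm_le_const (Eventually.of_forall fun z => by
      rw [Real.norm_eq_abs]; exact hb N x y z)
  have by' : ∀ N x, ‖∫ y, ∫ z, H N x y z ∂μ2 ∂μ1‖ ≤ M * μ2.real univ * μ1.real univ := by
    intro N x
    exact norm_integral_le_of_norm_le_const (Eventually.of_forall fun y => bz N x y)
  refine tendsto_integral_of_dominated_convergence (fun _ => M * μ2.real univ * μ1.real univ)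
    (fun N => (hs1 N).aestronglyMeasurable) (integrable_const _)
    (fun N => Eventually.of_forall fun x => by' N x) ?_
  filter_upwards [hlim] with x hx
  refine tendsto_integral_of_dominated_convergence (fun _ => M * μ2.real univ)
    (fun N => ((hs2 N).comp_measurable (measurable_const.prodMk measurable_id)).aestronglyMeasurable)
    (integrable_const _) (fun N => Eventually.of_forall fun y => bz N x y) ?_
  filter_upwards [hx] with y hy
  refine tendsto_integral_of_dominated_convergence (fun _ => M)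
    (fun N => ((hmeas N).comp (measurable_const.prodMk
      (measurable_const.prodMk measurable_id))).aestronglyMeasurable)
    (integrable_const _) (fun N => Eventually.of_forall fun z => by
      rw [Real.norm_eq_abs]; exact hb N x y z) hy

end Crest.Agent.R072.DyadicCont
end

-- ▼ part R072/DyadicContB
section

/-! R072: averages over dyadic squares and convergence, for `DyadicCont.lean`. -/

set_option autoImplicit false

namespace Crest.Agent.R072.DyadicCont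

open MeasureTheory Set Filter Topology Crest.AnalysisR.TriangularDyadic

/-- average over the closed dyadic square -/
noncomputable def avg (F : ℝ × ℝ → ℝ) (h : ℝ) (a b : ℕ) : ℝ :=
  ⨍ z in Metric.closedBall ((h * (a + 1 / 2), h * (b + 1 / 2)) : ℝ × ℝ) (h / 2), F z

theorem abs_avg_le {F : ℝ × ℝ → ℝ} {M : ℝ} (hM : ∀ z, |F z| ≤ M) (h : ℝ) (a b : ℕ) :
    |avg F h a b| ≤ M := by
  have hM0 : 0 ≤ M := (abs_nonneg _).trans (hM 0)
  unfold avg
  rw [setAverage_eq, smul_eq_mul, abs_mul]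
  set s := Metric.closedBall ((h * (a + 1 / 2), h * (b + 1 / 2)) : ℝ × ℝ) (h / 2) with hs
  have hfin : volume s < ⊤ := measure_closedBall_lt_top
  have h1 : ‖∫ z in s, F z‖ ≤ M * volume.real s :=
    norm_setIntegral_le_of_norm_le_const hfin (fun x _ => by rw [Real.norm_eq_abs]; exact hM x)
  rw [Real.norm_eq_abs] at h1
  have h2 : |(volume.real s)⁻¹| = (volume.real s)⁻¹ := abs_of_nonneg (by positivity)
  rw [h2]
  rcases eq_or_lt_of_le (measureReal_nonneg (μ := volume) (s := s)) with h0 | h0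
  · rw [← h0]; simpa using hM0
  · rw [inv_mul_le_iff₀ h0, mul_comm]; exact h1

theorem mem_ball_floor {h : ℝ} (hh : 0 < h) {z : ℝ × ℝ} (h1 : 0 ≤ z.1) (h2 : 0 ≤ z.2) :
    z ∈ Metric.closedBall ((h * (⌊z.1 / h⌋₊ + 1 / 2), h * (⌊z.2 / h⌋₊ + 1 / 2)) : ℝ × ℝ) (h / 2) := by
  have key : ∀ x : ℝ, 0 ≤ x → |x - h * (⌊x / h⌋₊ + 1 / 2)| ≤ h / 2 := by
    intro x hx
    have hx' : 0 ≤ x / h := by positivity
    have a1 := Nat.floor_le hx'
    have a2 := Nat.lt_floor_add_one (x / h)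
    rw [le_div_iff₀ hh] at a1
    rw [div_lt_iff₀ hh] at a2
    rw [abs_le]
    constructor <;> nlinarith
  rw [Metric.mem_closedBall, Prod.dist_eq, max_le_iff]
  exact ⟨by rw [Real.dist_eq]; exact key _ h1, by rw [Real.dist_eq]; exact key _ h2⟩

/-- the dyadic step -/
noncomputable def hN (N : ℕ) : ℝ := (2 : ℝ) ^ (-(N : ℤ))

theorem hN_pos (N : ℕ) : 0 < hN N := by unfold hN; positivity

theorem hN_le_one (N : ℕ) : hN N ≤ 1 := by
  unfold hN
  exact zpow_le_one_of_nonpos₀ (by norm_num) (by omega)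

theorem tendsto_hN : Tendsto hN atTop (𝓝 0) := by
  have : hN = fun N : ℕ => ((1 : ℝ) / 2) ^ N := by
    ext N; unfold hN; rw [zpow_neg, zpow_natCast, one_div, inv_pow]
  rw [this]
  exact tendsto_pow_atTop_nhds_zero_of_lt_one (by norm_num) (by norm_num)

/-- the approximation -/
noncomputable def apx (F : ℝ × ℝ → ℝ) (N : ℕ) : ℝ × ℝ → ℝ := stepf (hN N) (avg F (hN N))

theorem abs_apx_le {F : ℝ × ℝ → ℝ} {M : ℝ} (hM : ∀ z, |F z| ≤ M) (N : ℕ) (z : ℝ × ℝ) :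
    |apx F N z| ≤ M := abs_avg_le hM _ _ _

theorem measurable_apx (F : ℝ × ℝ → ℝ) (N : ℕ) : Measurable (apx F N) := measurable_stepf _ _

theorem tendsto_apx {F : ℝ × ℝ → ℝ} (hF : LocallyIntegrable F volume) :
    ∀ᵐ z : ℝ × ℝ, z ∈ Ici (0 : ℝ) ×ˢ Ici (0 : ℝ) →
      Tendsto (fun N => apx F N z) atTop (𝓝 (F z)) := by
  filter_upwards [IsUnifLocDoublingMeasure.ae_tendsto_average (μ := volume) hF 1] with z hz hzQ
  have h1 : 0 ≤ z.1 := hzQ.1
  have h2 : 0 ≤ z.2 := hzQ.2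
  refine hz (fun N : ℕ => ((hN N * (⌊z.1 / hN N⌋₊ + 1 / 2), hN N * (⌊z.2 / hN N⌋₊ + 1 / 2)) : ℝ × ℝ))
    (fun N => hN N / 2) ?_ ?_
  · rw [tendsto_nhdsWithin_iff]
    refine ⟨by simpa using tendsto_hN.div_const 2, Eventually.of_forall fun N => ?_⟩
    exact half_pos (hN_pos N)
  · refine Eventually.of_forall fun N => ?_
    rw [one_mul]
    exact mem_ball_floor (hN_pos N) h1 h2

theorem apx_eq_zero {F : ℝ × ℝ → ℝ} {R : ℝ} (hR : ∀ z, R < ‖z‖ → F z = 0) (N : ℕ)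
    {z : ℝ × ℝ} (hz : z ∈ Ici (0 : ℝ) ×ˢ Ici (0 : ℝ)) (hz2 : R + 1 < ‖z‖) : apx F N z = 0 := by
  unfold apx stepf avg
  rw [setAverage_eq, setIntegral_eq_zero_of_forall_eq_zero, smul_zero]
  intro y hy
  apply hR
  have h1 := mem_ball_floor (hN_pos N) hz.1 hz.2
  have h2 : dist y z ≤ hN N := by
    calc dist y z ≤ hN N / 2 + hN N / 2 := by
          refine (dist_triangle_right y z _).trans (add_le_add hy h1)
      _ = hN N := by ring
  have h3 : ‖z‖ ≤ ‖y‖ + dist y z := by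
    rw [dist_eq_norm]
    have := norm_sub_rev y z
    calc ‖z‖ = ‖y + (z - y)‖ := by congr 1; abel
      _ ≤ ‖y‖ + ‖z - y‖ := norm_add_le _ _
      _ = ‖y‖ + ‖y - z‖ := by rw [norm_sub_rev]
  have h4 := hN_le_one N
  linarith

theorem measurable_haarSign (k : ℤ) (n : ℕ) : Measurable (haarSign k n) := by
  unfold haarSign
  exact Measurable.ite measurableSet_Ico measurable_const
    (Measurable.ite measurableSet_Ico measurable_const measurable_const)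

theorem abs_haarSign_le (k : ℤ) (n : ℕ) (x : ℝ) : |haarSign k n x| ≤ 1 := by
  unfold haarSign
  split_ifs <;> simp

theorem interval_subset (k : ℤ) (n : ℕ) : interval k n ⊆ Ici (0 : ℝ) := by
  intro x hx
  exact le_trans (by positivity) hx.1

theorem ae_pair {P : ℝ × ℝ → Prop} (hP : ∀ᵐ z : ℝ × ℝ, z ∈ Ici (0 : ℝ) ×ˢ Ici (0 : ℝ) → P z)
    {I J : Set ℝ} (hI : MeasurableSet I) (hJ : MeasurableSet J) (hI0 : I ⊆ Ici 0)
    (hJ0 : J ⊆ Ici 0) :
    ∀ᵐ x ∂(volume.restrict I), ∀ᵐ y ∂(volume.restrict J), P (x, y) := by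
  apply Measure.ae_ae_of_ae_prod
  rw [Measure.prod_restrict, ae_restrict_iff' (hI.prod hJ), ← Measure.volume_eq_prod]
  filter_upwards [hP] with z hz hzm
  exact hz ⟨hI0 hzm.1, hJ0 hzm.2⟩

theorem ae_pair_swap {P : ℝ × ℝ → Prop}
    (hP : ∀ᵐ z : ℝ × ℝ, z ∈ Ici (0 : ℝ) ×ˢ Ici (0 : ℝ) → P z)
    {I J : Set ℝ} (hI : MeasurableSet I) (hJ : MeasurableSet J) (hI0 : I ⊆ Ici 0)
    (hJ0 : J ⊆ Ici 0) :
    ∀ᵐ x ∂(volume.restrict I), ∀ᵐ y ∂(volume.restrict J), P (y, x) := by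
  have h1 : ∀ᵐ z : ℝ × ℝ, z ∈ Ici (0 : ℝ) ×ˢ Ici (0 : ℝ) → P z.swap := by
    have h2 := (Measure.measurePreserving_swap (μ := (volume : Measure ℝ))
      (ν := (volume : Measure ℝ))).quasiMeasurePreserving.ae
      (p := fun z => z ∈ Ici (0 : ℝ) ×ˢ Ici (0 : ℝ) → P z) (by
        rw [← Measure.volume_eq_prod]; exact hP)
    rw [← Measure.volume_eq_prod] at h2
    filter_upwards [h2] with z hz hzm
    exact hz ⟨hzm.2, hzm.1⟩
  exact ae_pair (P := fun z => P z.swap) h1 hI hJ hI0 hJ0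

theorem measurableSet_interval (k : ℤ) (n : ℕ) : MeasurableSet (interval k n) := by
  unfold interval; exact measurableSet_Ico

instance (k : ℤ) (n : ℕ) : IsFiniteMeasure (volume.restrict (interval k n)) := by
  constructor
  rw [Measure.restrict_apply_univ]
  unfold interval
  simp

/-- convergence of the local forms -/
theorem tendsto_localForm {F₀ F₁ F₂ : ℝ × ℝ → ℝ} (h0 : LocallyIntegrable F₀ volume)
    (h1 : LocallyIntegrable F₁ volume) (h2 : LocallyIntegrable F₂ volume) {M : ℝ}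
    (hM : ∀ z, |F₀ z| ≤ M ∧ |F₁ z| ≤ M ∧ |F₂ z| ≤ M) (k : ℤ) (n0 n1 n2 : ℕ) :
    Tendsto (fun N => localForm k n0 n1 n2 (apx F₀ N) (apx F₁ N) (apx F₂ N)) atTop
      (𝓝 (localForm k n0 n1 n2 F₀ F₁ F₂)) := by
  have hM0 : 0 ≤ M := (abs_nonneg _).trans (hM 0).1
  unfold localForm
  refine Tendsto.const_mul _ ?_
  refine tendsto_triple (μ0 := volume.restrict (interval k n0))
    (μ1 := volume.restrict (interval k n1)) (μ2 := volume.restrict (interval k n2))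
    (fun N x y z => apx F₀ N (x, y) * apx F₁ N (y, z) * apx F₂ N (z, x) *
      (haarSign k n0 x * haarSign k n1 y * haarSign k n2 z))
    (fun x y z => F₀ (x, y) * F₁ (y, z) * F₂ (z, x) *
      (haarSign k n0 x * haarSign k n1 y * haarSign k n2 z)) (M * M * M * (1 * 1 * 1)) ?_ ?_ ?_
  · intro N
    have mx : Measurable (fun p : ℝ × ℝ × ℝ => p.1) := measurable_fst
    have my : Measurable (fun p : ℝ × ℝ × ℝ => p.2.1) := measurable_fst.comp measurable_snd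
    have mz : Measurable (fun p : ℝ × ℝ × ℝ => p.2.2) := measurable_snd.comp measurable_snd
    exact ((((measurable_apx F₀ N).comp (mx.prodMk my)).mul
      ((measurable_apx F₁ N).comp (my.prodMk mz))).mul
      ((measurable_apx F₂ N).comp (mz.prodMk mx))).mul
      ((((measurable_haarSign k n0).comp mx).mul ((measurable_haarSign k n1).comp my)).mul
        ((measurable_haarSign k n2).comp mz))
  · intro N x y z
    simp only [abs_mul]
    gcongr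
    · exact abs_apx_le (fun z => (hM z).1) N _
    · exact abs_apx_le (fun z => (hM z).2.1) N _
    · exact abs_apx_le (fun z => (hM z).2.2) N _
    · exact abs_haarSign_le _ _ _
    · exact abs_haarSign_le _ _ _
    · exact abs_haarSign_le _ _ _
  · have i0 := interval_subset k n0
    have i1 := interval_subset k n1
    have i2 := interval_subset k n2
    have m0 := measurableSet_interval k n0
    have m1 := measurableSet_interval k n1
    have m2 := measurableSet_interval k n2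
    filter_upwards [ae_pair (tendsto_apx h0) m0 m1 i0 i1,
      ae_pair_swap (tendsto_apx h2) m0 m2 i0 i2] with x hx hx2
    filter_upwards [hx, ae_pair (tendsto_apx h1) m1 m2 i1 i2] with y hy hy2
    filter_upwards [hy2, hx2] with z hz hz2
    exact ((hy.mul hz).mul hz2).mul tendsto_const_nhds

theorem integrableOn_cube {G : ℝ × ℝ → ℝ} (hG : Measurable G) {M R : ℝ}
    (hM : ∀ z, |G z| ≤ M)
    (hR : ∀ z ∈ Ici (0 : ℝ) ×ˢ Ici (0 : ℝ), R < ‖z‖ → G z = 0) :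
    IntegrableOn (fun z => |G z| ^ 3) (Ici (0 : ℝ) ×ˢ Ici (0 : ℝ)) := by
  have hM0 : 0 ≤ M := (abs_nonneg _).trans (hM 0)
  have hb : Integrable (indicator (Metric.closedBall (0 : ℝ × ℝ) R) (fun _ => M ^ 3))
      (volume.restrict (Ici (0 : ℝ) ×ˢ Ici (0 : ℝ))) := by
    refine Integrable.integrableOn ?_
    rw [integrable_indicator_iff Metric.isClosed_closedBall.measurableSet]
    exact integrableOn_const (measure_closedBall_lt_top.ne)
  refine hb.mono' ((hG.norm.pow_const 3).aestronglyMeasurable) ?_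
  rw [ae_restrict_iff' (measurableSet_Ici.prod measurableSet_Ici)]
  refine Eventually.of_forall fun z hz => ?_
  rw [Real.norm_eq_abs, abs_of_nonneg (by positivity)]
  by_cases hzR : z ∈ Metric.closedBall (0 : ℝ × ℝ) R
  · rw [indicator_of_mem hzR]
    exact pow_le_pow_left₀ (abs_nonneg _) (hM z) 3
  · rw [indicator_of_notMem hzR]
    rw [mem_closedBall_zero_iff, not_le] at hzR
    rw [hR z hz hzR]; simp

/-- convergence of the cubes -/
theorem tendsto_cube {F : ℝ × ℝ → ℝ} (hF : LocallyIntegrable F volume) {M R : ℝ}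
    (hM : ∀ z, |F z| ≤ M) (hR : ∀ z, R < ‖z‖ → F z = 0) :
    Tendsto (fun N => ∫ z in Ici (0 : ℝ) ×ˢ Ici (0 : ℝ), |apx F N z| ^ 3) atTop
      (𝓝 (∫ z in Ici (0 : ℝ) ×ˢ Ici (0 : ℝ), |F z| ^ 3)) := by
  have hM0 : 0 ≤ M := (abs_nonneg _).trans (hM 0)
  refine tendsto_integral_of_dominated_convergence
    (indicator (Metric.closedBall (0 : ℝ × ℝ) (R + 1)) (fun _ => M ^ 3))
    (fun N => (((measurable_apx F N).norm.pow_const 3).aestronglyMeasurable)) ?_ ?_ ?_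
  · refine Integrable.integrableOn ?_
    rw [integrable_indicator_iff Metric.isClosed_closedBall.measurableSet]
    exact integrableOn_const (measure_closedBall_lt_top.ne)
  · intro N
    rw [ae_restrict_iff' (measurableSet_Ici.prod measurableSet_Ici)]
    refine Eventually.of_forall fun z hz => ?_
    rw [Real.norm_eq_abs, abs_of_nonneg (by positivity)]
    by_cases hzR : z ∈ Metric.closedBall (0 : ℝ × ℝ) (R + 1)
    · rw [indicator_of_mem hzR]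
      exact pow_le_pow_left₀ (abs_nonneg _) (abs_apx_le hM N z) 3
    · rw [indicator_of_notMem hzR]
      rw [mem_closedBall_zero_iff, not_le] at hzR
      rw [apx_eq_zero hR N hz hzR]; simp
  · rw [ae_restrict_iff' (measurableSet_Ici.prod measurableSet_Ici)]
    filter_upwards [tendsto_apx hF] with z hz hzQ
    exact ((hz hzQ).abs).pow 3

end Crest.Agent.R072.DyadicCont
end

-- ▼ part R072/DyadicCont

/-! R072: S0097 from the discrete dyadic theorem `Dyadic.dyadic_discrete_homog`.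

The `Dyadic.lean` import is only used for the definition `dform` and the statement of
`dyadic_discrete_homog` (constant 27 — plenty of room below 40). -/

set_option autoImplicit false

namespace Crest.Agent.R072.DyadicCont

open MeasureTheory Set Filter Topology Crest.AnalysisR.TriangularDyadic

theorem localForm_apx {k : ℤ} {N K : ℕ} (hK : k + N = K) (hK1 : 1 ≤ K) (n0 n1 n2 : ℕ)
    (F₀ F₁ F₂ : ℝ × ℝ → ℝ) :
    localForm k n0 n1 n2 (apx F₀ N) (apx F₁ N) (apx F₂ N) =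
      hN N ^ 2 * Dyadic.dform (avg F₀ (hN N)) (avg F₁ (hN N)) (avg F₂ (hN N)) K n0 n1 n2 := by
  unfold apx hN
  rw [localForm_stepf hK hK1]
  rfl

theorem rpow_third {a b c h : ℝ} (ha : 0 ≤ a) (hb : 0 ≤ b) (hc : 0 ≤ c) (hh : 0 ≤ h) :
    h ^ 2 * (27 * a ^ (1 / 3 : ℝ) * b ^ (1 / 3 : ℝ) * c ^ (1 / 3 : ℝ)) =
      27 * (h ^ 2 * a) ^ (1 / 3 : ℝ) * (h ^ 2 * b) ^ (1 / 3 : ℝ) * (h ^ 2 * c) ^ (1 / 3 : ℝ) := by
  have h2 : 0 ≤ h ^ 2 := by positivity
  rw [Real.mul_rpow h2 ha, Real.mul_rpow h2 hb, Real.mul_rpow h2 hc]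
  have h3 : ((h ^ 2) ^ (1 / 3 : ℝ)) * ((h ^ 2) ^ (1 / 3 : ℝ)) * ((h ^ 2) ^ (1 / 3 : ℝ)) = h ^ 2 := by
    have : ((h ^ 2) ^ (1 / 3 : ℝ)) ^ 3 = h ^ 2 := by
      rw [← Real.rpow_natCast, ← Real.rpow_mul h2]; norm_num
    exact (by ring : ((h ^ 2) ^ (1 / 3 : ℝ)) * ((h ^ 2) ^ (1 / 3 : ℝ)) * ((h ^ 2) ^ (1 / 3 : ℝ)) =
      ((h ^ 2) ^ (1 / 3 : ℝ)) ^ 3).trans this
  calc h ^ 2 * (27 * a ^ (1 / 3 : ℝ) * b ^ (1 / 3 : ℝ) * c ^ (1 / 3 : ℝ))
      = (((h ^ 2) ^ (1 / 3 : ℝ)) * ((h ^ 2) ^ (1 / 3 : ℝ)) * ((h ^ 2) ^ (1 / 3 : ℝ))) *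
        (27 * a ^ (1 / 3 : ℝ) * b ^ (1 / 3 : ℝ) * c ^ (1 / 3 : ℝ)) := by rw [h3]
    _ = _ := by ring

/-- sum over a finite family of nodes is bounded by the full sum -/
theorem sum_dform_le (g0 g1 g2 : ℕ → ℕ → ℝ) (𝓘 : Finset (ℤ × ℕ × ℕ)) (N m : ℕ)
    (h1 : ∀ i ∈ 𝓘, 1 ≤ i.1 + N)
    (hm : ∀ i ∈ 𝓘, (i.1 + N).toNat ≤ m ∧ i.2.1 < 2 ^ (m - (i.1 + N).toNat) ∧
      i.2.2 < 2 ^ (m - (i.1 + N).toNat)) :
    ∑ i ∈ 𝓘, |Dyadic.dform g0 g1 g2 (i.1 + N).toNat i.2.1 i.2.2 (i.2.1 ^^^ i.2.2)| ≤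
    ∑ k ∈ Finset.range m, ∑ n0 ∈ Finset.range (2 ^ (m - (k + 1))),
      ∑ n1 ∈ Finset.range (2 ^ (m - (k + 1))),
      |Dyadic.dform g0 g1 g2 (k + 1) n0 n1 (n0 ^^^ n1)| := by
  classical
  set T : Finset (Σ _ : ℕ, ℕ × ℕ) := (Finset.range m).sigma
    (fun k => Finset.range (2 ^ (m - (k + 1))) ×ˢ Finset.range (2 ^ (m - (k + 1)))) with hT
  set f : (Σ _ : ℕ, ℕ × ℕ) → ℝ := fun s =>
    |Dyadic.dform g0 g1 g2 (s.1 + 1) s.2.1 s.2.2 (s.2.1 ^^^ s.2.2)| with hf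
  set e : ℤ × ℕ × ℕ → (Σ _ : ℕ, ℕ × ℕ) := fun i => ⟨(i.1 + N).toNat - 1, (i.2.1, i.2.2)⟩ with he
  have hR : ∑ k ∈ Finset.range m, ∑ n0 ∈ Finset.range (2 ^ (m - (k + 1))),
      ∑ n1 ∈ Finset.range (2 ^ (m - (k + 1))),
      |Dyadic.dform g0 g1 g2 (k + 1) n0 n1 (n0 ^^^ n1)| = ∑ s ∈ T, f s := by
    rw [hT, Finset.sum_sigma]
    refine Finset.sum_congr rfl fun k _ => ?_
    rw [Finset.sum_product]
  have hinj : Set.InjOn e (𝓘 : Set (ℤ × ℕ × ℕ)) := by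
    rintro ⟨k, n0, n1⟩ hi ⟨k', n0', n1'⟩ hi' heq
    have a1 := h1 _ hi
    have a2 := h1 _ hi'
    simp only [he, Sigma.mk.injEq, heq_eq_eq, Prod.mk.injEq] at heq a1 a2
    obtain ⟨b1, b2, b3⟩ := heq
    have : k = k' := by omega
    simp [this, b2, b3]
  have hL : ∑ i ∈ 𝓘, |Dyadic.dform g0 g1 g2 (i.1 + N).toNat i.2.1 i.2.2 (i.2.1 ^^^ i.2.2)| =
      ∑ s ∈ 𝓘.image e, f s := by
    rw [Finset.sum_image hinj]
    refine Finset.sum_congr rfl fun i hi => ?_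
    have a1 := h1 i hi
    simp only [hf, he]
    rw [Nat.sub_add_cancel (by omega)]
  rw [hR, hL]
  refine Finset.sum_le_sum_of_subset_of_nonneg ?_ (fun s _ _ => abs_nonneg _)
  intro s hs
  rw [Finset.mem_image] at hs
  obtain ⟨i, hi, rfl⟩ := hs
  have a1 := h1 i hi
  obtain ⟨b1, b2, b3⟩ := hm i hi
  simp only [hT, he, Finset.mem_sigma, Finset.mem_range, Finset.mem_product]
  rw [Nat.sub_add_cancel (by omega)]
  exact ⟨by omega, b2, b3⟩

/-- the inequality for the approximations -/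
theorem apx_ineq {F₀ F₁ F₂ : ℝ × ℝ → ℝ} {M R : ℝ}
    (hM : ∀ z, |F₀ z| ≤ M ∧ |F₁ z| ≤ M ∧ |F₂ z| ≤ M)
    (hR : ∀ z, R < ‖z‖ → F₀ z = 0 ∧ F₁ z = 0 ∧ F₂ z = 0)
    (𝓘 : Finset (ℤ × ℕ × ℕ)) (N : ℕ) (h1 : ∀ i ∈ 𝓘, 1 ≤ i.1 + N) :
    ∑ i ∈ 𝓘, |localForm i.1 i.2.1 i.2.2 (i.2.1 ^^^ i.2.2) (apx F₀ N) (apx F₁ N) (apx F₂ N)| ≤
      27 * (∫ z in Ici (0 : ℝ) ×ˢ Ici (0 : ℝ), |apx F₀ N z| ^ 3) ^ (1 / 3 : ℝ) *
        (∫ z in Ici (0 : ℝ) ×ˢ Ici (0 : ℝ), |apx F₁ N z| ^ 3) ^ (1 / 3 : ℝ) *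
        (∫ z in Ici (0 : ℝ) ×ˢ Ici (0 : ℝ), |apx F₂ N z| ^ 3) ^ (1 / 3 : ℝ) := by
  classical
  set m0 : ℕ := ∑ i ∈ 𝓘, (i.1.toNat + i.2.1 + i.2.2) with hm0
  set m : ℕ := N + m0 with hm
  have hm1 : ∀ i ∈ 𝓘, (i.1 + N).toNat ≤ m ∧ i.2.1 < 2 ^ (m - (i.1 + N).toNat) ∧
      i.2.2 < 2 ^ (m - (i.1 + N).toNat) := by
    intro i hi
    have a1 : i.1.toNat + i.2.1 + i.2.2 ≤ m0 :=
      Finset.single_le_sum (f := fun i : ℤ × ℕ × ℕ => i.1.toNat + i.2.1 + i.2.2)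
        (fun _ _ => Nat.zero_le _) hi
    have a2 : (i.1 + N).toNat ≤ i.1.toNat + N := by omega
    have a3 : i.2.1 ≤ m - (i.1 + N).toNat := by omega
    have a4 : i.2.2 ≤ m - (i.1 + N).toNat := by omega
    exact ⟨by omega, lt_of_lt_of_le Nat.lt_two_pow_self (Nat.pow_le_pow_right (by norm_num) a3),
      lt_of_lt_of_le Nat.lt_two_pow_self (Nat.pow_le_pow_right (by norm_num) a4)⟩
  have hpos := hN_pos N
  have hcube : ∀ F : ℝ × ℝ → ℝ, (∀ z, |F z| ≤ M) → (∀ z, R < ‖z‖ → F z = 0) →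
      hN N ^ 2 * (∑ x ∈ Finset.range (2 ^ m), ∑ y ∈ Finset.range (2 ^ m), |avg F (hN N) x y| ^ 3) ≤
      ∫ z in Ici (0 : ℝ) ×ˢ Ici (0 : ℝ), |apx F N z| ^ 3 := by
    intro F hFM hFR
    have hint := integrableOn_cube (measurable_apx F N) (R := R + 1) (abs_apx_le hFM N)
      (fun z hz hz2 => apx_eq_zero hFR N hz hz2)
    have hsub : Ico (0 : ℝ) (hN N * ((2 ^ m : ℕ) : ℝ)) ×ˢ Ico (0 : ℝ) (hN N * ((2 ^ m : ℕ) : ℝ)) ⊆
        Ici (0 : ℝ) ×ˢ Ici (0 : ℝ) := by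
      intro z hz
      exact ⟨hz.1.1, hz.2.1⟩
    rw [← integral_stepf_sq (hN N) hpos (avg F (hN N)) (2 ^ m) (hint.mono_set hsub)]
    exact setIntegral_mono_set hint (Eventually.of_forall fun z => by positivity)
      (Eventually.of_forall hsub)
  have step1 : ∑ i ∈ 𝓘, |localForm i.1 i.2.1 i.2.2 (i.2.1 ^^^ i.2.2) (apx F₀ N) (apx F₁ N)
      (apx F₂ N)| = hN N ^ 2 * ∑ i ∈ 𝓘, |Dyadic.dform (avg F₀ (hN N)) (avg F₁ (hN N))
        (avg F₂ (hN N)) (i.1 + N).toNat i.2.1 i.2.2 (i.2.1 ^^^ i.2.2)| := by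
    rw [Finset.mul_sum]
    refine Finset.sum_congr rfl fun i hi => ?_
    have a1 := h1 i hi
    rw [localForm_apx (K := (i.1 + N).toNat) (by omega) (by omega), abs_mul,
      abs_of_nonneg (by positivity : (0 : ℝ) ≤ hN N ^ 2)]
  rw [step1]
  refine (mul_le_mul_of_nonneg_left ((sum_dform_le _ _ _ 𝓘 N m h1 hm1).trans
    (Dyadic.dyadic_discrete_homog _ _ _ m)) (by positivity)).trans ?_
  have hS : ∀ F : ℝ × ℝ → ℝ, 0 ≤ ∑ x ∈ Finset.range (2 ^ m), ∑ y ∈ Finset.range (2 ^ m),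
      |avg F (hN N) x y| ^ 3 := fun F =>
    Finset.sum_nonneg fun _ _ => Finset.sum_nonneg fun _ _ => by positivity
  rw [rpow_third (hS F₀) (hS F₁) (hS F₂) hpos.le]
  have r0 := Real.rpow_le_rpow (mul_nonneg (by positivity) (hS F₀))
    (hcube F₀ (fun z => (hM z).1) (fun z hz => (hR z hz).1)) (by norm_num : (0 : ℝ) ≤ 1 / 3)
  have r1 := Real.rpow_le_rpow (mul_nonneg (by positivity) (hS F₁))
    (hcube F₁ (fun z => (hM z).2.1) (fun z hz => (hR z hz).2.1)) (by norm_num : (0 : ℝ) ≤ 1 / 3)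
  have r2 := Real.rpow_le_rpow (mul_nonneg (by positivity) (hS F₂))
    (hcube F₂ (fun z => (hM z).2.2) (fun z hz => (hR z hz).2.2)) (by norm_num : (0 : ℝ) ≤ 1 / 3)
  have p0 : 0 ≤ (hN N ^ 2 * ∑ x ∈ Finset.range (2 ^ m), ∑ y ∈ Finset.range (2 ^ m),
      |avg F₀ (hN N) x y| ^ 3) ^ (1 / 3 : ℝ) :=
    Real.rpow_nonneg (mul_nonneg (by positivity) (hS F₀)) _
  have p1 : 0 ≤ (hN N ^ 2 * ∑ x ∈ Finset.range (2 ^ m), ∑ y ∈ Finset.range (2 ^ m),
      |avg F₁ (hN N) x y| ^ 3) ^ (1 / 3 : ℝ) :=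
    Real.rpow_nonneg (mul_nonneg (by positivity) (hS F₁)) _
  have p2 : 0 ≤ (hN N ^ 2 * ∑ x ∈ Finset.range (2 ^ m), ∑ y ∈ Finset.range (2 ^ m),
      |avg F₂ (hN N) x y| ^ 3) ^ (1 / 3 : ℝ) :=
    Real.rpow_nonneg (mul_nonneg (by positivity) (hS F₂)) _
  exact mul_le_mul (mul_le_mul (mul_le_mul_of_nonneg_left r0 (by norm_num)) r1 p1
    (mul_nonneg (by norm_num) (p0.trans r0))) r2 p2
    (mul_nonneg (mul_nonneg (by norm_num) (p0.trans r0)) (p1.trans r1))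

theorem zero_outside {F : ℝ × ℝ → ℝ} (hc : HasCompactSupport F) :
    ∃ R : ℝ, ∀ z, R < ‖z‖ → F z = 0 := by
  obtain ⟨R, hR⟩ := hc.isCompact.isBounded.subset_closedBall (0 : ℝ × ℝ)
  refine ⟨R, fun z hz => ?_⟩
  by_contra hne
  have h1 : z ∈ tsupport F := subset_tsupport F hne
  have h2 := hR h1
  rw [mem_closedBall_zero_iff] at h2
  linarith

theorem locInt {F : ℝ × ℝ → ℝ} (hF : Measurable F) {M : ℝ} (hM : ∀ z, |F z| ≤ M) :
    LocallyIntegrable F volume := by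
  have h1 : LocallyIntegrable (fun _ : ℝ × ℝ => M) volume := locallyIntegrable_const M
  refine h1.mono hF.aestronglyMeasurable (Eventually.of_forall fun z => ?_)
  rw [Real.norm_eq_abs, Real.norm_eq_abs]
  exact (hM z).trans (le_abs_self M)

/-- S0097, with constant 27 in place of 40 -/
theorem dyadic_cont
    (F₀ F₁ F₂ : ℝ × ℝ → ℝ) (hF₀ : Measurable F₀) (hF₁ : Measurable F₁) (hF₂ : Measurable F₂)
    (hb : ∃ M : ℝ, ∀ z, abs (F₀ z) ≤ M ∧ abs (F₁ z) ≤ M ∧ abs (F₂ z) ≤ M)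
    (hc₀ : HasCompactSupport F₀) (hc₁ : HasCompactSupport F₁) (hc₂ : HasCompactSupport F₂)
    (𝓘 : Finset (ℤ × ℕ × ℕ)) :
    ∑ i ∈ 𝓘, abs (localForm i.1 i.2.1 i.2.2 (i.2.1 ^^^ i.2.2) F₀ F₁ F₂) ≤
      27 * (∫ z in Set.Ici 0 ×ˢ Set.Ici 0, abs (F₀ z) ^ 3) ^ (1 / 3 : ℝ) *
        (∫ z in Set.Ici 0 ×ˢ Set.Ici 0, abs (F₁ z) ^ 3) ^ (1 / 3 : ℝ) *
        (∫ z in Set.Ici 0 ×ˢ Set.Ici 0, abs (F₂ z) ^ 3) ^ (1 / 3 : ℝ) := by
  obtain ⟨M, hM⟩ := hb
  obtain ⟨R0, hR0⟩ := zero_outside hc₀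
  obtain ⟨R1, hR1⟩ := zero_outside hc₁
  obtain ⟨R2, hR2⟩ := zero_outside hc₂
  set R : ℝ := max R0 (max R1 R2) with hRdef
  have hR : ∀ z : ℝ × ℝ, R < ‖z‖ → F₀ z = 0 ∧ F₁ z = 0 ∧ F₂ z = 0 := by
    intro z hz
    have b0 : R0 ≤ R := le_max_left _ _
    have b1 : R1 ≤ R := (le_max_left _ _).trans (le_max_right _ _)
    have b2 : R2 ≤ R := (le_max_right _ _).trans (le_max_right _ _)
    exact ⟨hR0 z (by linarith), hR1 z (by linarith), hR2 z (by linarith)⟩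
  have l0 := locInt hF₀ (fun z => (hM z).1)
  have l1 := locInt hF₁ (fun z => (hM z).2.1)
  have l2 := locInt hF₂ (fun z => (hM z).2.2)
  -- left side
  have tL : Tendsto (fun N => ∑ i ∈ 𝓘, |localForm i.1 i.2.1 i.2.2 (i.2.1 ^^^ i.2.2)
      (apx F₀ N) (apx F₁ N) (apx F₂ N)|) atTop
      (𝓝 (∑ i ∈ 𝓘, |localForm i.1 i.2.1 i.2.2 (i.2.1 ^^^ i.2.2) F₀ F₁ F₂|)) :=
    tendsto_finsetSum _ fun i _ => (tendsto_localForm l0 l1 l2 hM _ _ _ _).abs
  have c0 := (tendsto_cube l0 (fun z => (hM z).1) (fun z hz => (hR z hz).1)).rpow_const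
    (p := (1 / 3 : ℝ)) (Or.inr (by norm_num))
  have c1 := (tendsto_cube l1 (fun z => (hM z).2.1) (fun z hz => (hR z hz).2.1)).rpow_const
    (p := (1 / 3 : ℝ)) (Or.inr (by norm_num))
  have c2 := (tendsto_cube l2 (fun z => (hM z).2.2) (fun z hz => (hR z hz).2.2)).rpow_const
    (p := (1 / 3 : ℝ)) (Or.inr (by norm_num))
  have tR := ((c0.const_mul 27).mul c1).mul c2
  refine le_of_tendsto_of_tendsto tL tR ?_
  -- eventually all scales are positive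
  have hev : ∀ᶠ N : ℕ in atTop, ∀ i ∈ 𝓘, 1 ≤ i.1 + (N : ℤ) := by
    rw [Filter.eventually_atTop]
    refine ⟨∑ i ∈ 𝓘, ((-i.1).toNat + 1), fun N hN' i hi => ?_⟩
    have a1 : (-i.1).toNat + 1 ≤ ∑ i ∈ 𝓘, ((-i.1).toNat + 1) :=
      Finset.single_le_sum (f := fun i : ℤ × ℕ × ℕ => (-i.1).toNat + 1)
        (fun _ _ => Nat.zero_le _) hi
    omega
  filter_upwards [hev] with N hN'
  exact apx_ineq hM hR 𝓘 N hN'

end Crest.Agent.R072.DyadicCont
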