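import Mathlib

/-! R072: Hardy–Littlewood maximal inequality on `ZMod Q` in `L^{3/2}`, constant uniform in `Q`.
(No imports from the rest of R072.) -/

set_option autoImplicit false

namespace Crest.Agent.R072.Maximal

section ergodic

variable {Q : ℕ}

/-- partial sums along the shift -/
def S (h : ZMod Q → ℝ) (n : ℕ) (x : ZMod Q) : ℝ := ∑ i ∈ Finset.range n, h (x + (i : ZMod Q))

lemma S_succ' (h : ZMod Q → ℝ) (n : ℕ) (x : ZMod Q) : S h (n + 1) x = h x + S h n (x + 1) := by
  unfold S
  rw [Finset.sum_range_succ', add_comm]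
  congr 1
  · simp
  · refine Finset.sum_congr rfl fun i _ => ?_
    congr 1
    push_cast
    ring

/-- running maximum of the partial sums `S 0, …, S N` -/
def MM (h : ZMod Q → ℝ) : ℕ → ZMod Q → ℝ
  | 0, _ => 0
  | N + 1, x => max 0 (h x + MM h N (x + 1))

lemma MM_nonneg (h : ZMod Q → ℝ) (N : ℕ) (x : ZMod Q) : 0 ≤ MM h N x := by
  cases N with
  | zero => exact le_rfl
  | succ N => exact le_max_left _ _

lemma MM_mono (h : ZMod Q → ℝ) (N : ℕ) : ∀ x : ZMod Q, MM h N x ≤ MM h (N + 1) x := by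
  induction N with
  | zero => intro x; exact le_max_left _ _
  | succ N ih =>
    intro x
    show max 0 (h x + MM h N (x + 1)) ≤ max 0 (h x + MM h (N + 1) (x + 1))
    exact max_le_max le_rfl (by have := ih (x + 1); linarith)

lemma MM_mono' (h : ZMod Q → ℝ) {N N' : ℕ} (hN : N ≤ N') (x : ZMod Q) :
    MM h N x ≤ MM h N' x := by
  induction hN with
  | refl => exact le_rfl
  | step _ ih => exact ih.trans (MM_mono h _ x)

lemma S_le_MM (h : ZMod Q → ℝ) (n : ℕ) : ∀ x : ZMod Q, S h n x ≤ MM h n x := by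
  induction n with
  | zero => intro x; simp [S, MM]
  | succ n ih =>
    intro x
    rw [S_succ']
    exact le_max_of_le_right (by have := ih (x + 1); linarith)

lemma exists_S_eq (h : ZMod Q → ℝ) (N : ℕ) : ∀ x : ZMod Q, ∃ n, S h n x = MM h N x := by
  induction N with
  | zero => intro x; exact ⟨0, by simp [S, MM]⟩
  | succ N ih =>
    intro x
    rcases le_total 0 (h x + MM h N (x + 1)) with h0 | h0
    · obtain ⟨n, hn⟩ := ih (x + 1)
      refine ⟨n + 1, ?_⟩
      rw [S_succ', hn]
      exact (max_eq_right h0).symm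
    · exact ⟨0, by rw [show MM h (N + 1) x = max 0 (h x + MM h N (x + 1)) from rfl,
        max_eq_left h0]; simp [S]⟩

variable [NeZero Q]

/-- maximal ergodic lemma (Garsia), finite version -/
lemma garsia (h : ZMod Q → ℝ) (N : ℕ) :
    0 ≤ ∑ x ∈ Finset.univ.filter (fun x => 0 < MM h N x), h x := by
  cases N with
  | zero => simp [MM]
  | succ N =>
    set E := Finset.univ.filter (fun x => 0 < MM h (N + 1) x) with hE
    have h1 : ∑ x ∈ E, (MM h (N + 1) x - MM h (N + 1) (x + 1)) ≤ ∑ x ∈ E, h x := by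
      refine Finset.sum_le_sum fun x hx => ?_
      have hx' : 0 < MM h (N + 1) x := (Finset.mem_filter.1 hx).2
      have h2 : MM h (N + 1) x = h x + MM h N (x + 1) := by
        have h3 : MM h (N + 1) x = max 0 (h x + MM h N (x + 1)) := rfl
        rw [h3] at hx' ⊢
        rcases le_total 0 (h x + MM h N (x + 1)) with h0 | h0
        · exact max_eq_right h0
        · rw [max_eq_left h0] at hx'; exact absurd hx' (lt_irrefl _)
      have h4 := MM_mono h N (x + 1)
      linarith
    refine le_trans ?_ h1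
    rw [Finset.sum_sub_distrib]
    have h5 : ∑ x ∈ E, MM h (N + 1) x = ∑ x, MM h (N + 1) x := by
      refine Finset.sum_subset (Finset.subset_univ _) fun x _ hx => ?_
      have : ¬ 0 < MM h (N + 1) x := fun h' => hx (Finset.mem_filter.2 ⟨Finset.mem_univ _, h'⟩)
      exact le_antisymm (not_lt.1 this) (MM_nonneg _ _ _)
    have h6 : ∑ x ∈ E, MM h (N + 1) (x + 1) ≤ ∑ x, MM h (N + 1) (x + 1) :=
      Finset.sum_le_univ_sum_of_nonneg fun x => MM_nonneg _ _ _
    have h7 : ∑ x, MM h (N + 1) (x + 1) = ∑ x, MM h (N + 1) x :=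
      Equiv.sum_comp (Equiv.addRight (1 : ZMod Q)) (fun x => MM h (N + 1) x)
    linarith

/-- maximal ergodic lemma, infinite version -/
lemma garsia' (h : ZMod Q → ℝ) [DecidablePred fun x : ZMod Q => ∃ n, 0 < S h n x] :
    0 ≤ ∑ x ∈ Finset.univ.filter (fun x => ∃ n, 0 < S h n x), h x := by
  classical
  have h1 : ∀ x : ZMod Q, ∃ N, (∃ n, 0 < S h n x) → 0 < MM h N x := by
    intro x
    by_cases hx : ∃ n, 0 < S h n x
    · obtain ⟨n, hn⟩ := hx
      exact ⟨n, fun _ => hn.trans_le (S_le_MM h n x)⟩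
    · exact ⟨0, fun h' => absurd h' hx⟩
  choose N hN using h1
  have h2 : Finset.univ.filter (fun x => ∃ n, 0 < S h n x) =
      Finset.univ.filter (fun x => 0 < MM h (Finset.univ.sup N) x) := by
    refine Finset.filter_congr fun x _ => ⟨fun hx => ?_, fun hx => ?_⟩
    · exact (hN x hx).trans_le (MM_mono' h (Finset.le_sup (Finset.mem_univ x)) x)
    · obtain ⟨n, hn⟩ := exists_S_eq h (Finset.univ.sup N) x
      exact ⟨n, by rw [hn]; exact hx⟩
  rw [h2]
  exact garsia h _

end ergodic

section real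

/-- top-value induction replacing the layer cake formula -/
lemma layer {X : Type*} [Fintype X] (f : X → ℝ) (hf : ∀ x, 0 ≤ f x) (k : ℕ) :
    ∀ s : X → ℝ, (∀ x, 0 ≤ s x) → ((Finset.univ.image s).erase 0).card ≤ k →
    (∀ l : ℝ, 0 ≤ l → l ^ 2 * ((Finset.univ.filter (fun x => l < s x)).card : ℝ) ≤
      ∑ x ∈ Finset.univ.filter (fun x => l < s x), f x) →
    ∑ x, s x ^ 3 ≤ 3 * ∑ x, f x * s x := by
  classical
  induction k with
  | zero =>
    intro s hs hk _
    have h0 : ((Finset.univ.image s).erase 0) = ∅ := Finset.card_eq_zero.1 (Nat.le_zero.1 hk)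
    have h1 : ∀ x, s x = 0 := by
      intro x
      by_contra hne
      have : s x ∈ ((Finset.univ.image s).erase 0) :=
        Finset.mem_erase.2 ⟨hne, Finset.mem_image_of_mem s (Finset.mem_univ x)⟩
      rw [h0] at this
      exact absurd this (Finset.notMem_empty _)
    simp [h1]
  | succ k ih =>
    intro s hs hk hw
    rcases isEmpty_or_nonempty X with hX | hX
    · simp
    -- the top value
    obtain ⟨x0, -, hx0⟩ := Finset.exists_max_image Finset.univ s Finset.univ_nonempty
    set v := s x0 with hv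
    rcases (hs x0).eq_or_lt with h0 | hvpos
    · -- all values are zero
      have h1 : ∀ x, s x = 0 := fun x =>
        le_antisymm ((hx0 x (Finset.mem_univ _)).trans (by rw [hv, ← h0])) (hs x)
      simp [h1]
    -- the second value
    set W := (insert 0 (Finset.univ.image s)).filter (fun t => t < v) with hW
    have hWne : W.Nonempty := ⟨0, Finset.mem_filter.2 ⟨Finset.mem_insert_self _ _, hvpos⟩⟩
    set u := W.max' hWne with hu
    have huW : u ∈ W := W.max'_mem hWne
    have huv : u < v := (Finset.mem_filter.1 huW).2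
    have hu0 : 0 ≤ u := W.le_max' 0 (Finset.mem_filter.2 ⟨Finset.mem_insert_self _ _, hvpos⟩)
    have hsec : ∀ x, s x < v → s x ≤ u := fun x hx => W.le_max' _ (Finset.mem_filter.2
      ⟨Finset.mem_insert_of_mem (Finset.mem_image_of_mem s (Finset.mem_univ x)), hx⟩)
    have hle : ∀ x, s x ≤ v := fun x => hx0 x (Finset.mem_univ _)
    set s' : X → ℝ := fun x => min (s x) u with hs'
    -- if u is a value of s, or 0: number of values decreases
    have hs'0 : ∀ x, 0 ≤ s' x := fun x => le_min (hs x) hu0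
    set T := Finset.univ.filter (fun x => s x = v) with hT
    have hTeq : ∀ l, u ≤ l → l < v → Finset.univ.filter (fun x => l < s x) = T := by
      intro l hl1 hl2
      refine Finset.filter_congr fun x _ => ⟨fun hx => ?_, fun hx => by rw [hx]; exact hl2⟩
      by_contra hne
      have := hsec x (lt_of_le_of_ne (hle x) hne)
      linarith
    have htop : v ^ 2 * (T.card : ℝ) ≤ ∑ x ∈ T, f x := by
      by_contra hcon
      push Not at hcon
      have hc : (0 : ℝ) < T.card := by
        have : x0 ∈ T := Finset.mem_filter.2 ⟨Finset.mem_univ _, rfl⟩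
        exact_mod_cast Finset.card_pos.2 ⟨x0, this⟩
      have hA0 : 0 ≤ ∑ x ∈ T, f x := Finset.sum_nonneg fun x _ => hf x
      have h1 : Real.sqrt ((∑ x ∈ T, f x) / T.card) < v := by
        rw [Real.sqrt_lt' hvpos, div_lt_iff₀ hc]; exact hcon
      obtain ⟨l, hl1, hl2⟩ := exists_between (max_lt huv h1)
      have hl3 : u ≤ l := (le_max_left _ _).trans hl1.le
      have hl4 : Real.sqrt ((∑ x ∈ T, f x) / T.card) < l := (le_max_right _ _).trans_lt hl1
      have hl0 : 0 ≤ l := hu0.trans hl3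
      have h2 := hw l hl0
      rw [hTeq l hl3 hl2] at h2
      have h3 : (∑ x ∈ T, f x) / T.card < l ^ 2 := by
        rwa [Real.sqrt_lt (by positivity) hl0] at hl4
      rw [div_lt_iff₀ hc] at h3
      linarith
    -- difference
    have hd1 : ∑ x, s x ^ 3 = ∑ x, s' x ^ 3 + (v ^ 3 - u ^ 3) * T.card := by
      have : ∀ x, s x ^ 3 = s' x ^ 3 + if s x = v then (v ^ 3 - u ^ 3) else 0 := by
        intro x
        by_cases hx : s x = v
        · rw [if_pos hx]
          simp only [hs', hx, min_eq_right huv.le]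
          ring
        · rw [if_neg hx]
          have := hsec x (lt_of_le_of_ne (hle x) hx)
          simp only [hs', min_eq_left this, add_zero]
      rw [Finset.sum_congr rfl fun x _ => this x, Finset.sum_add_distrib, ← Finset.sum_filter,
        Finset.sum_const, nsmul_eq_mul]
      ring
    have hd2 : ∑ x, f x * s x = ∑ x, f x * s' x + (v - u) * ∑ x ∈ T, f x := by
      have : ∀ x, f x * s x = f x * s' x + if s x = v then (v - u) * f x else 0 := by
        intro x
        by_cases hx : s x = v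
        · rw [if_pos hx]
          simp only [hs', hx, min_eq_right huv.le]
          ring
        · rw [if_neg hx]
          have := hsec x (lt_of_le_of_ne (hle x) hx)
          simp only [hs', min_eq_left this, add_zero]
      rw [Finset.sum_congr rfl fun x _ => this x, Finset.sum_add_distrib, ← Finset.sum_filter,
        Finset.mul_sum]
    have hd3 : (v ^ 3 - u ^ 3) * T.card ≤ 3 * ((v - u) * ∑ x ∈ T, f x) := by
      have h1 : v ^ 3 - u ^ 3 ≤ 3 * (v - u) * v ^ 2 := by
        have : 3 * (v - u) * v ^ 2 - (v ^ 3 - u ^ 3) = (v - u) ^ 2 * (2 * v + u) := by ring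
        have h2 : 0 ≤ (v - u) ^ 2 * (2 * v + u) := by positivity
        linarith
      calc (v ^ 3 - u ^ 3) * T.card ≤ (3 * (v - u) * v ^ 2) * T.card := by gcongr
        _ = 3 * (v - u) * (v ^ 2 * T.card) := by ring
        _ ≤ 3 * (v - u) * ∑ x ∈ T, f x := by
            have : 0 ≤ 3 * (v - u) := by linarith
            gcongr
        _ = _ := by ring
    have hcard : ((Finset.univ.image s').erase 0).card ≤ k := by
      have hsub : (Finset.univ.image s').erase 0 ⊆ ((Finset.univ.image s).erase 0).erase v := by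
        intro t ht
        obtain ⟨ht0, ht1⟩ := Finset.mem_erase.1 ht
        obtain ⟨x, -, hx⟩ := Finset.mem_image.1 ht1
        have htu : t ≤ u := by rw [← hx]; exact min_le_right _ _
        refine Finset.mem_erase.2 ⟨(htu.trans_lt huv).ne, Finset.mem_erase.2 ⟨ht0, ?_⟩⟩
        rcases min_choice (s x) u with h1 | h1
        · rw [← hx]
          simp only [hs', h1]
          exact Finset.mem_image_of_mem s (Finset.mem_univ x)
        · have h2 : t = u := by rw [← hx]; exact h1
          have h3 := (Finset.mem_filter.1 huW).1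
          rw [← h2] at h3
          rcases Finset.mem_insert.1 h3 with h4 | h4
          · exact absurd h4 ht0
          · exact h4
      have hvmem : v ∈ (Finset.univ.image s).erase 0 :=
        Finset.mem_erase.2 ⟨hvpos.ne', Finset.mem_image_of_mem s (Finset.mem_univ x0)⟩
      have h1 := Finset.card_le_card hsub
      rw [Finset.card_erase_of_mem hvmem] at h1
      omega
    have hw' : ∀ l : ℝ, 0 ≤ l → l ^ 2 * ((Finset.univ.filter (fun x => l < s' x)).card : ℝ) ≤
        ∑ x ∈ Finset.univ.filter (fun x => l < s' x), f x := by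
      intro l hl
      by_cases hlu : l < u
      · have : Finset.univ.filter (fun x => l < s' x) = Finset.univ.filter (fun x => l < s x) :=
          Finset.filter_congr fun x _ => by simp [hs', hlu]
        rw [this]; exact hw l hl
      · have : Finset.univ.filter (fun x => l < s' x) = ∅ := by
          refine Finset.filter_eq_empty_iff.2 fun x _ => ?_
          simp [hs', hlu]
        rw [this]; simp
    have := ih s' hs'0 hcard hw'
    rw [hd1, hd2]
    linarith

/-- strong type bound -/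
lemma strong {X : Type*} [Fintype X] (f s : X → ℝ) (hf : ∀ x, 0 ≤ f x) (hs : ∀ x, 0 ≤ s x)
    (hw : ∀ l : ℝ, 0 ≤ l → l ^ 2 * ((Finset.univ.filter (fun x => l < s x)).card : ℝ) ≤
      ∑ x ∈ Finset.univ.filter (fun x => l < s x), f x) :
    ∑ x, s x ^ 3 ≤ 6 * ∑ x, Real.sqrt (f x) ^ 3 := by
  have h1 := layer f hf _ s hs le_rfl hw
  have h2 : 3 * ∑ x, f x * s x ≤ 1 / 2 * ∑ x, s x ^ 3 + 3 * ∑ x, Real.sqrt (f x) ^ 3 := by
    rw [Finset.mul_sum, Finset.mul_sum, Finset.mul_sum, ← Finset.sum_add_distrib]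
    refine Finset.sum_le_sum fun x _ => ?_
    set t := Real.sqrt (f x) with ht
    have ht2 : f x = t ^ 2 := (Real.sq_sqrt (hf x)).symm
    have ht0 : 0 ≤ t := Real.sqrt_nonneg _
    have hs0 := hs x
    rw [ht2]
    nlinarith [mul_nonneg hs0 (sq_nonneg (s x - 2 * t)), mul_nonneg ht0 (sq_nonneg (s x - 2 * t)),
      mul_nonneg ht0 (sq_nonneg (s x - t)), mul_nonneg hs0 (sq_nonneg (s x - t)),
      mul_nonneg ht0 (sq_nonneg (5 * s x - 7 * t)), mul_nonneg hs0 (sq_nonneg (5 * s x - 7 * t))]
  linarith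

lemma rpow_three_half {a : ℝ} (ha : 0 ≤ a) : a ^ (3 / 2 : ℝ) = Real.sqrt a ^ 3 := by
  rw [Real.sqrt_eq_rpow, ← Real.rpow_natCast, ← Real.rpow_mul ha]
  norm_num

end real

section oneSided

variable {Q : ℕ} [NeZero Q]

/-- one-sided maximal function -/
noncomputable def mx (f : ZMod Q → ℝ) (x : ZMod Q) : ℝ := ⨆ n : ℕ, S f (n + 1) x / (n + 1)

omit [NeZero Q] in
lemma S_nonneg {f : ZMod Q → ℝ} (hf : ∀ x, 0 ≤ f x) (n : ℕ) (x : ZMod Q) : 0 ≤ S f n x :=
  Finset.sum_nonneg fun _ _ => hf _

lemma bdd {f : ZMod Q → ℝ} (hf : ∀ x, 0 ≤ f x) (x : ZMod Q) :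
    BddAbove (Set.range fun n : ℕ => S f (n + 1) x / (n + 1)) := by
  refine ⟨∑ y, f y, ?_⟩
  rintro _ ⟨n, rfl⟩
  show S f (n + 1) x / (n + 1) ≤ _
  rw [div_le_iff₀ (by positivity)]
  have : S f (n + 1) x ≤ ∑ _i ∈ Finset.range (n + 1), ∑ y, f y :=
    Finset.sum_le_sum fun i _ => Finset.single_le_sum (fun y _ => hf y) (Finset.mem_univ _)
  rw [Finset.sum_const, Finset.card_range, nsmul_eq_mul] at this
  push_cast at this
  linarith

omit [NeZero Q] in
lemma mx_nonneg {f : ZMod Q → ℝ} (hf : ∀ x, 0 ≤ f x) (x : ZMod Q) : 0 ≤ mx f x :=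
  Real.iSup_nonneg fun n => div_nonneg (S_nonneg hf _ _) (by positivity)

lemma S_le_mx {f : ZMod Q → ℝ} (hf : ∀ x, 0 ≤ f x) (n : ℕ) (x : ZMod Q) :
    S f n x ≤ n * mx f x := by
  cases n with
  | zero => simp [S]
  | succ n =>
    have := le_ciSup (bdd hf x) n
    rw [div_le_iff₀ (by positivity)] at this
    push_cast
    unfold mx
    linarith

lemma weak {f : ZMod Q → ℝ} (hf : ∀ x, 0 ≤ f x) (l : ℝ) :
    l * ((Finset.univ.filter (fun x => l < mx f x)).card : ℝ) ≤
      ∑ x ∈ Finset.univ.filter (fun x => l < mx f x), f x := by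
  classical
  have h1 : ∀ x, l < mx f x ↔ ∃ n, 0 < S (fun y => f y - l) n x := by
    intro x
    have hS : ∀ n, S (fun y => f y - l) n x = S f n x - n * l := by
      intro n
      simp only [S, Finset.sum_sub_distrib, Finset.sum_const, Finset.card_range, nsmul_eq_mul]
    constructor
    · intro hx
      obtain ⟨n, hn⟩ := exists_lt_of_lt_ciSup hx
      refine ⟨n + 1, ?_⟩
      rw [lt_div_iff₀ (by positivity)] at hn
      rw [hS]; push_cast; linarith
    · rintro ⟨n, hn⟩
      rw [hS] at hn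
      have h2 := S_le_mx hf n x
      have h3 : (n : ℝ) * l < n * mx f x := by linarith
      have h4 : (0 : ℝ) ≤ n := Nat.cast_nonneg n
      by_contra hcon
      push Not at hcon
      have := mul_le_mul_of_nonneg_left hcon h4
      linarith
  have h2 : Finset.univ.filter (fun x => l < mx f x) =
      Finset.univ.filter (fun x => ∃ n, 0 < S (fun y => f y - l) n x) :=
    Finset.filter_congr fun x _ => h1 x
  rw [h2]
  have h3 := garsia' (fun y => f y - l)
  rw [Finset.sum_sub_distrib, Finset.sum_const, nsmul_eq_mul] at h3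
  linarith

lemma mx_strong {f : ZMod Q → ℝ} (hf : ∀ x, 0 ≤ f x) :
    ∑ x, Real.sqrt (mx f x) ^ 3 ≤ 6 * ∑ x, Real.sqrt (f x) ^ 3 := by
  refine strong f (fun x => Real.sqrt (mx f x)) hf (fun x => Real.sqrt_nonneg _) ?_
  intro l hl
  have : Finset.univ.filter (fun x => l < Real.sqrt (mx f x)) =
      Finset.univ.filter (fun x => l ^ 2 < mx f x) :=
    Finset.filter_congr fun x _ => Real.lt_sqrt hl
  rw [this]
  exact weak hf (l ^ 2)

end oneSided

theorem exists_maximal : ∃ C : ℝ, 0 ≤ C ∧ ∀ (Q : ℕ) [NeZero Q] (f : ZMod Q → ℝ),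
    (∀ x, 0 ≤ f x) → ∃ g : ZMod Q → ℝ, (∀ x, 0 ≤ g x) ∧
      (∀ (x : ZMod Q) (K : ℕ),
        ∑ d ∈ Finset.Icc (-(K : ℤ)) K, f (x + (d : ZMod Q)) ≤ (2 * K + 1) * g x) ∧
      ∑ x, g x ^ (3 / 2 : ℝ) ≤ C * ∑ x, f x ^ (3 / 2 : ℝ) := by
  refine ⟨Real.sqrt 2 ^ 3 * 12, by positivity, ?_⟩
  intro Q _ f hf
  have hf' : ∀ x, 0 ≤ (fun y : ZMod Q => f (-y)) x := fun x => hf _
  set a : ZMod Q → ℝ := mx f with ha
  set b : ZMod Q → ℝ := fun x => mx (fun y => f (-y)) (-x) with hb
  have ha0 : ∀ x, 0 ≤ a x := mx_nonneg hf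
  have hb0 : ∀ x, 0 ≤ b x := fun x => mx_nonneg hf' _
  have hg0 : ∀ x, 0 ≤ 2 * max (a x) (b x) := fun x =>
    mul_nonneg zero_le_two (le_max_of_le_left (ha0 x))
  refine ⟨fun x => 2 * max (a x) (b x), hg0, ?_, ?_⟩
  · intro x K
    have h1 : ∑ d ∈ Finset.Icc (-(K : ℤ)) K, f (x + (d : ZMod Q)) ≤
        S f (K + 1) x + S (fun y => f (-y)) (K + 1) (-x) := by
      set F : ℤ → ℝ := fun d => f (x + (d : ZMod Q)) with hF
      have hF0 : ∀ d, 0 ≤ F d := fun d => hf _
      have hsub : Finset.Icc (-(K : ℤ)) K ⊆ (Finset.range (K + 1)).image (fun i : ℕ => (i : ℤ)) ∪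
          (Finset.range (K + 1)).image (fun i : ℕ => -(i : ℤ)) := by
        intro d hd
        obtain ⟨hd1, hd2⟩ := Finset.mem_Icc.1 hd
        rw [Finset.mem_union, Finset.mem_image, Finset.mem_image]
        rcases le_total 0 d with h0 | h0
        · left
          exact ⟨d.toNat, Finset.mem_range.2 (by omega), by omega⟩
        · right
          exact ⟨(-d).toNat, Finset.mem_range.2 (by omega), by omega⟩
      have hA : ∑ d ∈ (Finset.range (K + 1)).image (fun i : ℕ => (i : ℤ)), F d =
          S f (K + 1) x := by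
        rw [Finset.sum_image (by intro i _ j _ hij; simpa using hij)]
        simp only [hF, S]
        refine Finset.sum_congr rfl fun i _ => ?_
        push_cast; rfl
      have hB : ∑ d ∈ (Finset.range (K + 1)).image (fun i : ℕ => -(i : ℤ)), F d =
          S (fun y => f (-y)) (K + 1) (-x) := by
        rw [Finset.sum_image (by intro i _ j _ hij; simpa using hij)]
        simp only [hF, S]
        refine Finset.sum_congr rfl fun i _ => ?_
        congr 1
        push_cast; ring
      have h2 := Finset.sum_le_sum_of_subset_of_nonneg hsub (fun d _ _ => hF0 d)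
      have h3 := Finset.sum_union_inter (f := F)
        (s₁ := (Finset.range (K + 1)).image (fun i : ℕ => (i : ℤ)))
        (s₂ := (Finset.range (K + 1)).image (fun i : ℕ => -(i : ℤ)))
      have h4 : 0 ≤ ∑ d ∈ (Finset.range (K + 1)).image (fun i : ℕ => (i : ℤ)) ∩
          (Finset.range (K + 1)).image (fun i : ℕ => -(i : ℤ)), F d :=
        Finset.sum_nonneg fun d _ => hF0 d
      rw [hA, hB] at h3
      linarith
    have h2 := S_le_mx hf (K + 1) x
    have h3 := S_le_mx hf' (K + 1) (-x)
    push_cast at h2 h3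
    have h4 : mx f x ≤ max (a x) (b x) := le_max_left _ _
    have h5 : mx (fun y => f (-y)) (-x) ≤ max (a x) (b x) := le_max_right _ _
    have h6 : (0 : ℝ) ≤ K := Nat.cast_nonneg K
    have h7 : 0 ≤ max (a x) (b x) := le_max_of_le_left (ha0 x)
    calc _ ≤ _ := h1
      _ ≤ (K + 1) * max (a x) (b x) + (K + 1) * max (a x) (b x) := by
          refine add_le_add (h2.trans ?_) (h3.trans ?_)
          · gcongr
          · gcongr
      _ ≤ (2 * K + 1) * (2 * max (a x) (b x)) := by nlinarith
  · have e1 : ∀ x, (2 * max (a x) (b x)) ^ (3 / 2 : ℝ) ≤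
        Real.sqrt 2 ^ 3 * (Real.sqrt (a x) ^ 3 + Real.sqrt (b x) ^ 3) := by
      intro x
      rw [rpow_three_half (hg0 x), Real.sqrt_mul zero_le_two, mul_pow]
      gcongr
      rcases le_total (a x) (b x) with h | h
      · rw [max_eq_right h]
        have := pow_nonneg (Real.sqrt_nonneg (a x)) 3
        linarith
      · rw [max_eq_left h]
        have := pow_nonneg (Real.sqrt_nonneg (b x)) 3
        linarith
    have e2 : ∑ x, Real.sqrt (b x) ^ 3 ≤ 6 * ∑ x, Real.sqrt (f x) ^ 3 := by
      have h1 := mx_strong hf'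
      have h2 : ∑ x, Real.sqrt (b x) ^ 3 = ∑ x, Real.sqrt (mx (fun y => f (-y)) x) ^ 3 :=
        Equiv.sum_comp (Equiv.neg (ZMod Q)) (fun x => Real.sqrt (mx (fun y => f (-y)) x) ^ 3)
      have h3 : ∑ x, Real.sqrt (f (-x)) ^ 3 = ∑ x, Real.sqrt (f x) ^ 3 :=
        Equiv.sum_comp (Equiv.neg (ZMod Q)) (fun x => Real.sqrt (f x) ^ 3)
      rw [h2, ← h3]; exact h1
    have e3 := mx_strong hf
    calc ∑ x, (2 * max (a x) (b x)) ^ (3 / 2 : ℝ) ≤
        ∑ x, Real.sqrt 2 ^ 3 * (Real.sqrt (a x) ^ 3 + Real.sqrt (b x) ^ 3) :=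
          Finset.sum_le_sum fun x _ => e1 x
      _ = Real.sqrt 2 ^ 3 * (∑ x, Real.sqrt (a x) ^ 3 + ∑ x, Real.sqrt (b x) ^ 3) := by
          rw [← Finset.mul_sum, Finset.sum_add_distrib]
      _ ≤ Real.sqrt 2 ^ 3 * (6 * ∑ x, Real.sqrt (f x) ^ 3 + 6 * ∑ x, Real.sqrt (f x) ^ 3) := by
          gcongr
      _ = Real.sqrt 2 ^ 3 * 12 * ∑ x, f x ^ (3 / 2 : ℝ) := by
          rw [Finset.sum_congr rfl fun x _ => rpow_three_half (hf x)]; ring

end Crest.Agent.R072.Maximal
private theorem rz_9a6dac046c : type_of% @_root_.Crest.Agent.R072.Maximal.MM.eq_def := @_root_.Crest.Agent.R072.Maximal.MM.eq_def -- L28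
private theorem rz_e8bc30e0fb : type_of% @_root_.Crest.Agent.R072.Maximal.MM.eq_1 := @_root_.Crest.Agent.R072.Maximal.MM.eq_1 -- L28
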