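import Crest.Agent.R072.Lattice
import Crest.Agent.R072.Maximal

-- ▼ part R072/JumpA
section

/-! R072: cost of changing the first function, part A: the two inequalities `W_sub_le`, `EW_sub_le`. -/

set_option autoImplicit false

namespace Crest.Agent.R072.Jump

open Matrix Finset Crest.Agent.R072 Crest.Agent.R072.Lattice
open scoped MatrixOrder

/-- the two windows used below -/
noncomputable def RR {Q : ℕ} (X : ZMod Q → ZMod Q → ℝ) (N : ℕ) (x' x : ZMod Q) : ℝ :=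
  (1 / (N : ℝ)) * ∑ d ∈ Ioo (-(N : ℤ)) N, X x' (x + (d : ZMod Q)) ^ 2

noncomputable def CC {Q : ℕ} (X : ZMod Q → ZMod Q → ℝ) (N : ℕ) (x' x : ZMod Q) : ℝ :=
  (1 / (N : ℝ)) * ∑ d ∈ Ioo (-(N : ℤ)) N, X (x' + (d : ZMod Q)) x ^ 2

noncomputable def YY {Q : ℕ} (Z : ZMod Q → ZMod Q → ℝ) (N : ℕ) (n : ZMod Q) (x' x : ZMod Q) : ℝ :=
  (1 / (N : ℝ)) * ∑ d ∈ Ico (0 : ℤ) (3 * N), Z (n - x' - x + (d : ZMod Q)) x ^ 2

section aux

variable {r : ℕ}

/-- quadratic form -/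
noncomputable def quad (S : Matrix (Fin r) (Fin r) ℝ) (x : Fin r → ℝ) : ℝ :=
  ∑ j, x j * ∑ k, S j k * x k

theorem quad_eq (S : Matrix (Fin r) (Fin r) ℝ) (x : Fin r → ℝ) : quad S x = x ⬝ᵥ (S *ᵥ x) := rfl

theorem quad_sub_le {S : Matrix (Fin r) (Fin r) ℝ} (hS : S.PosSemidef) (x y : Fin r → ℝ) :
    quad S x - quad S y ≤ 2 * ∑ j, (x j - y j) * ∑ k, S j k * x k := by
  have h := hS.dotProduct_mulVec_nonneg (x - y)
  have hsym : ∀ u v : Fin r → ℝ, u ⬝ᵥ (S *ᵥ v) = v ⬝ᵥ (S *ᵥ u) := by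
    intro u v
    have hT : Sᵀ = S := by
      have := hS.isHermitian
      rw [IsHermitian, conjTranspose_eq_transpose_of_trivial] at this
      exact this
    rw [dotProduct_mulVec, ← mulVec_transpose, hT, dotProduct_comm]
  have e : ∑ j, (x j - y j) * ∑ k, S j k * x k = (x - y) ⬝ᵥ (S *ᵥ x) := rfl
  rw [quad_eq, quad_eq, e]
  simp only [star_trivial, mulVec_sub, dotProduct_sub, sub_dotProduct] at h ⊢
  rw [hsym y x] at *
  linarith

theorem abs_mulVec_le {S M : Matrix (Fin r) (Fin r) ℝ} (hS : S.PosSemidef) (hSM : S * S = M)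
    (x : Fin r → ℝ) (j : Fin r) :
    |∑ k, S j k * x k| ≤ Real.sqrt (M j j) * Real.sqrt (∑ k, x k ^ 2) := by
  have h1 : (∑ k, S j k * x k) ^ 2 ≤ (∑ k, S j k ^ 2) * ∑ k, x k ^ 2 :=
    Finset.sum_mul_sq_le_sq_mul_sq _ _ _
  have h2 : ∑ k, S j k ^ 2 = M j j := by
    rw [← hSM, mul_apply]
    refine Finset.sum_congr rfl fun k _ => ?_
    have := hS.isHermitian.apply k j
    simp only [star_trivial] at this
    rw [sq, ← this]
  rw [h2] at h1
  have h3 : 0 ≤ M j j := by rw [← h2]; positivity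
  rw [← Real.sqrt_mul h3]
  exact Real.abs_le_sqrt h1

theorem trace_mul_sum (S A : Matrix (Fin r) (Fin r) ℝ) (c : ℝ) (s : Finset ℕ)
    (x : ℕ → Fin r → ℝ) (hA : ∀ j j', A j j' = c * ∑ i ∈ s, x i j * x i j') :
    (S * A).trace = c * ∑ i ∈ s, quad S (x i) := by
  simp only [Matrix.trace, Matrix.diag_apply, Matrix.mul_apply, quad, hA, Finset.mul_sum]
  conv_rhs => rw [Finset.sum_comm]
  refine Finset.sum_congr rfl fun j _ => ?_
  conv_rhs => rw [Finset.sum_comm]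
  refine Finset.sum_congr rfl fun k _ => ?_
  refine Finset.sum_congr rfl fun i _ => ?_
  ring

/-- local estimate: `M = ∑ x_i x_i' + Zpart`, `M' = ∑ x'_i x'_i' + Zpart` (normalised by `1/N²`). -/
theorem phi_diff_le {M M' A A' : Matrix (Fin r) (Fin r) ℝ} (hM : M.PosSemidef)
    (hM' : M'.PosSemidef) (hMM : M - M' = A - A') (c : ℝ) (hc : 0 ≤ c) (s : Finset ℕ)
    (x x' : ℕ → Fin r → ℝ)
    (hA : ∀ j j', A j j' = c * ∑ i ∈ s, x i j * x i j')
    (hA' : ∀ j j', A' j j' = c * ∑ i ∈ s, x' i j * x' i j') :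
    phi M - phi M' ≤ 3 * c * ∑ i ∈ s, ∑ j, |x i j - x' i j| *
      (Real.sqrt (M j j) * Real.sqrt (∑ k, x i k ^ 2)) := by
  have h0 := phi_sub_le hM hM'
  set S := CFC.sqrt M with hS
  have hSp : S.PosSemidef := (CFC.sqrt_nonneg M).posSemidef
  have hSM : S * S = M := CFC.sqrt_mul_sqrt_self M hM.nonneg
  rw [hMM, mul_sub, trace_sub, trace_mul_sum S A c s x hA, trace_mul_sum S A' c s x' hA'] at h0
  refine h0.trans ?_
  rw [← mul_sub, ← Finset.sum_sub_distrib]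
  have h1 : ∑ i ∈ s, (quad S (x i) - quad S (x' i)) ≤ ∑ i ∈ s, 2 * ∑ j, |x i j - x' i j| *
      (Real.sqrt (M j j) * Real.sqrt (∑ k, x i k ^ 2)) := by
    refine Finset.sum_le_sum fun i _ => ?_
    refine (quad_sub_le hSp _ _).trans ?_
    refine mul_le_mul_of_nonneg_left (Finset.sum_le_sum fun j _ => ?_) (by norm_num)
    refine (le_abs_self _).trans ?_
    rw [abs_mul]
    exact mul_le_mul_of_nonneg_left (abs_mulVec_le hSp hSM _ _) (abs_nonneg _)
  rw [← Finset.mul_sum] at h1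
  calc 3 / 2 * (c * ∑ i ∈ s, (quad S (x i) - quad S (x' i)))
      ≤ 3 / 2 * (c * (2 * ∑ i ∈ s, ∑ j, |x i j - x' i j| *
      (Real.sqrt (M j j) * Real.sqrt (∑ k, x i k ^ 2)))) := by gcongr
    _ = _ := by ring

end aux

section windows

variable {Q : ℕ}

/-- shifting a window: `∑_{j<N} f(p+j)` is at most the two-sided window around `p + j₀`. -/
theorem sum_window_le {N : ℕ} (f : ZMod Q → ℝ) (hf : ∀ x, 0 ≤ f x) (p : ZMod Q) {j₀ : ℕ}
    (hj₀ : j₀ < N) :
    ∑ j ∈ range N, f (p + (j : ZMod Q)) ≤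
      ∑ d ∈ Ioo (-(N : ℤ)) N, f (p + (j₀ : ZMod Q) + (d : ZMod Q)) := by
  have : ∑ j ∈ range N, f (p + (j : ZMod Q)) =
      ∑ d ∈ (range N).image (fun j : ℕ => (j : ℤ) - j₀), f (p + (j₀ : ZMod Q) + (d : ZMod Q)) := by
    rw [Finset.sum_image]
    · refine Finset.sum_congr rfl fun j _ => ?_
      congr 1
      push_cast
      ring
    · intro a _ b _ hab
      simp only at hab
      omega
  rw [this]
  refine Finset.sum_le_sum_of_subset_of_nonneg ?_ fun d _ _ => hf _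
  intro d hd
  simp only [mem_image, mem_range, mem_Ioo] at hd ⊢
  obtain ⟨j, hj, rfl⟩ := hd
  omega

theorem sum_window_le' {N : ℕ} (f : ZMod Q → ℝ) (hf : ∀ x, 0 ≤ f x) (p : ZMod Q) {i₀ j₀ : ℕ}
    (hi₀ : i₀ < N) (hj₀ : j₀ < N) :
    ∑ j ∈ range N, f (p + (j : ZMod Q)) ≤
      ∑ d ∈ Ico (0 : ℤ) (3 * N), f (p - (i₀ : ZMod Q) - (j₀ : ZMod Q) + (d : ZMod Q)) := by
  have : ∑ j ∈ range N, f (p + (j : ZMod Q)) =
      ∑ d ∈ (range N).image (fun j : ℕ => (j : ℤ) + i₀ + j₀),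
        f (p - (i₀ : ZMod Q) - (j₀ : ZMod Q) + (d : ZMod Q)) := by
    rw [Finset.sum_image]
    · refine Finset.sum_congr rfl fun j _ => ?_
      congr 1
      push_cast
      ring
    · intro a _ b _ hab
      simp only at hab
      omega
  rw [this]
  refine Finset.sum_le_sum_of_subset_of_nonneg ?_ fun d _ _ => hf _
  intro d hd
  simp only [mem_image, mem_range, mem_Ico] at hd ⊢
  obtain ⟨j, hj, rfl⟩ := hd
  omega

theorem sum_shift_all [NeZero Q] {N : ℕ} (g : ZMod Q → ZMod Q → ℝ) :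
    ∑ p : ZMod Q, ∑ q : ZMod Q, ∑ i ∈ range N, ∑ j : Fin N,
      g (q + (i : ZMod Q)) (p + ((j : ℕ) : ZMod Q)) = N * N * ∑ x' : ZMod Q, ∑ x : ZMod Q, g x' x := by
  have h1 : ∀ (i : ℕ) (j : Fin N), ∑ p : ZMod Q, ∑ q : ZMod Q,
      g (q + (i : ZMod Q)) (p + ((j : ℕ) : ZMod Q)) = ∑ x' : ZMod Q, ∑ x : ZMod Q, g x' x := by
    intro i j
    rw [Finset.sum_comm]
    rw [← Equiv.sum_comp (Equiv.addRight (i : ZMod Q)) (fun x' => ∑ x : ZMod Q, g x' x)]
    refine Finset.sum_congr rfl fun q _ => ?_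
    rw [← Equiv.sum_comp (Equiv.addRight ((j : ℕ) : ZMod Q)) (fun x => g _ x)]
    rfl
  calc ∑ p : ZMod Q, ∑ q : ZMod Q, ∑ i ∈ range N, ∑ j : Fin N,
      g (q + (i : ZMod Q)) (p + ((j : ℕ) : ZMod Q))
      = ∑ p : ZMod Q, ∑ i ∈ range N, ∑ q : ZMod Q, ∑ j : Fin N,
        g (q + (i : ZMod Q)) (p + ((j : ℕ) : ZMod Q)) := by
        refine Finset.sum_congr rfl fun p _ => Finset.sum_comm
    _ = ∑ i ∈ range N, ∑ p : ZMod Q, ∑ q : ZMod Q, ∑ j : Fin N,
        g (q + (i : ZMod Q)) (p + ((j : ℕ) : ZMod Q)) := Finset.sum_comm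
    _ = ∑ i ∈ range N, ∑ p : ZMod Q, ∑ j : Fin N, ∑ q : ZMod Q,
        g (q + (i : ZMod Q)) (p + ((j : ℕ) : ZMod Q)) := by
        refine Finset.sum_congr rfl fun i _ => Finset.sum_congr rfl fun p _ => Finset.sum_comm
    _ = ∑ i ∈ range N, ∑ j : Fin N, ∑ p : ZMod Q, ∑ q : ZMod Q,
        g (q + (i : ZMod Q)) (p + ((j : ℕ) : ZMod Q)) := by
        refine Finset.sum_congr rfl fun i _ => Finset.sum_comm
    _ = ∑ i ∈ range N, ∑ j : Fin N, ∑ x' : ZMod Q, ∑ x : ZMod Q, g x' x := by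
        refine Finset.sum_congr rfl fun i _ => Finset.sum_congr rfl fun j _ => h1 i j
    _ = _ := by
        simp only [Finset.sum_const, Finset.card_range, Finset.card_univ, Fintype.card_fin,
          nsmul_eq_mul]
        ring

end windows

section main

variable {Q : ℕ} [NeZero Q]

theorem YY_nonneg {Q : ℕ} (Z : ZMod Q → ZMod Q → ℝ) (N : ℕ) (n x' x : ZMod Q) : 0 ≤ YY Z N n x' x := by
  unfold YY; positivity

theorem RR_nonneg {Q : ℕ} (X : ZMod Q → ZMod Q → ℝ) (N : ℕ) (x' x : ZMod Q) : 0 ≤ RR X N x' x := by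
  unfold RR; positivity

theorem CC_nonneg {Q : ℕ} (X : ZMod Q → ZMod Q → ℝ) (N : ℕ) (x' x : ZMod Q) : 0 ≤ CC X N x' x := by
  unfold CC; positivity

theorem row_le {N : ℕ} (hN : 0 < N) (X : ZMod Q → ZMod Q → ℝ) (q p : ZMod Q) (j : Fin N) :
    ∑ k : Fin N, X q (p + ((k : ℕ) : ZMod Q)) ^ 2 ≤ N * RR X N q (p + ((j : ℕ) : ZMod Q)) := by
  have hN' : (0 : ℝ) < N := by exact_mod_cast hN
  rw [RR, ← mul_assoc, mul_one_div_cancel hN'.ne', one_mul,
    Fin.sum_univ_eq_sum_range (fun k => X q (p + (k : ZMod Q)) ^ 2) N]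
  exact sum_window_le (fun x => X q x ^ 2) (fun x => by positivity) p j.2

theorem col_le {N : ℕ} (hN : 0 < N) (X : ZMod Q → ZMod Q → ℝ) (q x : ZMod Q) {i : ℕ}
    (hi : i < N) :
    ∑ k ∈ range N, X (q + (k : ZMod Q)) x ^ 2 ≤ N * CC X N (q + (i : ZMod Q)) x := by
  have hN' : (0 : ℝ) < N := by exact_mod_cast hN
  rw [CC, ← mul_assoc, mul_one_div_cancel hN'.ne', one_mul]
  exact sum_window_le (fun y => X y x ^ 2) (fun x => by positivity) q hi

theorem yy_le {N : ℕ} (hN : 0 < N) (Z : ZMod Q → ZMod Q → ℝ) (n p q : ZMod Q) {i : ℕ}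
    (hi : i < N) (j : Fin N) :
    ∑ k ∈ range N, Z (n - p - q + (k : ZMod Q)) (p + ((j : ℕ) : ZMod Q)) ^ 2 ≤
      N * YY Z N n (q + (i : ZMod Q)) (p + ((j : ℕ) : ZMod Q)) := by
  have hN' : (0 : ℝ) < N := by exact_mod_cast hN
  rw [YY, ← mul_assoc, mul_one_div_cancel hN'.ne', one_mul]
  have := sum_window_le' (fun y => Z y (p + ((j : ℕ) : ZMod Q)) ^ 2) (fun x => by positivity)
    (n - p - q) hi j.2
  refine this.trans (le_of_eq ?_)
  refine Finset.sum_congr rfl fun d _ => ?_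
  congr 2
  ring

/-- (C7) for `W` -/
theorem W_sub_le (X X' Z : ZMod Q → ZMod Q → ℝ) {N : ℕ} (hN : 0 < N)
    (n : ZMod Q) :
    W X Z N N n - W X' Z N N n ≤
      3 * ∑ x' : ZMod Q, ∑ x : ZMod Q, |X x' x - X' x' x| * Real.sqrt (RR X N x' x) *
        Real.sqrt (CC X N x' x + YY Z N n x' x) := by
  have hN' : (0 : ℝ) < N := by exact_mod_cast hN
  set g : ZMod Q → ZMod Q → ℝ := fun x' x => |X x' x - X' x' x| * Real.sqrt (RR X N x' x) *
        Real.sqrt (CC X N x' x + YY Z N n x' x) with hg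
  have key : ∀ p q : ZMod Q,
      phi (abar X N N q p + abar Z N N (n - p - q) p) -
        phi (abar X' N N q p + abar Z N N (n - p - q) p) ≤
      3 * (1 / ((N : ℝ) * N)) * ∑ i ∈ range N, ∑ j : Fin N,
        g (q + (i : ZMod Q)) (p + ((j : ℕ) : ZMod Q)) := by
    intro p q
    have h := phi_diff_le (A := abar X N N q p) (A' := abar X' N N q p)
      ((abar_posSemidef X N N q p).add (abar_posSemidef Z N N (n - p - q) p))
      ((abar_posSemidef X' N N q p).add (abar_posSemidef Z N N (n - p - q) p))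
      (by abel) (1 / ((N : ℝ) * N)) (by positivity) (range N)
      (fun i j => X (q + (i : ZMod Q)) (p + ((j : ℕ) : ZMod Q)))
      (fun i j => X' (q + (i : ZMod Q)) (p + ((j : ℕ) : ZMod Q)))
      (fun j j' => rfl) (fun j j' => rfl)
    refine h.trans ?_
    refine mul_le_mul_of_nonneg_left ?_ (by positivity)
    refine Finset.sum_le_sum fun i hi => Finset.sum_le_sum fun j _ => ?_
    rw [hg]
    simp only
    rw [mul_assoc]
    refine mul_le_mul_of_nonneg_left ?_ (abs_nonneg _)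
    have hi' : i < N := by simpa using hi
    -- diagonal entry
    have hM : (abar X N N q p + abar Z N N (n - p - q) p) j j ≤
        (1 / N) * (CC X N (q + (i : ZMod Q)) (p + ((j : ℕ) : ZMod Q)) +
          YY Z N n (q + (i : ZMod Q)) (p + ((j : ℕ) : ZMod Q))) := by
      have e1 : (abar X N N q p + abar Z N N (n - p - q) p) j j =
          (1 / ((N : ℝ) * N)) * (∑ k ∈ range N, X (q + (k : ZMod Q)) (p + ((j : ℕ) : ZMod Q)) ^ 2 +
            ∑ k ∈ range N, Z (n - p - q + (k : ZMod Q)) (p + ((j : ℕ) : ZMod Q)) ^ 2) := by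
        simp only [Matrix.add_apply, abar]
        rw [← mul_add]
        congr 2 <;> exact Finset.sum_congr rfl fun k _ => by rw [sq]
      rw [e1]
      have c1 := col_le hN X q (p + ((j : ℕ) : ZMod Q)) hi'
      have c2 := yy_le hN Z n p q hi' j
      calc (1 / ((N : ℝ) * N)) * (∑ k ∈ range N, X (q + (k : ZMod Q)) (p + ((j : ℕ) : ZMod Q)) ^ 2 +
            ∑ k ∈ range N, Z (n - p - q + (k : ZMod Q)) (p + ((j : ℕ) : ZMod Q)) ^ 2)
          ≤ (1 / ((N : ℝ) * N)) * (N * CC X N (q + (i : ZMod Q)) (p + ((j : ℕ) : ZMod Q)) +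
            N * YY Z N n (q + (i : ZMod Q)) (p + ((j : ℕ) : ZMod Q))) := by gcongr
        _ = _ := by field_simp
    have hR := row_le hN X (q + (i : ZMod Q)) p j
    rw [← Real.sqrt_mul (RR_nonneg _ _ _ _)]
    rw [← Real.sqrt_mul ((((abar_posSemidef X N N q p).add
      (abar_posSemidef Z N N (n - p - q) p))).diag_nonneg)]
    apply Real.sqrt_le_sqrt
    have a1 : 0 ≤ RR X N (q + (i : ZMod Q)) (p + ((j : ℕ) : ZMod Q)) := RR_nonneg _ _ _ _
    have a2 : 0 ≤ CC X N (q + (i : ZMod Q)) (p + ((j : ℕ) : ZMod Q)) := CC_nonneg _ _ _ _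
    have a3 : 0 ≤ YY Z N n (q + (i : ZMod Q)) (p + ((j : ℕ) : ZMod Q)) := YY_nonneg _ _ _ _ _
    calc (abar X N N q p + abar Z N N (n - p - q) p) j j *
          ∑ k : Fin N, X (q + (i : ZMod Q)) (p + ((k : ℕ) : ZMod Q)) ^ 2
        ≤ ((1 / N) * (CC X N (q + (i : ZMod Q)) (p + ((j : ℕ) : ZMod Q)) +
          YY Z N n (q + (i : ZMod Q)) (p + ((j : ℕ) : ZMod Q)))) *
            (N * RR X N (q + (i : ZMod Q)) (p + ((j : ℕ) : ZMod Q))) := by
          apply mul_le_mul hM hR (by positivity) (by positivity)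
      _ = _ := by field_simp
  calc W X Z N N n - W X' Z N N n
      = ∑ p : ZMod Q, ∑ q : ZMod Q, (phi (abar X N N q p + abar Z N N (n - p - q) p) -
        phi (abar X' N N q p + abar Z N N (n - p - q) p)) := by
        simp only [W, Finset.sum_sub_distrib]
    _ ≤ ∑ p : ZMod Q, ∑ q : ZMod Q, 3 * (1 / ((N : ℝ) * N)) * ∑ i ∈ range N, ∑ j : Fin N,
        g (q + (i : ZMod Q)) (p + ((j : ℕ) : ZMod Q)) :=
        Finset.sum_le_sum fun p _ => Finset.sum_le_sum fun q _ => key p q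
    _ = 3 * (1 / ((N : ℝ) * N)) * ∑ p : ZMod Q, ∑ q : ZMod Q, ∑ i ∈ range N, ∑ j : Fin N,
        g (q + (i : ZMod Q)) (p + ((j : ℕ) : ZMod Q)) := by
        simp only [Finset.mul_sum]
    _ = 3 * ∑ x' : ZMod Q, ∑ x : ZMod Q, g x' x := by
        rw [sum_shift_all]
        field_simp
    _ = _ := rfl

theorem W_zero (X : ZMod Q → ZMod Q → ℝ) (a r : ℕ) (n : ZMod Q) :
    W X (fun _ _ => 0) a r n = EW X a r := by
  unfold W EW
  refine Finset.sum_congr rfl fun p _ => Finset.sum_congr rfl fun q _ => ?_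
  congr 1
  have : abar (fun _ _ : ZMod Q => (0 : ℝ)) a r (n - p - q) p = 0 := by
    ext j j'
    simp [abar]
  rw [this, add_zero]


end main

end Crest.Agent.R072.Jump
end

-- ▼ part R072/Jump

/-! R072: cost of changing the first function (blueprint part 2, (C7)).
`RR`, `CC`, `YY`, `W_sub_le`, `EW_sub_le` are in `JumpA`. -/

set_option autoImplicit false

namespace Crest.Agent.R072.Jump

open Matrix Finset Crest.Agent.R072 Crest.Agent.R072.Lattice
open scoped MatrixOrder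

section aux

variable {Q : ℕ}

theorem sq_le_of_abs {x h τ : ℝ} (hx : |x| ≤ τ * |h|) : x ^ 2 ≤ τ ^ 2 * h ^ 2 := by
  have := pow_le_pow_left₀ (abs_nonneg x) hx 2
  rwa [mul_pow, sq_abs, sq_abs] at this

theorem RR_le {X H : ZMod Q → ZMod Q → ℝ} {τ : ℝ} (h : ∀ x y, |X x y| ≤ τ * |H x y|)
    (N : ℕ) (x' x : ZMod Q) : RR X N x' x ≤ τ ^ 2 * RR H N x' x := by
  unfold RR
  calc (1 / (N : ℝ)) * ∑ d ∈ Ioo (-(N : ℤ)) N, X x' (x + (d : ZMod Q)) ^ 2
      ≤ (1 / (N : ℝ)) * ∑ d ∈ Ioo (-(N : ℤ)) N, τ ^ 2 * H x' (x + (d : ZMod Q)) ^ 2 :=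
        mul_le_mul_of_nonneg_left (Finset.sum_le_sum fun d _ => sq_le_of_abs (h _ _))
          (by positivity)
    _ = _ := by rw [← Finset.mul_sum]; ring

theorem CC_le {X H : ZMod Q → ZMod Q → ℝ} {τ : ℝ} (h : ∀ x y, |X x y| ≤ τ * |H x y|)
    (N : ℕ) (x' x : ZMod Q) : CC X N x' x ≤ τ ^ 2 * CC H N x' x := by
  unfold CC
  calc (1 / (N : ℝ)) * ∑ d ∈ Ioo (-(N : ℤ)) N, X (x' + (d : ZMod Q)) x ^ 2
      ≤ (1 / (N : ℝ)) * ∑ d ∈ Ioo (-(N : ℤ)) N, τ ^ 2 * H (x' + (d : ZMod Q)) x ^ 2 :=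
        mul_le_mul_of_nonneg_left (Finset.sum_le_sum fun d _ => sq_le_of_abs (h _ _))
          (by positivity)
    _ = _ := by rw [← Finset.mul_sum]; ring

theorem window_max {f g : ZMod Q → ℝ} (hg : ∀ x, 0 ≤ g x)
    (hmax : ∀ (x : ZMod Q) (K : ℕ),
      ∑ d ∈ Finset.Icc (-(K : ℤ)) K, f (x + (d : ZMod Q)) ≤ (2 * K + 1) * g x)
    {N : ℕ} (hN : 0 < N) (x : ZMod Q) :
    (1 / (N : ℝ)) * ∑ d ∈ Ioo (-(N : ℤ)) N, f (x + (d : ZMod Q)) ≤ 2 * g x := by
  have hN' : (0 : ℝ) < N := by exact_mod_cast hN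
  obtain ⟨K, rfl⟩ : ∃ K, N = K + 1 := ⟨N - 1, by omega⟩
  have hI : Ioo (-((K + 1 : ℕ) : ℤ)) ((K + 1 : ℕ) : ℤ) = Icc (-(K : ℤ)) K := by
    ext d
    simp only [mem_Ioo, mem_Icc]
    push_cast
    omega
  rw [hI, one_div, inv_mul_le_iff₀ hN']
  refine (hmax x K).trans ?_
  push_cast
  nlinarith [hg x]

theorem window_max' {f g : ZMod Q → ℝ} (hf : ∀ x, 0 ≤ f x) (hg : ∀ x, 0 ≤ g x)
    (hmax : ∀ (x : ZMod Q) (K : ℕ),
      ∑ d ∈ Finset.Icc (-(K : ℤ)) K, f (x + (d : ZMod Q)) ≤ (2 * K + 1) * g x)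
    {N : ℕ} (hN : 0 < N) (x : ZMod Q) {c : ℤ} (hc : N ≤ c) (hc' : c ≤ 2 * N) :
    (1 / (N : ℝ)) * ∑ d ∈ Ico (0 : ℤ) (3 * N), f (x - (c : ZMod Q) + (d : ZMod Q)) ≤ 5 * g x := by
  have hN' : (0 : ℝ) < N := by exact_mod_cast hN
  have hN1 : (1 : ℝ) ≤ N := by exact_mod_cast hN
  have h1 : ∑ d ∈ Ico (0 : ℤ) (3 * N), f (x - (c : ZMod Q) + (d : ZMod Q)) ≤
      ∑ d ∈ Icc (-((2 * N : ℕ) : ℤ)) ((2 * N : ℕ) : ℤ), f (x + (d : ZMod Q)) := by
    have : ∑ d ∈ Ico (0 : ℤ) (3 * N), f (x - (c : ZMod Q) + (d : ZMod Q)) =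
        ∑ d ∈ (Ico (0 : ℤ) (3 * N)).image (fun d => d - c), f (x + (d : ZMod Q)) := by
      rw [Finset.sum_image]
      · refine Finset.sum_congr rfl fun d _ => ?_
        congr 1
        push_cast
        ring
      · intro a _ b _ hab
        simp only at hab
        omega
    rw [this]
    refine Finset.sum_le_sum_of_subset_of_nonneg ?_ fun d _ _ => hf _
    intro d hd
    simp only [mem_image, mem_Ico, mem_Icc] at hd ⊢
    obtain ⟨e, he, rfl⟩ := hd
    push_cast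
    omega
  rw [one_div, inv_mul_le_iff₀ hN']
  refine h1.trans ((hmax x (2 * N)).trans ?_)
  push_cast
  nlinarith [hg x]

theorem sqrt_core {τ R C Y a b y : ℝ} (hτ : 0 ≤ τ) (ha : 0 ≤ a) (hb : 0 ≤ b) (hy : 0 ≤ y)
    (hR : R ≤ τ ^ 2 * a) (hC : C ≤ τ ^ 2 * b) (hY : Y ≤ y) :
    Real.sqrt R * Real.sqrt (C + Y) ≤ τ * (1 + τ) * ((a + b + y) / 2) := by
  have h1 : Real.sqrt R ≤ τ * Real.sqrt a := by
    rw [← Real.sqrt_sq hτ, ← Real.sqrt_mul (sq_nonneg τ)]
    exact Real.sqrt_le_sqrt hR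
  have h2 : Real.sqrt (C + Y) ≤ (1 + τ) * Real.sqrt (b + y) := by
    rw [← Real.sqrt_sq (by linarith : 0 ≤ 1 + τ), ← Real.sqrt_mul (sq_nonneg (1 + τ))]
    apply Real.sqrt_le_sqrt
    nlinarith [mul_nonneg hτ hb, mul_nonneg hτ hy, mul_nonneg (sq_nonneg τ) hy]
  have h3 : Real.sqrt a * Real.sqrt (b + y) ≤ (a + b + y) / 2 := by
    have e1 := Real.sq_sqrt ha
    have e2 := Real.sq_sqrt (by linarith : 0 ≤ b + y)
    nlinarith [sq_nonneg (Real.sqrt a - Real.sqrt (b + y))]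
  calc Real.sqrt R * Real.sqrt (C + Y) ≤ (τ * Real.sqrt a) * ((1 + τ) * Real.sqrt (b + y)) := by
        gcongr
    _ = τ * (1 + τ) * (Real.sqrt a * Real.sqrt (b + y)) := by ring
    _ ≤ _ := by gcongr

theorem W_core [NeZero Q] {X X' Z : ZMod Q → ZMod Q → ℝ} {N : ℕ} (hN : 0 < N) {n : ZMod Q}
    {τ : ℝ} (hτ : 0 ≤ τ) (a b y G : ZMod Q → ZMod Q → ℝ) (ha : ∀ s t, 0 ≤ a s t)
    (hb : ∀ s t, 0 ≤ b s t) (hy : ∀ s t, 0 ≤ y s t)
    (hR : ∀ s t, RR X N s t ≤ τ ^ 2 * a s t) (hC : ∀ s t, CC X N s t ≤ τ ^ 2 * b s t)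
    (hY : ∀ s t, YY Z N n s t ≤ y s t)
    (hG : ∀ s t, 3 / 2 * (a s t + b s t + y s t) ≤ G s t) :
    W X Z N N n - W X' Z N N n ≤ τ * (1 + τ) * ∑ s : ZMod Q, ∑ t : ZMod Q,
      |X s t - X' s t| * G s t := by
  refine (W_sub_le X X' Z hN n).trans ?_
  simp only [Finset.mul_sum]
  refine Finset.sum_le_sum fun s _ => Finset.sum_le_sum fun t _ => ?_
  have h := sqrt_core hτ (ha s t) (hb s t) (hy s t) (hR s t) (hC s t) (hY s t)
  calc 3 * (|X s t - X' s t| * Real.sqrt (RR X N s t) * Real.sqrt (CC X N s t + YY Z N n s t))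
      = 3 * |X s t - X' s t| *
          (Real.sqrt (RR X N s t) * Real.sqrt (CC X N s t + YY Z N n s t)) := by ring
    _ ≤ 3 * |X s t - X' s t| * (τ * (1 + τ) * ((a s t + b s t + y s t) / 2)) := by gcongr
    _ = τ * (1 + τ) * (|X s t - X' s t| * (3 / 2 * (a s t + b s t + y s t))) := by ring
    _ ≤ τ * (1 + τ) * (|X s t - X' s t| * G s t) := by
        have : 0 ≤ 1 + τ := by linarith
        gcongr
        exact hG s t

theorem EW_core [NeZero Q] {X X' : ZMod Q → ZMod Q → ℝ} {N : ℕ} (hN : 0 < N)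
    {τ : ℝ} (hτ : 0 ≤ τ) (a b G : ZMod Q → ZMod Q → ℝ) (ha : ∀ s t, 0 ≤ a s t)
    (hb : ∀ s t, 0 ≤ b s t)
    (hR : ∀ s t, RR X N s t ≤ τ ^ 2 * a s t) (hC : ∀ s t, CC X N s t ≤ τ ^ 2 * b s t)
    (hG : ∀ s t, 3 / 2 * (a s t + b s t) ≤ G s t) :
    EW X N N - EW X' N N ≤ τ * (1 + τ) * ∑ s : ZMod Q, ∑ t : ZMod Q,
      |X s t - X' s t| * G s t := by
  have := W_core (X := X) (X' := X') (Z := fun _ _ => 0) (n := 0) hN hτ a b (fun _ _ => 0) G ha hb
    (fun _ _ => le_rfl) hR hC (fun s t => by simp [YY]) (fun s t => by simpa using hG s t)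
  rwa [W_zero, W_zero] at this

theorem rpow_four {a b c d : ℝ} (ha : 0 ≤ a) (hb : 0 ≤ b) (hc : 0 ≤ c) (hd : 0 ≤ d) :
    (8 * (a + b + c + d)) ^ (3 / 2 : ℝ) ≤ (32 : ℝ) ^ (3 / 2 : ℝ) *
      (a ^ (3 / 2 : ℝ) + b ^ (3 / 2 : ℝ) + c ^ (3 / 2 : ℝ) + d ^ (3 / 2 : ℝ)) := by
  set m := max (max a b) (max c d) with hm
  have ham : a ≤ m := le_trans (le_max_left _ _) (le_max_left _ _)
  have hbm : b ≤ m := le_trans (le_max_right _ _) (le_max_left _ _)
  have hcm : c ≤ m := le_trans (le_max_left _ _) (le_max_right _ _)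
  have hdm : d ≤ m := le_trans (le_max_right _ _) (le_max_right _ _)
  have hm0 : 0 ≤ m := ha.trans ham
  have h1 : (8 * (a + b + c + d)) ^ (3 / 2 : ℝ) ≤ (32 * m) ^ (3 / 2 : ℝ) :=
    Real.rpow_le_rpow (by positivity) (by linarith) (by norm_num)
  rw [Real.mul_rpow (by norm_num) hm0] at h1
  refine h1.trans ?_
  gcongr
  have pa := Real.rpow_nonneg ha (3 / 2 : ℝ)
  have pb := Real.rpow_nonneg hb (3 / 2 : ℝ)
  have pc := Real.rpow_nonneg hc (3 / 2 : ℝ)
  have pd := Real.rpow_nonneg hd (3 / 2 : ℝ)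
  rcases max_choice (max a b) (max c d) with h | h
  · rcases max_choice a b with h' | h'
    · rw [hm, h, h']; linarith
    · rw [hm, h, h']; linarith
  · rcases max_choice c d with h' | h'
    · rw [hm, h, h']; linarith
    · rw [hm, h, h']; linarith

theorem sq_rpow (x : ℝ) : (x ^ 2) ^ (3 / 2 : ℝ) = |x| ^ 3 := by
  rw [← sq_abs, ← Real.rpow_natCast, ← Real.rpow_mul (abs_nonneg x)]
  norm_num

end aux

/-- maximal function domination, uniform in `Q` -/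
theorem exists_D : ∃ C : ℝ, 0 ≤ C ∧ ∀ (Q : ℕ) [NeZero Q] (H F1 F2 : ZMod Q → ZMod Q → ℝ),
    ∑ x : ZMod Q, ∑ y : ZMod Q, |H x y| ^ 3 ≤ 1 → ∑ x : ZMod Q, ∑ y : ZMod Q, |F1 x y| ^ 3 ≤ 1 →
    ∑ x : ZMod Q, ∑ y : ZMod Q, |F2 x y| ^ 3 ≤ 1 →
    ∃ D : ZMod Q → ZMod Q → ℝ, (∀ x y, 0 ≤ D x y) ∧
      ∑ x : ZMod Q, ∑ y : ZMod Q, D x y ^ (3 / 2 : ℝ) ≤ C ∧
      ∀ (τ : ℝ), 0 ≤ τ → ∀ (X X' : ZMod Q → ZMod Q → ℝ),
        (∀ x y, |X x y| ≤ τ * |H x y|) → (∀ x y, |X' x y| ≤ τ * |H x y|) → ∀ N : ℕ, 0 < N →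
          (Vref X (fun x y => F1 y x) N - Vref X' (fun x y => F1 y x) N ≤
            τ * (1 + τ) * ∑ x : ZMod Q, ∑ y : ZMod Q, |X x y - X' x y| * D x y) ∧
          (Vref F2 (fun x y => X y x) N - Vref F2 (fun x y => X' y x) N ≤
            τ * (1 + τ) * ∑ x : ZMod Q, ∑ y : ZMod Q, |X x y - X' x y| * D x y) ∧
          (EW X N N - EW X' N N ≤
            τ * (1 + τ) * ∑ x : ZMod Q, ∑ y : ZMod Q, |X x y - X' x y| * D x y) ∧
          (EW (fun x y => X y x) N N - EW (fun x y => X' y x) N N ≤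
            τ * (1 + τ) * ∑ x : ZMod Q, ∑ y : ZMod Q, |X x y - X' x y| * D x y) := by
  obtain ⟨Cm, hCm, hmax⟩ := Maximal.exists_maximal
  refine ⟨(32 : ℝ) ^ (3 / 2 : ℝ) * (4 * Cm), by positivity, ?_⟩
  intro Q _ H F1 F2 hH hF1 hF2
  choose g1 g1nn g1max g1sum using fun a : ZMod Q =>
    hmax Q (fun y => H a y ^ 2) (fun y => sq_nonneg _)
  choose g2 g2nn g2max g2sum using fun b : ZMod Q =>
    hmax Q (fun x => H x b ^ 2) (fun y => sq_nonneg _)
  choose g3 g3nn g3max g3sum using fun b : ZMod Q =>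
    hmax Q (fun y => F1 b y ^ 2) (fun y => sq_nonneg _)
  choose g4 g4nn g4max g4sum using fun a : ZMod Q =>
    hmax Q (fun y => F2 y a ^ 2) (fun y => sq_nonneg _)
  refine ⟨fun x y => 8 * (g1 x y + g2 y x + g3 y (-x - y) + g4 x (-x - y)), ?_, ?_, ?_⟩
  · intro x y
    have := g1nn x y
    have := g2nn y x
    have := g3nn y (-x - y)
    have := g4nn x (-x - y)
    positivity
  · have s1 : ∑ x : ZMod Q, ∑ y : ZMod Q, g1 x y ^ (3 / 2 : ℝ) ≤ Cm := by
      calc ∑ x : ZMod Q, ∑ y : ZMod Q, g1 x y ^ (3 / 2 : ℝ)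
          ≤ ∑ x : ZMod Q, Cm * ∑ y : ZMod Q, (H x y ^ 2) ^ (3 / 2 : ℝ) :=
            Finset.sum_le_sum fun x _ => g1sum x
        _ = Cm * ∑ x : ZMod Q, ∑ y : ZMod Q, |H x y| ^ 3 := by
            simp only [sq_rpow, Finset.mul_sum]
        _ ≤ Cm * 1 := by gcongr
        _ = Cm := mul_one _
    have s2 : ∑ x : ZMod Q, ∑ y : ZMod Q, g2 y x ^ (3 / 2 : ℝ) ≤ Cm := by
      rw [Finset.sum_comm]
      calc ∑ y : ZMod Q, ∑ x : ZMod Q, g2 y x ^ (3 / 2 : ℝ)
          ≤ ∑ y : ZMod Q, Cm * ∑ x : ZMod Q, (H x y ^ 2) ^ (3 / 2 : ℝ) :=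
            Finset.sum_le_sum fun x _ => g2sum x
        _ = Cm * ∑ x : ZMod Q, ∑ y : ZMod Q, |H x y| ^ 3 := by
            rw [Finset.sum_comm (f := fun x y => |H x y| ^ 3)]
            simp only [sq_rpow, Finset.mul_sum]
        _ ≤ Cm * 1 := by gcongr
        _ = Cm := mul_one _
    have s3 : ∑ x : ZMod Q, ∑ y : ZMod Q, g3 y (-x - y) ^ (3 / 2 : ℝ) ≤ Cm := by
      rw [Finset.sum_comm]
      calc ∑ y : ZMod Q, ∑ x : ZMod Q, g3 y (-x - y) ^ (3 / 2 : ℝ)
          = ∑ y : ZMod Q, ∑ x : ZMod Q, g3 y x ^ (3 / 2 : ℝ) := by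
            refine Finset.sum_congr rfl fun y _ => ?_
            rw [← Equiv.sum_comp (Equiv.subLeft (-y)) (fun x => g3 y x ^ (3 / 2 : ℝ))]
            refine Finset.sum_congr rfl fun x _ => ?_
            congr 2
            simp only [Equiv.subLeft_apply]
            ring
        _ ≤ ∑ x : ZMod Q, Cm * ∑ y : ZMod Q, (F1 x y ^ 2) ^ (3 / 2 : ℝ) :=
            Finset.sum_le_sum fun x _ => g3sum x
        _ = Cm * ∑ x : ZMod Q, ∑ y : ZMod Q, |F1 x y| ^ 3 := by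
            simp only [sq_rpow, Finset.mul_sum]
        _ ≤ Cm * 1 := by gcongr
        _ = Cm := mul_one _
    have s4 : ∑ x : ZMod Q, ∑ y : ZMod Q, g4 x (-x - y) ^ (3 / 2 : ℝ) ≤ Cm := by
      calc ∑ x : ZMod Q, ∑ y : ZMod Q, g4 x (-x - y) ^ (3 / 2 : ℝ)
          = ∑ x : ZMod Q, ∑ y : ZMod Q, g4 x y ^ (3 / 2 : ℝ) := by
            refine Finset.sum_congr rfl fun x _ => ?_
            rw [← Equiv.sum_comp (Equiv.subLeft (-x)) (fun y => g4 x y ^ (3 / 2 : ℝ))]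
            refine Finset.sum_congr rfl fun y _ => ?_
            congr 2
        _ ≤ ∑ x : ZMod Q, Cm * ∑ y : ZMod Q, (F2 y x ^ 2) ^ (3 / 2 : ℝ) :=
            Finset.sum_le_sum fun x _ => g4sum x
        _ = Cm * ∑ x : ZMod Q, ∑ y : ZMod Q, |F2 x y| ^ 3 := by
            rw [Finset.sum_comm (f := fun x y => |F2 x y| ^ 3)]
            simp only [sq_rpow, Finset.mul_sum]
        _ ≤ Cm * 1 := by gcongr
        _ = Cm := mul_one _
    calc ∑ x : ZMod Q, ∑ y : ZMod Q,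
          (8 * (g1 x y + g2 y x + g3 y (-x - y) + g4 x (-x - y))) ^ (3 / 2 : ℝ)
        ≤ ∑ x : ZMod Q, ∑ y : ZMod Q, (32 : ℝ) ^ (3 / 2 : ℝ) *
          (g1 x y ^ (3 / 2 : ℝ) + g2 y x ^ (3 / 2 : ℝ) + g3 y (-x - y) ^ (3 / 2 : ℝ) +
            g4 x (-x - y) ^ (3 / 2 : ℝ)) :=
          Finset.sum_le_sum fun x _ => Finset.sum_le_sum fun y _ =>
            rpow_four (g1nn _ _) (g2nn _ _) (g3nn _ _) (g4nn _ _)
      _ = (32 : ℝ) ^ (3 / 2 : ℝ) * (∑ x : ZMod Q, ∑ y : ZMod Q, g1 x y ^ (3 / 2 : ℝ) +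
            ∑ x : ZMod Q, ∑ y : ZMod Q, g2 y x ^ (3 / 2 : ℝ) +
            ∑ x : ZMod Q, ∑ y : ZMod Q, g3 y (-x - y) ^ (3 / 2 : ℝ) +
            ∑ x : ZMod Q, ∑ y : ZMod Q, g4 x (-x - y) ^ (3 / 2 : ℝ)) := by
          simp only [← Finset.mul_sum, Finset.sum_add_distrib]
      _ ≤ (32 : ℝ) ^ (3 / 2 : ℝ) * (4 * Cm) := by
          gcongr
          linarith
  · intro τ hτ X X' hX hX' N hN
    have hXt : ∀ x y, |(fun x y => X y x) x y| ≤ τ * |(fun x y => H y x) x y| := fun x y => hX y x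
    -- bounds for the windows
    have bR : ∀ s t, RR X N s t ≤ τ ^ 2 * (2 * g1 s t) := fun s t =>
      (RR_le hX N s t).trans (by
        gcongr
        exact window_max (f := fun y => H s y ^ 2) (g1nn s) (g1max s) hN t)
    have bC : ∀ s t, CC X N s t ≤ τ ^ 2 * (2 * g2 t s) := fun s t =>
      (CC_le hX N s t).trans (by
        gcongr
        exact window_max (f := fun y => H y t ^ 2) (g2nn t) (g2max t) hN s)
    have bRt : ∀ s t, RR (fun x y => X y x) N s t ≤ τ ^ 2 * (2 * g2 s t) := fun s t =>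
      (RR_le hXt N s t).trans (by
        gcongr
        exact window_max (f := fun y => H y s ^ 2) (g2nn s) (g2max s) hN t)
    have bCt : ∀ s t, CC (fun x y => X y x) N s t ≤ τ ^ 2 * (2 * g1 t s) := fun s t =>
      (CC_le hXt N s t).trans (by
        gcongr
        exact window_max (f := fun y => H t y ^ 2) (g1nn t) (g1max t) hN s)
    have bY1 : ∀ c : ℤ, (N : ℤ) ≤ c → c ≤ 2 * N → ∀ s t,
        YY (fun x y => F1 y x) N (-(c : ZMod Q)) s t ≤ 5 * g3 t (-s - t) := by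
      intro c hc hc' s t
      have := window_max' (fun x => sq_nonneg (F1 t x)) (g3nn t) (g3max t) hN (-s - t) hc hc'
      refine le_trans (le_of_eq ?_) this
      unfold YY
      congr 1
      refine Finset.sum_congr rfl fun d _ => ?_
      congr 2
      ring
    have bY2 : ∀ c : ℤ, (N : ℤ) ≤ c → c ≤ 2 * N → ∀ s t,
        YY F2 N (-(c : ZMod Q)) s t ≤ 5 * g4 t (-s - t) := by
      intro c hc hc' s t
      have := window_max' (fun x => sq_nonneg (F2 x t)) (g4nn t) (g4max t) hN (-s - t) hc hc'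
      refine le_trans (le_of_eq ?_) this
      unfold YY
      congr 1
      refine Finset.sum_congr rfl fun d _ => ?_
      congr 2
      ring
    have w1 : ∀ c : ℤ, (N : ℤ) ≤ c → c ≤ 2 * N →
        W X (fun x y => F1 y x) N N (-(c : ZMod Q)) - W X' (fun x y => F1 y x) N N (-(c : ZMod Q)) ≤
          τ * (1 + τ) * ∑ x : ZMod Q, ∑ y : ZMod Q, |X x y - X' x y| *
            (8 * (g1 x y + g2 y x + g3 y (-x - y) + g4 x (-x - y))) := by
      intro c hc hc'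
      refine W_core hN hτ (fun s t => 2 * g1 s t) (fun s t => 2 * g2 t s)
        (fun s t => 5 * g3 t (-s - t)) _ (fun s t => ?_) (fun s t => ?_) (fun s t => ?_) bR bC
        (bY1 c hc hc') (fun s t => ?_)
      · have := g1nn s t; positivity
      · have := g2nn t s; positivity
      · have := g3nn t (-s - t); positivity
      · have := g1nn s t
        have := g2nn t s
        have := g3nn t (-s - t)
        have := g4nn s (-s - t)
        linarith
    have w2 : ∀ c : ℤ, (N : ℤ) ≤ c → c ≤ 2 * N →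
        W (fun x y => X y x) F2 N N (-(c : ZMod Q)) - W (fun x y => X' y x) F2 N N (-(c : ZMod Q)) ≤
          τ * (1 + τ) * ∑ x : ZMod Q, ∑ y : ZMod Q, |X x y - X' x y| *
            (8 * (g1 x y + g2 y x + g3 y (-x - y) + g4 x (-x - y))) := by
      intro c hc hc'
      have := W_core (X := fun x y => X y x) (X' := fun x y => X' y x) (Z := F2)
        (n := -(c : ZMod Q)) hN hτ (fun s t => 2 * g2 s t)
        (fun s t => 2 * g1 t s) (fun s t => 5 * g4 t (-s - t))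
        (fun y x => 8 * (g1 x y + g2 y x + g3 y (-x - y) + g4 x (-x - y)))
        (fun s t => ?_) (fun s t => ?_) (fun s t => ?_) bRt bCt
        (bY2 c hc hc') (fun s t => ?_)
      · refine this.trans (le_of_eq ?_)
        rw [Finset.sum_comm]
      · have := g2nn s t; positivity
      · have := g1nn t s; positivity
      · have := g4nn t (-s - t); positivity
      · have := g2nn s t
        have := g1nn t s
        have := g3nn s (-s - t)
        have := g4nn t (-s - t)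
        have e : -t - s = -s - t := by ring
        simp only [e]
        linarith
    have hN2 : ((2 * N : ℤ) : ZMod Q) = 2 * (N : ZMod Q) := by push_cast; ring
    have hN1 : ((N : ℤ) : ZMod Q) = (N : ZMod Q) := by push_cast; ring
    refine ⟨?_, ?_, ?_, ?_⟩
    · have a1 := w1 (2 * N) (by omega) le_rfl
      have a2 := w1 N le_rfl (by omega)
      rw [hN2] at a1
      rw [hN1] at a2
      unfold Vref
      linarith
    · have a1 := w2 (2 * N) (by omega) le_rfl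
      have a2 := w2 N le_rfl (by omega)
      rw [hN2] at a1
      rw [hN1] at a2
      unfold Vref
      rw [W_comm F2 (fun x y => X y x), W_comm F2 (fun x y => X' y x),
        W_comm F2 (fun x y => X y x), W_comm F2 (fun x y => X' y x)]
      linarith
    · refine EW_core hN hτ (fun s t => 2 * g1 s t) (fun s t => 2 * g2 t s) _
        (fun s t => ?_) (fun s t => ?_) bR bC (fun s t => ?_)
      · have := g1nn s t; positivity
      · have := g2nn t s; positivity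
      · have := g1nn s t
        have := g2nn t s
        have := g3nn t (-s - t)
        have := g4nn s (-s - t)
        linarith
    · have := EW_core (X := fun x y => X y x) (X' := fun x y => X' y x) hN hτ
        (fun s t => 2 * g2 s t) (fun s t => 2 * g1 t s)
        (fun y x => 8 * (g1 x y + g2 y x + g3 y (-x - y) + g4 x (-x - y)))
        (fun s t => ?_) (fun s t => ?_) bRt bCt (fun s t => ?_)
      · refine this.trans (le_of_eq ?_)
        rw [Finset.sum_comm]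
      · have := g2nn s t; positivity
      · have := g1nn t s; positivity
      · have := g2nn s t
        have := g1nn t s
        have := g3nn s (-t - s)
        have := g4nn t (-t - s)
        linarith

end Crest.Agent.R072.Jump
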