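import Crest.Agent.R072.Kernel
import Crest.Agent.R072.KEAux
import Crest.Agent.R072.Jump

-- ▼ part R072/KEDefs
section

/-! R072: near scales (definitions shared by the kernel estimate files). -/

set_option autoImplicit false

namespace Crest.Agent.R072.Kernel

open Finset Filter Topology Crest.Agent.R072

/-- scale `m` is *near* for position `l` and change point `r`:
`|l| ≥ 20` and `|r - |l| 2^m| ≤ 10 · 2^m`. -/
def near (m : ℕ) (l : ℤ) (r : ℕ) : Prop := 20 ≤ |l| ∧ |(r : ℤ) - |l| * 2 ^ m| ≤ 10 * 2 ^ m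

instance (m : ℕ) (l : ℤ) (r : ℕ) : Decidable (near m l r) := by unfold near; infer_instance

/-- number of near scales (near forces `10 * 2^m ≤ r`, so `m ≤ r` suffices) -/
def nu (r : ℕ) (l : ℤ) : ℕ := ((range (r + 1)).filter (fun m => near m l r)).card

theorem near_pow_le {m : ℕ} {l : ℤ} {r : ℕ} (h : near m l r) : 10 * 2 ^ m ≤ r := by
  obtain ⟨h1, h2⟩ := h
  have h3 := (abs_le.mp h2).1
  have h4 : (20 : ℤ) * 2 ^ m ≤ |l| * 2 ^ m := mul_le_mul_of_nonneg_right h1 (by positivity)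
  have h5 : (10 : ℤ) * 2 ^ m ≤ r := by linarith
  exact_mod_cast h5

theorem near_le {m : ℕ} {l : ℤ} {r : ℕ} (h : near m l r) : m < r + 1 := by
  have h1 := near_pow_le h
  have h2 : m < 2 ^ m := Nat.lt_two_pow_self
  omega

end Crest.Agent.R072.Kernel
end

-- ▼ part R072/KEFar
section

/-! R072: kernel estimates, far positions `|l| ≥ 20`. -/

set_option autoImplicit false

namespace Crest.Agent.R072.Kernel

open Finset Filter Topology Crest.Agent.R072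

theorem ee_step_zero' {m : ℕ} {l : ℤ} {r : ℕ} (h20 : 20 ≤ |l|)
    (h : (r : ℤ) < |l| * 2 ^ m - 10 * 2 ^ m) : ee (stepK r) m l = 0 := by
  rw [← ee_zero m l]
  apply ee_congr
  intro s h1 h2
  have hN : 0 < 2 ^ m := by positivity
  have hw := window_far (N := 2 ^ m) hN (l := l) (s := s) h20 (by simpa using h1) (by simpa using h2)
  have hp : (0 : ℤ) < 2 ^ m := by positivity
  have : ¬ (|s| ≤ (r : ℤ)) := by
    push Not
    have := hw.1
    push_cast at this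
    nlinarith
  unfold stepK
  simp [this]

/-- pointwise lower bound on the window -/
theorem far_lower {N : ℕ} (hN : 0 < N) {l s : ℤ} (hl : 20 ≤ |l|)
    (h1 : (l - 2) * N ≤ s) (h2 : s < (l + 8) * N) :
    (1 + |(l : ℝ)|) / 2 * N ≤ |(s : ℝ)| := by
  have hw := (window_far hN hl h1 h2).1
  have hN' : (0 : ℝ) < N := by exact_mod_cast hN
  have hl' : (20 : ℝ) ≤ |(l : ℝ)| := by exact_mod_cast hl
  have hw' : (|(l : ℝ)| - 8) * N ≤ |(s : ℝ)| := by exact_mod_cast hw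
  refine le_trans ?_ hw'
  apply mul_le_mul_of_nonneg_right _ hN'.le
  linarith

theorem inv_sub_le {a b D L : ℝ} (hL : 0 < L) (ha : L ≤ |a|) (hb : L ≤ |b|) (hd : |a - b| ≤ D) :
    |1 / a - 1 / b| ≤ D / L ^ 2 := by
  have ha0 : a ≠ 0 := by intro h; rw [h, abs_zero] at ha; linarith
  have hb0 : b ≠ 0 := by intro h; rw [h, abs_zero] at hb; linarith
  have e : 1 / a - 1 / b = (b - a) / (a * b) := by field_simp
  rw [e, abs_div, abs_mul, abs_sub_comm]
  have hD : 0 ≤ D := le_trans (abs_nonneg _) hd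
  apply div_le_div₀ hD hd (by positivity)
  rw [sq]
  exact mul_le_mul ha hb hL.le (abs_nonneg _)

/-- coefficient differences of the full kernel -/
theorem kinf_tap {m : ℕ} {l : ℤ} (h20 : 20 ≤ |l|) (i : ℤ) (h1 : l - 2 ≤ i) (h2 : i ≤ l + 5) :
    |cc kinf (2 ^ m) i - cc kinf (2 ^ m) l| ≤ 20 / (1 + |(l : ℝ)|) ^ 2 := by
  have hN : 0 < 2 ^ m := by positivity
  have hN' : (0 : ℝ) < (2 ^ m : ℕ) := by positivity
  have hL : 0 < (1 + |(l : ℝ)|) / 2 * (2 ^ m : ℕ) := by positivity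
  have key := cc_sub_bound kinf kinf hN i l
    (5 * (2 ^ m : ℕ) / ((1 + |(l : ℝ)|) / 2 * (2 ^ m : ℕ)) ^ 2) (by
      intro i0 h0 i1 h1' i2 h2'
      have w1 := window hN h1 h2 h0 h1' h2'
      have w2 := window hN (l := l) (i := l) (by omega) (by omega) h0 h1' h2'
      unfold kinf
      apply inv_sub_le hL (far_lower hN h20 w1.1 w1.2) (far_lower hN h20 w2.1 w2.2)
      have e : (((i * (2 ^ m : ℕ) + (i0 : ℕ) + (i1 : ℕ) + (i2 : ℕ) : ℤ) : ℝ)) -
        ((l * (2 ^ m : ℕ) + (i0 : ℕ) + (i1 : ℕ) + (i2 : ℕ) : ℤ) : ℝ) =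
          ((i - l : ℤ) : ℝ) * (2 ^ m : ℕ) := by push_cast; ring
      rw [e, abs_mul, abs_of_pos hN']
      apply mul_le_mul_of_nonneg_right _ hN'.le
      have : |i - l| ≤ 5 := by rw [abs_le]; constructor <;> omega
      exact_mod_cast this)
  refine le_trans key (le_of_eq ?_)
  have : (1 + |(l : ℝ)|) ≠ 0 := by positivity
  field_simp
  ring

theorem ee_inf_far {m : ℕ} {l : ℤ} (h20 : 20 ≤ |l|) :
    |ee kinf m l| ≤ 20 / (1 + |(l : ℝ)|) ^ 2 :=
  ee_bound kinf m l _ _ (fun i h1 h2 => kinf_tap h20 i h1 h2)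

/-- splitting a triple sum of side `2N` by parity -/
theorem triple_parity (f : ℤ → ℝ) (N : ℕ) (i : ℤ) :
    ∑ i0 ∈ range (2 * N), ∑ i1 ∈ range (2 * N), ∑ i2 ∈ range (2 * N),
      f (i * (2 * N : ℕ) + (i0 : ℕ) + (i1 : ℕ) + (i2 : ℕ)) =
    ∑ i0 ∈ range N, ∑ i1 ∈ range N, ∑ i2 ∈ range N,
      (f (2 * (i * N + i0 + i1 + i2)) + 3 * f (2 * (i * N + i0 + i1 + i2) + 1) +
        3 * f (2 * (i * N + i0 + i1 + i2) + 2) + f (2 * (i * N + i0 + i1 + i2) + 3)) := by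
  rw [sum_range_two_mul]
  refine sum_congr rfl fun i0 _ => ?_
  rw [← sum_add_distrib]
  rw [sum_range_two_mul]
  refine sum_congr rfl fun i1 _ => ?_
  rw [← sum_add_distrib, ← sum_add_distrib, ← sum_add_distrib]
  rw [sum_range_two_mul]
  refine sum_congr rfl fun i2 _ => ?_
  push_cast
  have e : ∀ a : ℤ, (i * (2 * (N : ℤ)) + a) = 2 * (i * N) + a := fun a => by ring
  have e0 : i * (2 * (N : ℤ)) + 2 * i0 + 2 * i1 + 2 * i2 = 2 * (i * N + i0 + i1 + i2) := by ring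
  have e1 : i * (2 * (N : ℤ)) + 2 * i0 + 2 * i1 + (2 * i2 + 1) = 2 * (i * N + i0 + i1 + i2) + 1 := by
    ring
  have e2 : i * (2 * (N : ℤ)) + (2 * i0 + 1) + 2 * i1 + 2 * i2 = 2 * (i * N + i0 + i1 + i2) + 1 := by
    ring
  have e3 : i * (2 * (N : ℤ)) + (2 * i0 + 1) + 2 * i1 + (2 * i2 + 1) =
      2 * (i * N + i0 + i1 + i2) + 2 := by ring
  have e4 : i * (2 * (N : ℤ)) + 2 * i0 + (2 * i1 + 1) + 2 * i2 = 2 * (i * N + i0 + i1 + i2) + 1 := by
    ring
  have e5 : i * (2 * (N : ℤ)) + 2 * i0 + (2 * i1 + 1) + (2 * i2 + 1) =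
      2 * (i * N + i0 + i1 + i2) + 2 := by ring
  have e6 : i * (2 * (N : ℤ)) + (2 * i0 + 1) + (2 * i1 + 1) + 2 * i2 =
      2 * (i * N + i0 + i1 + i2) + 2 := by ring
  have e7 : i * (2 * (N : ℤ)) + (2 * i0 + 1) + (2 * i1 + 1) + (2 * i2 + 1) =
      2 * (i * N + i0 + i1 + i2) + 3 := by ring
  rw [e0, e1, e2, e3, e4, e5, e6, e7]
  ring

/-- change of scale for the full kernel, far positions -/
theorem kinf_scale {m : ℕ} {l : ℤ} (h20 : 20 ≤ |l|) (i : ℤ) (h1 : l - 2 ≤ i) (h2 : i ≤ l + 5) :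
    |cc kinf (2 ^ (m + 1)) i - cc kinf (2 ^ m) i| ≤ 6 / (1 + |(l : ℝ)|) ^ 2 * (1 / 2) ^ m := by
  set N : ℕ := 2 ^ m with hNdef
  have hN : 0 < N := by positivity
  have hN2 : 0 < 2 * N := by positivity
  have hN' : (0 : ℝ) < N := by positivity
  have hL : 0 < (1 + |(l : ℝ)|) / 2 * (2 * N : ℕ) := by positivity
  have hpow : 2 ^ (m + 1) = 2 * N := by rw [pow_succ]; ring
  rw [hpow, cc_eq kinf hN2, cc_eq kinf hN, triple_parity]
  have hk : ∀ a : ℤ, kinf a = 2 * kinf (2 * a) := by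
    intro a
    unfold kinf
    by_cases ha : (a : ℝ) = 0
    · simp [ha]
    · push_cast
      field_simp
  have e : 1 / ((2 * N : ℕ) : ℝ) ^ 2 * (∑ i0 ∈ range N, ∑ i1 ∈ range N, ∑ i2 ∈ range N,
      (kinf (2 * (i * N + i0 + i1 + i2)) + 3 * kinf (2 * (i * N + i0 + i1 + i2) + 1) +
        3 * kinf (2 * (i * N + i0 + i1 + i2) + 2) + kinf (2 * (i * N + i0 + i1 + i2) + 3))) -
      1 / (N : ℝ) ^ 2 * (∑ i0 ∈ range N, ∑ i1 ∈ range N, ∑ i2 ∈ range N,
        kinf (i * N + i0 + i1 + i2)) =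
      1 / (4 * (N : ℝ) ^ 2) * ∑ i0 ∈ range N, ∑ i1 ∈ range N, ∑ i2 ∈ range N,
      (3 * (kinf (2 * (i * N + i0 + i1 + i2) + 1) - kinf (2 * (i * N + i0 + i1 + i2))) +
        3 * (kinf (2 * (i * N + i0 + i1 + i2) + 2) - kinf (2 * (i * N + i0 + i1 + i2))) +
        (kinf (2 * (i * N + i0 + i1 + i2) + 3) - kinf (2 * (i * N + i0 + i1 + i2)))) := by
    have : 1 / (N : ℝ) ^ 2 = 1 / (4 * (N : ℝ) ^ 2) * 4 := by field_simp
    rw [this]
    have h4 : ((2 * N : ℕ) : ℝ) ^ 2 = 4 * (N : ℝ) ^ 2 := by push_cast; ring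
    rw [h4, mul_assoc, ← mul_sub]
    congr 1
    simp only [mul_sum, ← sum_sub_distrib]
    refine sum_congr rfl fun i0 _ => sum_congr rfl fun i1 _ => sum_congr rfl fun i2 _ => ?_
    rw [hk (i * N + i0 + i1 + i2)]
    ring
  rw [e, abs_mul, abs_of_pos (by positivity)]
  have key := triple_le N (fun i0 i1 i2 =>
      (3 * (kinf (2 * (i * N + i0 + i1 + i2) + 1) - kinf (2 * (i * N + i0 + i1 + i2))) +
        3 * (kinf (2 * (i * N + i0 + i1 + i2) + 2) - kinf (2 * (i * N + i0 + i1 + i2))) +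
        (kinf (2 * (i * N + i0 + i1 + i2) + 3) - kinf (2 * (i * N + i0 + i1 + i2)))))
      (12 / ((1 + |(l : ℝ)|) / 2 * (2 * N : ℕ)) ^ 2) (by
      intro i0 h0 i1 h1' i2 h2'
      set a : ℤ := i * N + i0 + i1 + i2 with ha
      have w0 := window hN2 (l := l) (i := i) h1 h2 (i0 := 2 * i0) (i1 := 2 * i1) (i2 := 2 * i2)
        (by omega) (by omega) (by omega)
      have w1 := window hN2 (l := l) (i := i) h1 h2 (i0 := 2 * i0 + 1) (i1 := 2 * i1) (i2 := 2 * i2)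
        (by omega) (by omega) (by omega)
      have w2 := window hN2 (l := l) (i := i) h1 h2 (i0 := 2 * i0 + 1) (i1 := 2 * i1 + 1)
        (i2 := 2 * i2) (by omega) (by omega) (by omega)
      have w3 := window hN2 (l := l) (i := i) h1 h2 (i0 := 2 * i0 + 1) (i1 := 2 * i1 + 1)
        (i2 := 2 * i2 + 1) (by omega) (by omega) (by omega)
      have f0 := far_lower hN2 h20 w0.1 w0.2
      have f1 := far_lower hN2 h20 w1.1 w1.2
      have f2 := far_lower hN2 h20 w2.1 w2.2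
      have f3 := far_lower hN2 h20 w3.1 w3.2
      have q0 : i * ((2 * N : ℕ) : ℤ) + ((2 * i0 : ℕ) : ℤ) + ((2 * i1 : ℕ) : ℤ) +
        ((2 * i2 : ℕ) : ℤ) = 2 * a := by rw [ha]; push_cast; ring
      have q1 : i * ((2 * N : ℕ) : ℤ) + ((2 * i0 + 1 : ℕ) : ℤ) + ((2 * i1 : ℕ) : ℤ) +
        ((2 * i2 : ℕ) : ℤ) = 2 * a + 1 := by rw [ha]; push_cast; ring
      have q2 : i * ((2 * N : ℕ) : ℤ) + ((2 * i0 + 1 : ℕ) : ℤ) + ((2 * i1 + 1 : ℕ) : ℤ) +
        ((2 * i2 : ℕ) : ℤ) = 2 * a + 2 := by rw [ha]; push_cast; ring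
      have q3 : i * ((2 * N : ℕ) : ℤ) + ((2 * i0 + 1 : ℕ) : ℤ) + ((2 * i1 + 1 : ℕ) : ℤ) +
        ((2 * i2 + 1 : ℕ) : ℤ) = 2 * a + 3 := by rw [ha]; push_cast; ring
      rw [q0] at f0
      rw [q1] at f1
      rw [q2] at f2
      rw [q3] at f3
      have d1 : |kinf (2 * a + 1) - kinf (2 * a)| ≤
          1 / ((1 + |(l : ℝ)|) / 2 * (2 * N : ℕ)) ^ 2 := by
        unfold kinf
        apply inv_sub_le hL f1 f0
        push_cast; ring_nf; norm_num
      have d2 : |kinf (2 * a + 2) - kinf (2 * a)| ≤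
          2 / ((1 + |(l : ℝ)|) / 2 * (2 * N : ℕ)) ^ 2 := by
        unfold kinf
        apply inv_sub_le hL f2 f0
        push_cast; ring_nf; norm_num
      have d3 : |kinf (2 * a + 3) - kinf (2 * a)| ≤
          3 / ((1 + |(l : ℝ)|) / 2 * (2 * N : ℕ)) ^ 2 := by
        unfold kinf
        apply inv_sub_le hL f3 f0
        push_cast; ring_nf; norm_num
      rw [abs_le] at d1 d2 d3 ⊢
      have t1 : (12 : ℝ) / ((1 + |(l : ℝ)|) / 2 * (2 * N : ℕ)) ^ 2 =
        3 * (1 / ((1 + |(l : ℝ)|) / 2 * (2 * N : ℕ)) ^ 2) +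
        3 * (2 / ((1 + |(l : ℝ)|) / 2 * (2 * N : ℕ)) ^ 2) +
        (3 / ((1 + |(l : ℝ)|) / 2 * (2 * N : ℕ)) ^ 2) := by ring
      rw [t1]
      constructor <;> linarith [d1.1, d1.2, d2.1, d2.2, d3.1, d3.2])
  calc 1 / (4 * (N : ℝ) ^ 2) * _ ≤ 1 / (4 * (N : ℝ) ^ 2) * ((N : ℝ) ^ 3 *
        (12 / ((1 + |(l : ℝ)|) / 2 * (2 * N : ℕ)) ^ 2)) :=
        mul_le_mul_of_nonneg_left key (by positivity)
    _ = 3 / (1 + |(l : ℝ)|) ^ 2 * (1 / N) := by
        push_cast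
        have : (1 + |(l : ℝ)|) ≠ 0 := by positivity
        field_simp
        ring
    _ ≤ 6 / (1 + |(l : ℝ)|) ^ 2 * (1 / 2) ^ m := by
        have : (1 : ℝ) / N = (1 / 2) ^ m := by rw [hNdef]; push_cast; rw [one_div_pow]
        rw [this]
        apply mul_le_mul_of_nonneg_right _ (by positivity)
        apply div_le_div_of_nonneg_right (by norm_num) (by positivity)

theorem ee_inf_scale_far {m : ℕ} {l : ℤ} (h20 : 20 ≤ |l|) :
    |ee kinf (m + 1) l - ee kinf m l| ≤ 46 / (1 + |(l : ℝ)|) ^ 2 * (1 / 2) ^ m := by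
  have := ee_scale_diff kinf m l (cc kinf (2 ^ m) l) _ _ (fun i h1 h2 => kinf_scale h20 i h1 h2)
    (fun i h1 h2 => kinf_tap h20 i h1 h2)
  refine le_trans this ?_
  have h4 : (1 / 4 : ℝ) ^ m ≤ (1 / 2) ^ m := pow_le_pow_left₀ (by norm_num) (by norm_num) m
  have h0 : 0 ≤ 20 / (1 + |(l : ℝ)|) ^ 2 := by positivity
  have : 2 * (1 / 4 : ℝ) ^ m * (20 / (1 + |(l : ℝ)|) ^ 2) ≤
      2 * (1 / 2 : ℝ) ^ m * (20 / (1 + |(l : ℝ)|) ^ 2) := by
    apply mul_le_mul_of_nonneg_right _ h0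
    linarith
  calc _ ≤ 6 / (1 + |(l : ℝ)|) ^ 2 * (1 / 2) ^ m + 2 * (1 / 2 : ℝ) ^ m * (20 / (1 + |(l : ℝ)|) ^ 2) := by
        linarith
    _ = 46 / (1 + |(l : ℝ)|) ^ 2 * (1 / 2) ^ m := by ring

/-- crude bound, far positions -/
theorem ee_crude_far {κ : ℤ → ℝ} (hκ : ∀ s, |κ s| ≤ 1 / |(s : ℝ)|) {m : ℕ} {l : ℤ}
    (h20 : 20 ≤ |l|) : |ee κ m l| ≤ 2 / (1 + |(l : ℝ)|) := by
  have hN : 0 < 2 ^ m := by positivity
  have hN' : (0 : ℝ) < (2 ^ m : ℕ) := by positivity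
  apply ee_bound κ m l 0
  intro i h1 h2
  rw [sub_zero]
  have := cc_abs_bound κ hN i (1 / ((1 + |(l : ℝ)|) / 2 * (2 ^ m : ℕ))) (by
    intro i0 h0 i1 h1' i2 h2'
    have w := window hN h1 h2 h0 h1' h2'
    refine le_trans (hκ _) ?_
    exact one_div_le_one_div_of_le (by positivity) (far_lower hN h20 w.1 w.2))
  refine le_trans this (le_of_eq ?_)
  have : (1 + |(l : ℝ)|) ≠ 0 := by positivity
  field_simp

end Crest.Agent.R072.Kernel
end

-- ▼ part R072/KENear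
section

/-! R072: kernel estimates, positions `|l| < 20`. -/

set_option autoImplicit false
set_option linter.unusedTactic false
set_option linter.unreachableTactic false

namespace Crest.Agent.R072.Kernel

open Finset Filter Topology Crest.Agent.R072

/-- number of triples in `[0,N)^3` with sum `x` -/
noncomputable def w (N : ℕ) (x : ℤ) : ℝ :=
  ∑ i0 ∈ range N, ∑ i1 ∈ range N, ∑ i2 ∈ range N, if ((i0 : ℤ) + i1 + i2 = x) then 1 else 0

theorem sum_range_ite (N : ℕ) (y : ℤ) :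
    (∑ i2 ∈ range N, if ((i2 : ℤ) = y) then (1 : ℝ) else 0) = if 0 ≤ y ∧ y < N then 1 else 0 := by
  split_ifs with h
  · obtain ⟨k, hk⟩ := Int.eq_ofNat_of_zero_le h.1
    have hkN : k < N := by have := h.2; rw [hk] at this; exact_mod_cast this
    rw [sum_eq_single k]
    · simp [hk]
    · intro b _ hb
      rw [if_neg]
      rw [hk]; exact_mod_cast hb
    · intro h'; exact absurd (mem_range.mpr hkN) h'
  · apply sum_eq_zero
    intro b hb
    rw [if_neg]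
    intro hby
    apply h
    rw [← hby]
    exact ⟨by positivity, by exact_mod_cast mem_range.mp hb⟩

theorem w_step (N : ℕ) (x : ℤ) : |w N (x + 1) - w N x| ≤ N := by
  have h1 : ∀ x : ℤ, w N x = ∑ i0 ∈ range N, ∑ i1 ∈ range N,
      if 0 ≤ x - i0 - i1 ∧ x - i0 - i1 < N then 1 else 0 := by
    intro x
    unfold w
    refine sum_congr rfl fun i0 _ => sum_congr rfl fun i1 _ => ?_
    rw [← sum_range_ite]
    refine sum_congr rfl fun i2 _ => ?_
    congr 1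
    apply propext
    constructor <;> intro h <;> linarith
  rw [h1, h1, ← sum_sub_distrib]
  refine le_trans (abs_sum_le_sum_abs _ _) ?_
  have : ∀ i0 ∈ range N, |(∑ i1 ∈ range N, if 0 ≤ x + 1 - (i0 : ℤ) - i1 ∧ x + 1 - i0 - i1 < N then (1 : ℝ) else 0)
      - ∑ i1 ∈ range N, if 0 ≤ x - (i0 : ℤ) - i1 ∧ x - i0 - i1 < N then (1 : ℝ) else 0| ≤ 1 := by
    intro i0 _
    rw [← sum_sub_distrib]
    have e : ∀ i1 ∈ range N, ((if 0 ≤ x + 1 - (i0 : ℤ) - i1 ∧ x + 1 - i0 - i1 < N then (1 : ℝ) else 0)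
      - if 0 ≤ x - (i0 : ℤ) - i1 ∧ x - i0 - i1 < N then (1 : ℝ) else 0) =
        (if ((i1 : ℤ) = x + 1 - i0) then 1 else 0) - (if ((i1 : ℤ) = x + 1 - i0 - N) then 1 else 0) := by
      intro i1 hi1
      have hN : 0 < N := lt_of_le_of_lt (Nat.zero_le _) (mem_range.mp hi1)
      have hN' : (0 : ℤ) < N := by exact_mod_cast hN
      split_ifs <;> first | (exfalso; omega) | norm_num
    rw [sum_congr rfl e, sum_sub_distrib, sum_range_ite, sum_range_ite]
    split_ifs <;> norm_num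
  calc _ ≤ ∑ i0 ∈ range N, (1 : ℝ) := sum_le_sum this
    _ = N := by simp

theorem w_lip (N : ℕ) (x : ℤ) (k : ℕ) : |w N (x + k) - w N x| ≤ N * k := by
  induction k with
  | zero => simp
  | succ k ih =>
    have := w_step N (x + k)
    have e : x + ((k + 1 : ℕ) : ℤ) = x + k + 1 := by push_cast; ring
    rw [e]
    have h := abs_sub_le (w N (x + k + 1)) (w N (x + k)) (w N x)
    push_cast
    nlinarith

theorem w_lip' (N : ℕ) (x y : ℤ) {D : ℝ} (h : |((x - y : ℤ) : ℝ)| ≤ D) :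
    |w N x - w N y| ≤ N * D := by
  have hN : (0 : ℝ) ≤ N := by positivity
  rcases le_total y x with hxy | hxy
  · obtain ⟨k, hk⟩ := Int.eq_ofNat_of_zero_le (sub_nonneg.mpr hxy)
    have hx : x = y + k := by linarith [hk]
    have := w_lip N y k
    rw [← hx] at this
    refine le_trans this (mul_le_mul_of_nonneg_left ?_ hN)
    rw [hk] at h
    simpa using h
  · obtain ⟨k, hk⟩ := Int.eq_ofNat_of_zero_le (sub_nonneg.mpr hxy)
    have hy : y = x + k := by linarith [hk]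
    have := w_lip N x k
    rw [← hy, abs_sub_comm] at this
    refine le_trans this (mul_le_mul_of_nonneg_left ?_ hN)
    have e : ((x - y : ℤ) : ℝ) = -((k : ℕ) : ℝ) := by
      have : x - y = -(k : ℤ) := by linarith [hk]
      rw [this]; push_cast; ring
    rw [e] at h
    simpa using h

/-- symmetric difference of the weight -/
noncomputable def dw (N : ℕ) (i : ℤ) (s : ℤ) : ℝ := w N (s - i * N) - w N (-s - i * N)

theorem dw_le (N : ℕ) (i : ℤ) (s : ℕ) : |dw N i s| ≤ N * (2 * s) := by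
  unfold dw
  apply w_lip'
  have : ((s : ℤ) - i * N - (-(s : ℤ) - i * N) : ℤ) = 2 * s := by ring
  rw [this]
  push_cast
  rw [abs_of_nonneg (by positivity)]

/-- the coefficient through the weight -/
theorem cc_eq_w (κ : ℤ → ℝ) {N : ℕ} (hN : 0 < N) (i : ℤ) (K : ℕ) (hK : (|i| + 3) * N ≤ K) :
    cc κ N i = (1 / (N : ℝ) ^ 2) * ∑ s ∈ Icc (-(K : ℤ)) K, κ s * w N (s - i * N) := by
  have hN' : (0 : ℤ) < N := by exact_mod_cast hN
  rw [cc_eq κ hN]
  congr 1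
  have : ∀ i0 ∈ range N, ∀ i1 ∈ range N, ∀ i2 ∈ range N, κ (i * N + i0 + i1 + i2) =
      ∑ s ∈ Icc (-(K : ℤ)) K, κ s * if ((i0 : ℤ) + i1 + i2 = s - i * N) then 1 else 0 := by
    intro i0 h0 i1 h1 i2 h2
    rw [sum_eq_single (i * N + i0 + i1 + i2)]
    · rw [if_pos (by ring), mul_one]
    · intro s _ hs
      rw [if_neg, mul_zero]
      intro h
      apply hs
      linarith
    · intro h
      exfalso
      apply h
      rw [mem_Icc]
      have b0 : (i0 : ℤ) + 1 ≤ N := by exact_mod_cast mem_range.mp h0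
      have b1 : (i1 : ℤ) + 1 ≤ N := by exact_mod_cast mem_range.mp h1
      have b2 : (i2 : ℤ) + 1 ≤ N := by exact_mod_cast mem_range.mp h2
      have := neg_abs_le i
      have := le_abs_self i
      constructor <;> nlinarith [Int.natCast_nonneg i0, Int.natCast_nonneg i1,
        Int.natCast_nonneg i2]
  calc _ = ∑ i0 ∈ range N, ∑ i1 ∈ range N, ∑ i2 ∈ range N, ∑ s ∈ Icc (-(K : ℤ)) K,
        κ s * (if ((i0 : ℤ) + i1 + i2 = s - i * N) then 1 else 0) :=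
        sum_congr rfl fun i0 h0 => sum_congr rfl fun i1 h1 => sum_congr rfl fun i2 h2 =>
          this i0 h0 i1 h1 i2 h2
    _ = ∑ s ∈ Icc (-(K : ℤ)) K, κ s * w N (s - i * N) := by
        unfold w
        simp only [mul_sum]
        rw [sum_congr rfl fun i0 _ => (sum_congr rfl fun i1 _ => sum_comm).trans sum_comm]
        rw [sum_comm]


/-- odd kernels: the coefficient through `dw` -/
theorem cc_eq_dw (κ : ℤ → ℝ) (hodd : ∀ s, κ (-s) = -κ s) {N : ℕ} (hN : 0 < N) (i : ℤ) (K : ℕ)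
    (hK : (|i| + 3) * N ≤ K) :
    cc κ N i = (1 / (N : ℝ) ^ 2) * ∑ s ∈ range K, κ ((s : ℤ) + 1) * dw N i (s + 1) := by
  rw [cc_eq_w κ hN i K hK, sum_Icc_symm]
  have h0 : κ 0 = 0 := by have := hodd 0; rw [neg_zero] at this; linarith
  rw [h0, zero_mul, zero_add]
  congr 1
  refine sum_congr rfl fun s _ => ?_
  rw [hodd]
  unfold dw
  ring

theorem K_near {N : ℕ} {l i : ℤ} (hl : |l| < 20) (h1 : l - 2 ≤ i) (h2 : i ≤ l + 5) :
    (|i| + 3) * (N : ℤ) ≤ ((28 * N : ℕ) : ℤ) := by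
  have : |i| ≤ 25 := by
    rw [abs_lt] at hl
    rw [abs_le]
    constructor <;> omega
  push_cast
  have hN : (0 : ℤ) ≤ N := Int.natCast_nonneg N
  nlinarith

/-- crude bound of the coefficient of an odd kernel, near positions -/
theorem cc_near_le {κ : ℤ → ℝ} (hodd : ∀ s, κ (-s) = -κ s) {N : ℕ} (hN : 0 < N) {l i : ℤ}
    (hl : |l| < 20) (h1 : l - 2 ≤ i) (h2 : i ≤ l + 5) (f : ℕ → ℝ)
    (hκ : ∀ s : ℕ, |κ ((s : ℤ) + 1)| ≤ f s / ((s : ℝ) + 1)) :
    |cc κ N i| ≤ 2 / N * ∑ s ∈ range (28 * N), f s := by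
  rw [cc_eq_dw κ hodd hN i _ (K_near hl h1 h2), abs_mul, abs_of_pos (by positivity)]
  have hN' : (0 : ℝ) < N := by exact_mod_cast hN
  have : |∑ s ∈ range (28 * N), κ ((s : ℤ) + 1) * dw N i (s + 1)| ≤
      ∑ s ∈ range (28 * N), f s * (2 * N) := by
    refine le_trans (abs_sum_le_sum_abs _ _) (sum_le_sum fun s _ => ?_)
    rw [abs_mul]
    have hd := dw_le N i (s + 1)
    push_cast at hd
    have hf := hκ s
    calc |κ ((s : ℤ) + 1)| * |dw N i (s + 1)| ≤ f s / ((s : ℝ) + 1) * (N * (2 * (s + 1))) :=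
          mul_le_mul hf hd (abs_nonneg _) (le_trans (abs_nonneg _) hf)
      _ = f s * (2 * N) := by field_simp
  calc 1 / (N : ℝ) ^ 2 * _ ≤ 1 / (N : ℝ) ^ 2 * ∑ s ∈ range (28 * N), f s * (2 * N) :=
        mul_le_mul_of_nonneg_left this (by positivity)
    _ = 2 / N * ∑ s ∈ range (28 * N), f s := by
        rw [← sum_mul]
        field_simp

theorem ee_crude_near {κ : ℤ → ℝ} (hodd : ∀ s, κ (-s) = -κ s)
    (hκ : ∀ s : ℤ, |κ s| ≤ 1 / |(s : ℝ)|) {m : ℕ} {l : ℤ} (hl : |l| < 20) :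
    |ee κ m l| ≤ 56 := by
  have hN : 0 < 2 ^ m := by positivity
  apply ee_bound κ m l 0
  intro i h1 h2
  rw [sub_zero]
  refine le_trans (cc_near_le hodd hN hl h1 h2 (fun _ => 1) ?_) ?_
  · intro s
    have := hκ ((s : ℤ) + 1)
    push_cast at this
    rwa [abs_of_pos (by positivity : (0 : ℝ) < (s : ℝ) + 1)] at this
  · simp only [sum_const, card_range, nsmul_eq_mul, mul_one]
    have : (0 : ℝ) < (2 ^ m : ℕ) := by positivity
    push_cast
    push_cast at this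
    rw [div_mul_eq_mul_div, div_le_iff₀ this]
    linarith

theorem stepK_odd (r : ℕ) (s : ℤ) : stepK r (-s) = -stepK r s := by
  unfold stepK
  simp only [ne_eq, neg_eq_zero, abs_neg]
  split_ifs
  · push_cast; rw [div_neg]
  · simp

theorem kinf_odd (s : ℤ) : kinf (-s) = -kinf s := by
  unfold kinf; push_cast; rw [div_neg]

/-- step kernels at coarse scales -/
theorem ee_step_coarse (r m : ℕ) {l : ℤ} (hl : |l| < 20) :
    |ee (stepK r) m l| ≤ 2 * r / 2 ^ m := by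
  have hN : 0 < 2 ^ m := by positivity
  apply ee_bound _ m l 0
  intro i h1 h2
  rw [sub_zero]
  refine le_trans (cc_near_le (stepK_odd r) hN hl h1 h2 (fun s => if s < r then 1 else 0) ?_) ?_
  · intro s
    unfold stepK
    by_cases hs : s < r
    · rw [if_pos, if_pos hs]
      · push_cast
        rw [abs_of_pos (by positivity)]
      · refine ⟨by omega, ?_⟩
        rw [abs_of_nonneg (by positivity)]
        omega
    · rw [if_neg, if_neg hs]
      · simp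
      · rintro ⟨_, h⟩
        rw [abs_of_nonneg (by positivity)] at h
        omega
  · have h3 : (∑ s ∈ range (28 * 2 ^ m), if s < r then (1 : ℝ) else 0) ≤ r := by
      rw [← sum_filter, sum_const, nsmul_eq_mul, mul_one]
      have : ((range (28 * 2 ^ m)).filter (fun s => s < r)).card ≤ r := by
        calc _ ≤ (range r).card := card_le_card (by
              intro x hx
              rw [mem_filter] at hx
              exact mem_range.mpr hx.2)
          _ = r := card_range r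
      exact_mod_cast this
    have hp : (0 : ℝ) < 2 ^ m := by positivity
    push_cast
    rw [div_mul_eq_mul_div]
    apply div_le_div_of_nonneg_right _ hp.le
    linarith

/-! ### change of scale for the full kernel, near positions -/

theorem w_even (N : ℕ) (y : ℤ) : w (2 * N) (2 * y) = w N y + 3 * w N (y - 1) := by
  unfold w
  rw [sum_range_two_mul]
  simp only [mul_sum, ← sum_add_distrib]
  refine sum_congr rfl fun i0 _ => ?_
  rw [sum_range_two_mul]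
  refine sum_congr rfl fun i1 _ => ?_
  rw [sum_range_two_mul, sum_range_two_mul, ← sum_add_distrib]
  refine sum_congr rfl fun i2 _ => ?_
  push_cast
  have h0 : (2 * (i0 : ℤ) + 2 * (i1 : ℤ) + 2 * (i2 : ℤ) = 2 * y) = ((i0 : ℤ) + i1 + i2 = y) := by
    apply propext; constructor <;> intro h <;> first | omega | exact h.elim
  have h1 : (2 * (i0 : ℤ) + 2 * (i1 : ℤ) + (2 * (i2 : ℤ) + 1) = 2 * y) = False := by
    apply propext; constructor <;> intro h <;> first | omega | exact h.elim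
  have h2 : (2 * (i0 : ℤ) + (2 * (i1 : ℤ) + 1) + 2 * (i2 : ℤ) = 2 * y) = False := by
    apply propext; constructor <;> intro h <;> first | omega | exact h.elim
  have h3 : (2 * (i0 : ℤ) + (2 * (i1 : ℤ) + 1) + (2 * (i2 : ℤ) + 1) = 2 * y) = ((i0 : ℤ) + i1 + i2 = y - 1) := by
    apply propext; constructor <;> intro h <;> first | omega | exact h.elim
  have h4 : (2 * (i0 : ℤ) + 1 + 2 * (i1 : ℤ) + 2 * (i2 : ℤ) = 2 * y) = False := by
    apply propext; constructor <;> intro h <;> first | omega | exact h.elim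
  have h5 : (2 * (i0 : ℤ) + 1 + 2 * (i1 : ℤ) + (2 * (i2 : ℤ) + 1) = 2 * y) = ((i0 : ℤ) + i1 + i2 = y - 1) := by
    apply propext; constructor <;> intro h <;> first | omega | exact h.elim
  have h6 : (2 * (i0 : ℤ) + 1 + (2 * (i1 : ℤ) + 1) + 2 * (i2 : ℤ) = 2 * y) = ((i0 : ℤ) + i1 + i2 = y - 1) := by
    apply propext; constructor <;> intro h <;> first | omega | exact h.elim
  have h7 : (2 * (i0 : ℤ) + 1 + (2 * (i1 : ℤ) + 1) + (2 * (i2 : ℤ) + 1) = 2 * y) = False := by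
    apply propext; constructor <;> intro h <;> first | omega | exact h.elim
  simp only [h0, h1, h2, h3, h4, h5, h6, h7, if_false]
  ring

theorem w_odd (N : ℕ) (y : ℤ) : w (2 * N) (2 * y + 1) = 3 * w N y + w N (y - 1) := by
  unfold w
  rw [sum_range_two_mul]
  simp only [mul_sum, ← sum_add_distrib]
  refine sum_congr rfl fun i0 _ => ?_
  rw [sum_range_two_mul]
  refine sum_congr rfl fun i1 _ => ?_
  rw [sum_range_two_mul, sum_range_two_mul, ← sum_add_distrib]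
  refine sum_congr rfl fun i2 _ => ?_
  push_cast
  have h0 : (2 * (i0 : ℤ) + 2 * (i1 : ℤ) + 2 * (i2 : ℤ) = 2 * y + 1) = False := by
    apply propext; constructor <;> intro h <;> first | omega | exact h.elim
  have h1 : (2 * (i0 : ℤ) + 2 * (i1 : ℤ) + (2 * (i2 : ℤ) + 1) = 2 * y + 1) = ((i0 : ℤ) + i1 + i2 = y) := by
    apply propext; constructor <;> intro h <;> first | omega | exact h.elim
  have h2 : (2 * (i0 : ℤ) + (2 * (i1 : ℤ) + 1) + 2 * (i2 : ℤ) = 2 * y + 1) = ((i0 : ℤ) + i1 + i2 = y) := by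
    apply propext; constructor <;> intro h <;> first | omega | exact h.elim
  have h3 : (2 * (i0 : ℤ) + (2 * (i1 : ℤ) + 1) + (2 * (i2 : ℤ) + 1) = 2 * y + 1) = False := by
    apply propext; constructor <;> intro h <;> first | omega | exact h.elim
  have h4 : (2 * (i0 : ℤ) + 1 + 2 * (i1 : ℤ) + 2 * (i2 : ℤ) = 2 * y + 1) = ((i0 : ℤ) + i1 + i2 = y) := by
    apply propext; constructor <;> intro h <;> first | omega | exact h.elim
  have h5 : (2 * (i0 : ℤ) + 1 + 2 * (i1 : ℤ) + (2 * (i2 : ℤ) + 1) = 2 * y + 1) = False := by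
    apply propext; constructor <;> intro h <;> first | omega | exact h.elim
  have h6 : (2 * (i0 : ℤ) + 1 + (2 * (i1 : ℤ) + 1) + 2 * (i2 : ℤ) = 2 * y + 1) = False := by
    apply propext; constructor <;> intro h <;> first | omega | exact h.elim
  have h7 : (2 * (i0 : ℤ) + 1 + (2 * (i1 : ℤ) + 1) + (2 * (i2 : ℤ) + 1) = 2 * y + 1) = ((i0 : ℤ) + i1 + i2 = y - 1) := by
    apply propext; constructor <;> intro h <;> first | omega | exact h.elim
  simp only [h0, h1, h2, h3, h4, h5, h6, h7, if_false]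
  ring

theorem dw_even (N : ℕ) (i : ℤ) (s : ℤ) : |dw (2 * N) i (2 * s) - 4 * dw N i s| ≤ 6 * N := by
  have e1 : (2 * s - i * ((2 * N : ℕ) : ℤ)) = 2 * (s - i * N) := by push_cast; ring
  have e2 : (-(2 * s) - i * ((2 * N : ℕ) : ℤ)) = 2 * (-s - i * N) := by push_cast; ring
  unfold dw
  rw [e1, e2, w_even, w_even]
  have a1 := w_lip' N (s - i * N - 1) (s - i * N) (D := 1) (by
    rw [show s - i * N - 1 - (s - i * N) = (-1 : ℤ) by ring]; norm_num)
  have a2 := w_lip' N (-s - i * N - 1) (-s - i * N) (D := 1) (by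
    rw [show -s - i * N - 1 - (-s - i * N) = (-1 : ℤ) by ring]; norm_num)
  rw [abs_le] at a1 a2 ⊢
  constructor <;> linarith [a1.1, a1.2, a2.1, a2.2]

theorem dw_odd (N : ℕ) (i : ℤ) (s : ℤ) : |dw (2 * N) i (2 * s + 1) - 4 * dw N i s| ≤ 6 * N := by
  have e1 : (2 * s + 1 - i * ((2 * N : ℕ) : ℤ)) = 2 * (s - i * N) + 1 := by push_cast; ring
  have e2 : (-(2 * s + 1) - i * ((2 * N : ℕ) : ℤ)) = 2 * (-s - 1 - i * N) + 1 := by push_cast; ring
  unfold dw
  rw [e1, e2, w_odd, w_odd]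
  have a1 := w_lip' N (s - i * N - 1) (s - i * N) (D := 1) (by
    rw [show s - i * N - 1 - (s - i * N) = (-1 : ℤ) by ring]; norm_num)
  have a2 := w_lip' N (-s - 1 - i * N) (-s - i * N) (D := 1) (by
    rw [show -s - 1 - i * N - (-s - i * N) = (-1 : ℤ) by ring]; norm_num)
  have a3 := w_lip' N (-s - 1 - i * N - 1) (-s - i * N) (D := 2) (by
    rw [show -s - 1 - i * N - 1 - (-s - i * N) = (-2 : ℤ) by ring]; norm_num)
  rw [abs_le] at a1 a2 a3 ⊢
  constructor <;> linarith [a1.1, a1.2, a2.1, a2.2, a3.1, a3.2]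

theorem harm_le (K : ℕ) : ∑ s ∈ range K, 1 / ((s : ℝ) + 1) ≤ 2 * Real.sqrt K := by
  induction K with
  | zero => simp
  | succ K ih =>
    rw [sum_range_succ]
    have h1 : Real.sqrt K ≤ Real.sqrt (K + 1 : ℕ) := Real.sqrt_le_sqrt (by push_cast; linarith)
    have h2 : Real.sqrt (K + 1 : ℕ) ^ 2 = K + 1 := by
      rw [Real.sq_sqrt (by positivity)]; push_cast; ring
    have h3 : Real.sqrt K ^ 2 = K := Real.sq_sqrt (by positivity)
    have h4 : 1 ≤ Real.sqrt (K + 1 : ℕ) := by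
      rw [Real.one_le_sqrt]; push_cast; linarith [(Nat.cast_nonneg K : (0 : ℝ) ≤ K)]
    have h5 : 0 ≤ Real.sqrt K := Real.sqrt_nonneg _
    have h6 : 1 / ((K : ℝ) + 1) ≤ 2 * Real.sqrt (K + 1 : ℕ) - 2 * Real.sqrt K := by
      rw [div_le_iff₀ (by positivity), ← h2]
      have : (Real.sqrt (K + 1 : ℕ) - Real.sqrt K) * (Real.sqrt (K + 1 : ℕ) + Real.sqrt K) = 1 := by
        linear_combination h2 - h3
      nlinarith
    linarith

theorem dw_succ (N : ℕ) (i : ℤ) (s : ℤ) : |dw N i s - dw N i (s + 1)| ≤ 2 * N := by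
  unfold dw
  have a1 := w_lip' N (s - i * N) (s + 1 - i * N) (D := 1) (by
    rw [show s - i * N - (s + 1 - i * N) = (-1 : ℤ) by ring]; norm_num)
  have a2 := w_lip' N (-s - i * N) (-(s + 1) - i * N) (D := 1) (by
    rw [show -s - i * N - (-(s + 1) - i * N) = (1 : ℤ) by ring]; norm_num)
  rw [abs_le] at a1 a2 ⊢
  constructor <;> linarith [a1.1, a1.2, a2.1, a2.2]

theorem kinf_scale_near_aux (N : ℕ) (i : ℤ) (s : ℕ) :
    |dw (2 * N) i (2 * (s : ℤ) + 1) / (2 * (s : ℝ) + 1) +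
      dw (2 * N) i (2 * ((s : ℤ) + 1)) / (2 * ((s : ℝ) + 1)) -
      4 * (dw N i ((s : ℤ) + 1) / ((s : ℝ) + 1))| ≤ 21 * N * (1 / ((s : ℝ) + 1)) := by
  set G := dw N i ((s : ℤ) + 1) with hG
  have hs : (0 : ℝ) < (s : ℝ) + 1 := by positivity
  have hs2 : (0 : ℝ) < 2 * (s : ℝ) + 1 := by positivity
  have hN : (0 : ℝ) ≤ N := by positivity
  have a1 := dw_even N i ((s : ℤ) + 1)
  have a2 := dw_odd N i (s : ℤ)
  have a3 := dw_succ N i (s : ℤ)
  have a4 := dw_le N i (s + 1)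
  push_cast at a4
  rw [← hG] at a1 a3 a4
  have b1 : |dw (2 * N) i (2 * (s : ℤ) + 1) - 4 * G| ≤ 14 * N := by
    rw [abs_le] at a2 a3 ⊢
    constructor <;> linarith [a2.1, a2.2, a3.1, a3.2]
  have e : dw (2 * N) i (2 * (s : ℤ) + 1) / (2 * (s : ℝ) + 1) +
      dw (2 * N) i (2 * ((s : ℤ) + 1)) / (2 * ((s : ℝ) + 1)) - 4 * (G / ((s : ℝ) + 1)) =
      (dw (2 * N) i (2 * (s : ℤ) + 1) - 4 * G) * (1 / (2 * (s : ℝ) + 1)) +
      (dw (2 * N) i (2 * ((s : ℤ) + 1)) - 4 * G) * (1 / (2 * ((s : ℝ) + 1))) +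
      G * (2 / ((2 * (s : ℝ) + 1) * ((s : ℝ) + 1))) := by
    field_simp
    ring
  rw [e]
  have c1 : |(dw (2 * N) i (2 * (s : ℤ) + 1) - 4 * G) * (1 / (2 * (s : ℝ) + 1))| ≤
      14 * N * (1 / ((s : ℝ) + 1)) := by
    rw [abs_mul]
    refine mul_le_mul b1 ?_ (abs_nonneg _) (by positivity)
    rw [abs_of_pos (by positivity)]
    apply one_div_le_one_div_of_le hs
    linarith [(Nat.cast_nonneg s : (0 : ℝ) ≤ s)]
  have c2 : |(dw (2 * N) i (2 * ((s : ℤ) + 1)) - 4 * G) * (1 / (2 * ((s : ℝ) + 1)))| ≤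
      3 * N * (1 / ((s : ℝ) + 1)) := by
    rw [abs_mul, abs_of_pos (by positivity : (0 : ℝ) < 1 / (2 * ((s : ℝ) + 1)))]
    calc _ ≤ 6 * N * (1 / (2 * ((s : ℝ) + 1))) :=
          mul_le_mul_of_nonneg_right a1 (by positivity)
      _ = 3 * N * (1 / ((s : ℝ) + 1)) := by field_simp; ring
  have c3 : |G * (2 / ((2 * (s : ℝ) + 1) * ((s : ℝ) + 1)))| ≤ 4 * N * (1 / ((s : ℝ) + 1)) := by
    rw [abs_mul, abs_of_pos (by positivity : (0 : ℝ) < 2 / ((2 * (s : ℝ) + 1) * ((s : ℝ) + 1)))]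
    calc _ ≤ N * (2 * ((s : ℝ) + 1)) * (2 / ((2 * (s : ℝ) + 1) * ((s : ℝ) + 1))) :=
          mul_le_mul_of_nonneg_right a4 (by positivity)
      _ = 4 * N * (1 / (2 * (s : ℝ) + 1)) := by field_simp; ring
      _ ≤ 4 * N * (1 / ((s : ℝ) + 1)) := by
          apply mul_le_mul_of_nonneg_left _ (by positivity)
          apply one_div_le_one_div_of_le hs
          linarith [(Nat.cast_nonneg s : (0 : ℝ) ≤ s)]
  refine le_trans (abs_add_le _ _) ?_
  have := abs_add_le ((dw (2 * N) i (2 * (s : ℤ) + 1) - 4 * G) * (1 / (2 * (s : ℝ) + 1)))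
    ((dw (2 * N) i (2 * ((s : ℤ) + 1)) - 4 * G) * (1 / (2 * ((s : ℝ) + 1))))
  linarith

theorem kinf_scale_near {N : ℕ} (hN : 0 < N) {l i : ℤ} (hl : |l| < 20) (h1 : l - 2 ≤ i)
    (h2 : i ≤ l + 5) : |cc kinf (2 * N) i - cc kinf N i| ≤ 56 / Real.sqrt N := by
  have hN2 : 0 < 2 * N := by positivity
  have hN' : (0 : ℝ) < N := by exact_mod_cast hN
  rw [cc_eq_dw kinf kinf_odd hN2 i _ (K_near hl h1 h2), cc_eq_dw kinf kinf_odd hN i _
    (K_near hl h1 h2)]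
  rw [show 28 * (2 * N) = 2 * (28 * N) by ring, sum_range_two_mul]
  have e : 1 / ((2 * N : ℕ) : ℝ) ^ 2 * ∑ v ∈ range (28 * N),
      (kinf (((2 * v : ℕ) : ℤ) + 1) * dw (2 * N) i (((2 * v : ℕ) : ℤ) + 1) +
        kinf (((2 * v + 1 : ℕ) : ℤ) + 1) * dw (2 * N) i (((2 * v + 1 : ℕ) : ℤ) + 1)) -
      1 / (N : ℝ) ^ 2 * ∑ s ∈ range (28 * N), kinf ((s : ℤ) + 1) * dw N i ((s : ℤ) + 1) =
      1 / (4 * (N : ℝ) ^ 2) * ∑ s ∈ range (28 * N),
        (dw (2 * N) i (2 * (s : ℤ) + 1) / (2 * (s : ℝ) + 1) +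
      dw (2 * N) i (2 * ((s : ℤ) + 1)) / (2 * ((s : ℝ) + 1)) -
      4 * (dw N i ((s : ℤ) + 1) / ((s : ℝ) + 1))) := by
    have h4 : 1 / (N : ℝ) ^ 2 = 1 / (4 * (N : ℝ) ^ 2) * 4 := by field_simp
    rw [h4]
    have h5 : ((2 * N : ℕ) : ℝ) ^ 2 = 4 * (N : ℝ) ^ 2 := by push_cast; ring
    rw [h5, mul_assoc, ← mul_sub]
    congr 1
    rw [mul_sum, ← sum_sub_distrib]
    refine sum_congr rfl fun s _ => ?_
    unfold kinf
    have q1 : (((2 * s : ℕ) : ℤ) + 1) = 2 * (s : ℤ) + 1 := by push_cast; ring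
    have q2 : (((2 * s + 1 : ℕ) : ℤ) + 1) = 2 * ((s : ℤ) + 1) := by push_cast; ring
    rw [q1, q2]
    push_cast
    ring
  rw [e, abs_mul, abs_of_pos (by positivity)]
  have key : |∑ s ∈ range (28 * N),
        (dw (2 * N) i (2 * (s : ℤ) + 1) / (2 * (s : ℝ) + 1) +
      dw (2 * N) i (2 * ((s : ℤ) + 1)) / (2 * ((s : ℝ) + 1)) -
      4 * (dw N i ((s : ℤ) + 1) / ((s : ℝ) + 1)))| ≤ 21 * N * (2 * Real.sqrt ((28 * N : ℕ))) := by
    refine le_trans (abs_sum_le_sum_abs _ _) ?_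
    refine le_trans (sum_le_sum fun s _ => kinf_scale_near_aux N i s) ?_
    rw [← mul_sum]
    exact mul_le_mul_of_nonneg_left (harm_le _) (by positivity)
  have hsq : Real.sqrt ((28 * N : ℕ)) ≤ 5.3 * Real.sqrt N := by
    push_cast
    rw [Real.sqrt_mul (by norm_num)]
    apply mul_le_mul_of_nonneg_right _ (Real.sqrt_nonneg _)
    rw [Real.sqrt_le_left (by norm_num)]
    norm_num
  have hsN : 0 < Real.sqrt N := Real.sqrt_pos.mpr hN'
  have hss : Real.sqrt N * Real.sqrt N = N := Real.mul_self_sqrt hN'.le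
  calc 1 / (4 * (N : ℝ) ^ 2) * _ ≤ 1 / (4 * (N : ℝ) ^ 2) * (21 * N * (2 * Real.sqrt ((28 * N : ℕ)))) :=
        mul_le_mul_of_nonneg_left key (by positivity)
    _ ≤ 1 / (4 * (N : ℝ) ^ 2) * (21 * N * (2 * (5.3 * Real.sqrt N))) := by
        gcongr
    _ = 55.65 / Real.sqrt N := by
        rw [eq_div_iff hsN.ne']
        have : (N : ℝ) ^ 2 = Real.sqrt N * Real.sqrt N * N := by rw [hss]; ring
        rw [this]
        field_simp
        norm_num
    _ ≤ 56 / Real.sqrt N := by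
        apply div_le_div_of_nonneg_right (by norm_num) hsN.le

theorem one_div_sqrt_two_pow (m : ℕ) : 56 / Real.sqrt ((2 ^ m : ℕ) : ℝ) ≤ 56 * (3 / 4) ^ m := by
  have h : ((4 : ℝ) / 3) ^ m ≤ Real.sqrt ((2 ^ m : ℕ) : ℝ) := by
    apply Real.le_sqrt_of_sq_le
    rw [← pow_mul, mul_comm m 2, pow_mul]
    push_cast
    apply pow_le_pow_left₀ (by positivity)
    norm_num
  rw [div_le_iff₀ (lt_of_lt_of_le (by positivity) h)]
  have : (56 : ℝ) = 56 * (3 / 4) ^ m * (4 / 3) ^ m := by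
    rw [mul_assoc, ← mul_pow]; norm_num
  calc (56 : ℝ) = 56 * (3 / 4) ^ m * (4 / 3) ^ m := this
    _ ≤ _ := mul_le_mul_of_nonneg_left h (by positivity)

theorem kinf_abs (s : ℤ) : |kinf s| ≤ 1 / |(s : ℝ)| := by
  unfold kinf; rw [abs_div, abs_one]

theorem ee_inf_scale_near {m : ℕ} {l : ℤ} (hl : |l| < 20) :
    |ee kinf (m + 1) l - ee kinf m l| ≤ 168 * (3 / 4) ^ m := by
  have hN : 0 < 2 ^ m := by positivity
  have := ee_scale_diff kinf m l 0 (56 * (3 / 4) ^ m) 56 (fun i h1 h2 => by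
    rw [show 2 ^ (m + 1) = 2 * 2 ^ m by rw [pow_succ]; ring]
    exact le_trans (kinf_scale_near hN hl h1 h2) (one_div_sqrt_two_pow m)) (fun i h1 h2 => by
    rw [sub_zero]
    refine le_trans (cc_near_le kinf_odd hN hl h1 h2 (fun _ => 1) ?_) ?_
    · intro s
      have := kinf_abs ((s : ℤ) + 1)
      push_cast at this
      rwa [abs_of_pos (by positivity : (0 : ℝ) < (s : ℝ) + 1)] at this
    · simp only [sum_const, card_range, nsmul_eq_mul, mul_one]
      have : (0 : ℝ) < (2 ^ m : ℕ) := by positivity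
      push_cast
      push_cast at this
      rw [div_mul_eq_mul_div, div_le_iff₀ this]
      linarith)
  refine le_trans this ?_
  have h4 : (1 / 4 : ℝ) ^ m ≤ (3 / 4) ^ m := pow_le_pow_left₀ (by norm_num) (by norm_num) m
  linarith

theorem ee_step_eq_inf_near {m : ℕ} {l : ℤ} {r : ℕ} (hl : |l| < 20)
    (h : 28 * 2 ^ m ≤ r) : ee (stepK r) m l = ee kinf m l := by
  apply ee_congr
  intro s h1 h2
  have hN : 0 < 2 ^ m := by positivity
  have hw := window_near (N := 2 ^ m) hN hl (by simpa using h1) (by simpa using h2)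
  have hs : |s| ≤ r := le_trans hw (by exact_mod_cast h)
  unfold stepK kinf
  by_cases h0 : s = 0
  · simp [h0]
  · simp [h0, hs]

theorem geom_tail (x : ℝ) (hx : 0 ≤ x) (M : ℕ) :
    (∑ m ∈ range M, if x < 2 ^ m then x / 2 ^ m else 0) ≤ 2 := by
  have : (∑ m ∈ range M, if x < 2 ^ m then x / 2 ^ m else 0) ≤ 2 ∧
      (x < 2 ^ M → (∑ m ∈ range M, if x < 2 ^ m then x / 2 ^ m else 0) ≤ 2 - 2 * x / 2 ^ M) := by
    induction M with
    | zero =>
      simp only [range_zero, sum_empty, pow_zero, div_one]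
      constructor
      · norm_num
      · intro h; linarith
    | succ M ih =>
      rw [sum_range_succ]
      by_cases h : x < 2 ^ M
      · rw [if_pos h]
        have h1 := ih.2 h
        have hx' : 0 ≤ x / 2 ^ M := by positivity
        have e1 : 2 * x / 2 ^ M = 2 * (x / 2 ^ M) := by ring
        have e2 : 2 * x / 2 ^ (M + 1) = x / 2 ^ M := by rw [pow_succ]; field_simp
        rw [e1] at h1
        rw [e2]
        constructor
        · linarith
        · intro _; linarith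
      · rw [if_neg h, add_zero]
        have h0 : (∑ m ∈ range M, if x < 2 ^ m then x / 2 ^ m else 0) = 0 := by
          apply sum_eq_zero
          intro m hm
          rw [if_neg]
          push Not at h ⊢
          refine le_trans ?_ h
          exact pow_le_pow_right₀ (by norm_num) (mem_range.mp hm).le
        rw [h0]
        constructor
        · norm_num
        · intro h'
          have : 2 * x / 2 ^ (M + 1) ≤ 2 := by
            rw [div_le_iff₀ (by positivity)]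
            linarith
          linarith
  exact this.1

theorem geom34 (M : ℕ) : ∑ m ∈ range M, (3 / 4 : ℝ) ^ m ≤ 4 := by
  have := geom_sum_eq (by norm_num : (3 / 4 : ℝ) ≠ 1) M
  rw [this]
  have : (0 : ℝ) ≤ (3 / 4) ^ M := by positivity
  rw [div_le_iff_of_neg (by norm_num)]
  linarith

theorem geom12 (M : ℕ) : ∑ m ∈ range M, (1 / 2 : ℝ) ^ m ≤ 2 := by
  have := geom_sum_eq (by norm_num : (1 / 2 : ℝ) ≠ 1) M
  rw [this]
  have : (0 : ℝ) ≤ (1 / 2) ^ M := by positivity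
  rw [div_le_iff_of_neg (by norm_num)]
  linarith

/-- variation in `m`, near positions -/
theorem step_var_near (r M : ℕ) {l : ℤ} (hl : |l| < 20) :
    ∑ m ∈ range M, |ee (stepK r) (m + 1) l - ee (stepK r) m l| ≤ 1008 := by
  have key : ∀ m ∈ range M, |ee (stepK r) (m + 1) l - ee (stepK r) m l| ≤
      168 * (3 / 4) ^ m + 168 * (if (r : ℝ) / 56 < 2 ^ m then (r : ℝ) / 56 / 2 ^ m else 0) := by
    intro m _
    by_cases h : 28 * 2 ^ (m + 1) ≤ r
    · have h' : 28 * 2 ^ m ≤ r := by rw [pow_succ] at h; linarith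
      rw [ee_step_eq_inf_near hl h, ee_step_eq_inf_near hl h']
      refine le_trans (ee_inf_scale_near hl) ?_
      have : 0 ≤ (if (r : ℝ) / 56 < 2 ^ m then (r : ℝ) / 56 / 2 ^ m else 0) := by
        split_ifs <;> positivity
      linarith
    · push Not at h
      have hr : (r : ℝ) / 56 < 2 ^ m := by
        rw [div_lt_iff₀ (by norm_num)]
        have : (r : ℝ) < 28 * 2 ^ (m + 1) := by exact_mod_cast h
        rw [pow_succ] at this
        linarith
      rw [if_pos hr]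
      have a1 := ee_step_coarse r m hl
      have a2 := ee_step_coarse r (m + 1) hl
      have a3 : 2 * (r : ℝ) / 2 ^ (m + 1) = r / 2 ^ m := by rw [pow_succ]; field_simp
      rw [a3] at a2
      have a4 := abs_sub (ee (stepK r) (m + 1) l) (ee (stepK r) m l)
      have a5 : 168 * ((r : ℝ) / 56 / 2 ^ m) = 3 * (r / 2 ^ m) := by ring
      have a6 : 2 * (r : ℝ) / 2 ^ m = 2 * (r / 2 ^ m) := by ring
      have a7 : (0 : ℝ) ≤ (3 / 4) ^ m := by positivity
      rw [a5]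
      linarith
  refine le_trans (sum_le_sum key) ?_
  rw [sum_add_distrib, ← mul_sum, ← mul_sum]
  have g1 := geom34 M
  have g2 := geom_tail ((r : ℝ) / 56) (by positivity) M
  linarith

end Crest.Agent.R072.Kernel
end

-- ▼ part R072/KEBasic
section

/-! R072: elementary kernel estimates. -/

set_option autoImplicit false

namespace Crest.Agent.R072.Kernel

open Finset Filter Topology Crest.Agent.R072

/-- outside: the step has not reached the window -/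
theorem ee_step_zero {m : ℕ} {l : ℤ} {r : ℕ} (h20 : 20 ≤ |l|)
    (h : (r : ℤ) < |l| * 2 ^ m - 10 * 2 ^ m) : ee (stepK r) m l = 0 :=
  ee_step_zero' h20 h



theorem abs_l_lt {l : ℤ} (h : |l| < 20) : 1 + |(l : ℝ)| ≤ 20 := by
  have h1 : |l| ≤ 19 := by omega
  have h2 : (|l| : ℝ) ≤ 19 := by
    have : ((|l| : ℤ) : ℝ) ≤ 19 := by exact_mod_cast h1
    simpa using this
  linarith

/-- the kernel with profile `b` -/
noncomputable def kb (b : ℕ → ℝ) (s : ℤ) : ℝ := if s = 0 then 0 else b s.natAbs / (s : ℝ)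

theorem kb_odd (b : ℕ → ℝ) (s : ℤ) : kb b (-s) = -kb b s := by
  unfold kb
  by_cases h : s = 0
  · simp [h]
  · simp only [neg_eq_zero, h, if_false, Int.natAbs_neg, Int.cast_neg]
    rw [div_neg]

theorem kb_le (b : ℕ → ℝ) (hb : ∀ s, |b s| ≤ 1) (s : ℤ) : |kb b s| ≤ 1 / |(s : ℝ)| := by
  unfold kb
  split_ifs with h
  · rw [abs_zero]; positivity
  · rw [abs_div]
    exact div_le_div_of_nonneg_right (hb _) (abs_nonneg _)



theorem ee_sub (f g : ℤ → ℝ) (m : ℕ) (l : ℤ) :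
    ee (fun s => f s - g s) m l = ee f m l - ee g m l := by
  have := ee_lin (univ : Finset Bool) (fun b => if b then (1 : ℝ) else -1)
    (fun b => if b then f else g) m l
  simp only [Fintype.sum_bool, if_true] at this
  simp only [Bool.false_eq_true, if_false, one_mul, neg_mul] at this
  simp only [← sub_eq_add_neg] at this
  exact this

/-- profile of the family of annuli -/
noncomputable def prof {n : ℕ} (σ : Fin n → ℝ) (A B : Fin n → ℕ) (t : ℕ) : ℝ :=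
  ∑ j, σ j * (if A j < t ∧ t ≤ B j then 1 else 0)

theorem prof_le {n : ℕ} {σ : Fin n → ℝ} {A B : Fin n → ℕ} (hσ : ∀ j, |σ j| ≤ 1)
    (hd : ∀ i j, i ≠ j → B i ≤ A j ∨ B j ≤ A i) (t : ℕ) : |prof σ A B t| ≤ 1 := by
  unfold prof
  by_cases h : ∃ j, A j < t ∧ t ≤ B j
  · obtain ⟨j, hj⟩ := h
    rw [sum_eq_single j]
    · rw [if_pos hj, mul_one]; exact hσ j
    · intro i _ hij
      rw [if_neg, mul_zero]
      intro hi
      rcases hd i j hij with h | h <;> omega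
    · intro h; exact absurd (mem_univ j) h
  · push Not at h
    rw [sum_eq_zero]
    · simp
    · intro j _
      rw [if_neg, mul_zero]
      rintro ⟨h1, h2⟩
      exact absurd h2 (not_le.mpr (h j h1))

theorem ind_diff {a b t : ℕ} (h : a ≤ b) :
    (if t ≤ b then (1 : ℝ) else 0) - (if t ≤ a then 1 else 0) =
      if a < t ∧ t ≤ b then 1 else 0 := by
  by_cases h1 : a < t
  · by_cases h2 : t ≤ b
    · rw [if_pos h2, if_neg (not_le.mpr h1), if_pos ⟨h1, h2⟩, sub_zero]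
    · rw [if_neg h2, if_neg (not_le.mpr h1), if_neg (fun h3 => h2 h3.2), sub_zero]
  · rw [if_pos (le_trans (not_lt.mp h1) h), if_pos (not_lt.mp h1), if_neg (fun h3 => h1 h3.1),
      sub_self]

theorem kb_prof {n : ℕ} {σ : Fin n → ℝ} {A B : Fin n → ℕ} (hAB : ∀ j, A j ≤ B j) :
    kb (prof σ A B) = fun s => ∑ j, σ j * (stepK (B j) s - stepK (A j) s) := by
  funext s
  unfold kb prof
  by_cases h : s = 0
  · subst h
    simp [stepK]
  · rw [if_neg h, sum_div]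
    refine sum_congr rfl fun j _ => ?_
    rw [mul_div_assoc]
    congr 1
    have e1 : ∀ r : ℕ, stepK r s = (if s.natAbs ≤ r then 1 else 0) / (s : ℝ) := by
      intro r
      unfold stepK
      have : (s ≠ 0 ∧ |s| ≤ (r : ℤ)) ↔ s.natAbs ≤ r := by
        rw [Int.abs_eq_natAbs]
        constructor
        · rintro ⟨_, h2⟩; exact_mod_cast h2
        · intro h2; exact ⟨h, by exact_mod_cast h2⟩
      simp only [this]
      split_ifs <;> simp
    rw [e1, e1, ← ind_diff (hAB j), sub_div]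

theorem ee_kb_prof {n : ℕ} {σ : Fin n → ℝ} {A B : Fin n → ℕ} (hAB : ∀ j, A j ≤ B j)
    (m : ℕ) (l : ℤ) :
    ee (kb (prof σ A B)) m l = ∑ j, σ j * (ee (stepK (B j)) m l - ee (stepK (A j)) m l) := by
  rw [kb_prof hAB, ee_lin univ σ (fun j s => stepK (B j) s - stepK (A j) s)]
  refine sum_congr rfl fun j _ => ?_
  rw [ee_sub]

theorem ee_step_sharp {m : ℕ} {l : ℤ} {r : ℕ} (h20 : 20 ≤ |l|) (hn : ¬ near m l r) :
    ee (stepK r) m l = (if l.natAbs * 2 ^ m ≤ r then 1 else 0) * ee kinf m l := by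
  have hp : (0 : ℤ) < 2 ^ m := by positivity
  have hcast : ((l.natAbs * 2 ^ m : ℕ) : ℤ) = |l| * 2 ^ m := by
    push_cast
    rfl
  have h1 : ¬ |(r : ℤ) - |l| * 2 ^ m| ≤ 10 * 2 ^ m := fun h => hn ⟨h20, h⟩
  rw [abs_le, not_and_or, not_le, not_le] at h1
  rcases h1 with h1 | h1
  · rw [ee_step_zero h20 (by linarith), if_neg, zero_mul]
    intro h
    have : ((l.natAbs * 2 ^ m : ℕ) : ℤ) ≤ r := by exact_mod_cast h
    rw [hcast] at this
    linarith
  · rw [ee_step_eq_inf (by linarith), if_pos, one_mul]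
    have : ((l.natAbs * 2 ^ m : ℕ) : ℤ) ≤ r := by
      rw [hcast]
      linarith
    exact_mod_cast this

theorem not_near_of_nu {m : ℕ} {l : ℤ} {r : ℕ} (h : nu r l = 0) : ¬ near m l r := by
  intro hn
  unfold nu at h
  rw [card_eq_zero, filter_eq_empty_iff] at h
  exact h (mem_range.mpr (near_le hn)) hn

theorem ee_sharp {n : ℕ} {σ : Fin n → ℝ} {A B : Fin n → ℕ} (hσ : ∀ j, |σ j| ≤ 1)
    (hAB : ∀ j, A j ≤ B j) (hd : ∀ i j, i ≠ j → B i ≤ A j ∨ B j ≤ A i) {m : ℕ} {l : ℤ}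
    (h20 : 20 ≤ |l|) (hB : ∀ j, nu (B j) l = 0) (hA : ∀ j, nu (A j) l = 0) :
    |ee (kb (prof σ A B)) m l| ≤ 20 / (1 + |(l : ℝ)|) ^ 2 := by
  have e : ee (kb (prof σ A B)) m l = prof σ A B (l.natAbs * 2 ^ m) * ee kinf m l := by
    rw [ee_kb_prof hAB]
    unfold prof
    rw [sum_mul]
    refine sum_congr rfl fun j _ => ?_
    rw [ee_step_sharp h20 (not_near_of_nu (hB j)), ee_step_sharp h20 (not_near_of_nu (hA j)),
      mul_assoc, ← sub_mul]
    rw [ind_diff (hAB j)]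
  rw [e, abs_mul]
  calc _ ≤ 1 * (20 / (1 + |(l : ℝ)|) ^ 2) :=
        mul_le_mul (prof_le hσ hd _) (ee_inf_far h20) (abs_nonneg _) (by norm_num)
    _ = _ := one_mul _

/-- the limit functional -/
theorem sum_kb_prof {n : ℕ} {σ : Fin n → ℝ} {A B : Fin n → ℕ} (hAB : ∀ j, A j ≤ B j)
    (R : ℕ) (hR : ∀ j, B j ≤ R) (T : ℤ → ℝ) :
    ∑ s ∈ Icc (-(R : ℤ)) R, kb (prof σ A B) s * T s =
      ∑ j, σ j * ∑ s ∈ Ioc (A j) (B j), (T s - T (-(s : ℤ))) / (s : ℝ) := by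
  rw [sum_Icc_symm]
  have h0 : kb (prof σ A B) 0 = 0 := by simp [kb]
  rw [h0, zero_mul, zero_add]
  have e1 : ∀ s ∈ range R, (kb (prof σ A B) ((s : ℤ) + 1) * T ((s : ℤ) + 1) +
      kb (prof σ A B) (-((s : ℤ) + 1)) * T (-((s : ℤ) + 1))) =
      ∑ j, σ j * ((if A j < s + 1 ∧ s + 1 ≤ B j then 1 else 0) *
        ((T ((s + 1 : ℕ) : ℤ) - T (-((s + 1 : ℕ) : ℤ))) / ((s + 1 : ℕ) : ℝ))) := by
    intro s _
    rw [kb_odd]
    have h2 : kb (prof σ A B) ((s : ℤ) + 1) = prof σ A B (s + 1) / ((s + 1 : ℕ) : ℝ) := by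
      unfold kb
      rw [if_neg (by omega)]
      have : ((s : ℤ) + 1).natAbs = s + 1 := by omega
      rw [this]
      push_cast
      rfl
    rw [h2]
    have h3 : ((s + 1 : ℕ) : ℤ) = (s : ℤ) + 1 := by push_cast; rfl
    rw [h3]
    unfold prof
    simp only [← mul_assoc]
    rw [← sum_mul]
    ring
  rw [sum_congr rfl e1, sum_comm]
  refine sum_congr rfl fun j _ => ?_
  rw [← mul_sum]
  congr 1
  have e2 : ∀ s : ℕ, ((if A j < s + 1 ∧ s + 1 ≤ B j then (1 : ℝ) else 0) *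
        ((T ((s + 1 : ℕ) : ℤ) - T (-((s + 1 : ℕ) : ℤ))) / ((s + 1 : ℕ) : ℝ))) =
      (fun u : ℕ => if A j < u ∧ u ≤ B j then ((T (u : ℤ) - T (-(u : ℤ))) / (u : ℝ)) else 0)
        (s + 1) := by
    intro s
    simp only
    split_ifs <;> simp
  rw [sum_congr rfl fun s _ => e2 s]
  rw [← sum_image (f := fun u : ℕ => if A j < u ∧ u ≤ B j then
    ((T (u : ℤ) - T (-(u : ℤ))) / (u : ℝ)) else 0) (g := fun s => s + 1) (s := range R)
    (by intro a _ b _ h; simpa using h)]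
  rw [← sum_filter]
  apply sum_congr _ fun _ _ => rfl
  ext u
  simp only [mem_filter, mem_image, mem_range, mem_Ioc]
  constructor
  · rintro ⟨_, h⟩; exact h
  · intro h
    refine ⟨⟨u - 1, ?_, ?_⟩, h⟩
    · have := hR j; omega
    · omega

end Crest.Agent.R072.Kernel
end

-- ▼ part R072/KEMain
section

/-! R072: the kernel theorem from the variation estimate and the count of near scales. -/

set_option autoImplicit false

namespace Crest.Agent.R072.Kernel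

open Finset Filter Topology Crest.Agent.R072

theorem kernel_main_of
    (hvar : ∃ C : ℝ, 0 ≤ C ∧ ∀ (r : ℕ) (l : ℤ) (M : ℕ),
      ∑ m ∈ range M, |ee (stepK r) (m + 1) l - ee (stepK r) m l| ≤
        C / (1 + |(l : ℝ)|) * (1 / (1 + |(l : ℝ)|) + nu r l))
    (hnu : ∃ C : ℝ, 0 ≤ C ∧ ∀ (r : ℕ) (Λ : ℕ),
      ∑ l ∈ Icc (-(Λ : ℤ)) Λ, (1 + |(l : ℝ)|) ^ (-(1 / 4) : ℝ) * nu r l ≤ C) :
    ∃ C : ℝ, 0 ≤ C ∧ ∀ (n : ℕ) (σ : Fin n → ℝ) (A B : Fin n → ℕ), 1 ≤ n →
    (∀ j, |σ j| ≤ 1) → (∀ j, A j ≤ B j) → (∀ i j, i ≠ j → B i ≤ A j ∨ B j ≤ A i) →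
    ∀ Λ : ℕ, (∀ j, B j + 10 ≤ Λ) →
    ∃ (e : ℕ → ℤ → ℝ) (ν : ℤ → ℝ), (∀ l, 0 ≤ ν l) ∧
      (∀ m l, |e m l| ≤ C / (1 + |(l : ℝ)|) * (1 / (1 + |(l : ℝ)|) + min 1 (ν l))) ∧
      (∀ M l, ∑ m ∈ range M, |e (m + 1) l - e m l| ≤
        C / (1 + |(l : ℝ)|) * (n / (1 + |(l : ℝ)|) + ν l)) ∧
      (∑ l ∈ Icc (-(Λ : ℤ)) Λ, (1 + |(l : ℝ)|) ^ (-(1 / 4) : ℝ) * ν l ≤ C * n) ∧
      (∀ T : ℤ → ℝ, (∃ B', ∀ s, |T s| ≤ B') →
        Tendsto (fun M : ℕ => ∑ m ∈ range M, ∑ l ∈ Icc (-(Λ : ℤ)) Λ, e m l * psiT (2 ^ m) T l)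
          atTop (𝓝 (∑ j, σ j * ∑ s ∈ Ioc (A j) (B j), (T s - T (-(s : ℤ))) / (s : ℝ)))) := by
  obtain ⟨C1, hC1, hvar⟩ := hvar
  obtain ⟨C2, hC2, hnu⟩ := hnu
  refine ⟨22400 + 2 * C1 + 2 * C2, by positivity, ?_⟩
  intro n σ A B hn hσ hAB hd Λ hΛ
  refine ⟨ee (kb (prof σ A B)), fun l => ∑ j, ((nu (B j) l : ℝ) + nu (A j) l), ?_, ?_, ?_, ?_, ?_⟩
  · intro l
    positivity
  · intro m l
    have hp : 0 < 1 + |(l : ℝ)| := by positivity
    by_cases hl : |l| < 20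
    · refine le_trans (ee_crude_near (kb_odd _) (kb_le _ (prof_le hσ hd)) hl) ?_
      have h1 := abs_l_lt hl
      have h0 : (0 : ℝ) ≤ min 1 (∑ j, ((nu (B j) l : ℝ) + nu (A j) l)) :=
        le_min (by norm_num) (by positivity)
      calc (56 : ℝ) ≤ 22400 / (1 + |(l : ℝ)|) * (1 / (1 + |(l : ℝ)|)) := by
            rw [div_mul_div_comm, mul_one, le_div_iff₀ (by positivity)]
            nlinarith
        _ ≤ _ := by
            apply mul_le_mul
            · apply div_le_div_of_nonneg_right _ hp.le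
              linarith
            · linarith
            · positivity
            · positivity
    · have hl : 20 ≤ |l| := by omega
      by_cases hν : (1 : ℝ) ≤ ∑ j, ((nu (B j) l : ℝ) + nu (A j) l)
      · rw [min_eq_left hν]
        refine le_trans (ee_crude_far (kb_le _ (prof_le hσ hd)) hl) ?_
        calc 2 / (1 + |(l : ℝ)|) = 2 / (1 + |(l : ℝ)|) * 1 := by ring
          _ ≤ _ := by
            apply mul_le_mul
            · apply div_le_div_of_nonneg_right _ hp.le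
              linarith
            · have : 0 ≤ 1 / (1 + |(l : ℝ)|) := by positivity
              linarith
            · positivity
            · positivity
      · have hsum : ∑ j, (nu (B j) l + nu (A j) l) = 0 := by
          have h1 : ((∑ j, (nu (B j) l + nu (A j) l) : ℕ) : ℝ) < 1 := by
            push_cast
            push Not at hν
            exact hν
          have h2 : ∑ j, (nu (B j) l + nu (A j) l) < 1 := by exact_mod_cast h1
          omega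
        have hz : ∀ j, nu (B j) l = 0 ∧ nu (A j) l = 0 := by
          intro j
          have := (Finset.sum_eq_zero_iff.mp hsum) j (mem_univ j)
          omega
        refine le_trans (ee_sharp hσ hAB hd hl (fun j => (hz j).1) (fun j => (hz j).2)) ?_
        have h0 : (0 : ℝ) ≤ min 1 (∑ j, ((nu (B j) l : ℝ) + nu (A j) l)) :=
          le_min (by norm_num) (by positivity)
        calc 20 / (1 + |(l : ℝ)|) ^ 2 = 20 / (1 + |(l : ℝ)|) * (1 / (1 + |(l : ℝ)|)) := by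
              field_simp
          _ ≤ _ := by
            apply mul_le_mul
            · apply div_le_div_of_nonneg_right _ hp.le
              linarith
            · linarith
            · positivity
            · positivity
  · intro M l
    have hp : 0 < 1 + |(l : ℝ)| := by positivity
    have step : ∀ m ∈ range M, |ee (kb (prof σ A B)) (m + 1) l - ee (kb (prof σ A B)) m l| ≤
        ∑ j, (|ee (stepK (B j)) (m + 1) l - ee (stepK (B j)) m l| +
          |ee (stepK (A j)) (m + 1) l - ee (stepK (A j)) m l|) := by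
      intro m _
      rw [ee_kb_prof hAB, ee_kb_prof hAB, ← sum_sub_distrib]
      refine le_trans (abs_sum_le_sum_abs _ _) (sum_le_sum fun j _ => ?_)
      have e : σ j * (ee (stepK (B j)) (m + 1) l - ee (stepK (A j)) (m + 1) l) -
          σ j * (ee (stepK (B j)) m l - ee (stepK (A j)) m l) =
          σ j * ((ee (stepK (B j)) (m + 1) l - ee (stepK (B j)) m l) -
            (ee (stepK (A j)) (m + 1) l - ee (stepK (A j)) m l)) := by ring
      rw [e, abs_mul]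
      calc _ ≤ 1 * (|ee (stepK (B j)) (m + 1) l - ee (stepK (B j)) m l| +
            |ee (stepK (A j)) (m + 1) l - ee (stepK (A j)) m l|) := by
            apply mul_le_mul (hσ j) (abs_sub _ _) (abs_nonneg _) (by norm_num)
        _ = _ := one_mul _
    refine le_trans (sum_le_sum step) ?_
    rw [sum_comm]
    calc _ ≤ ∑ j : Fin n, (C1 / (1 + |(l : ℝ)|) * (1 / (1 + |(l : ℝ)|) + nu (B j) l) +
          C1 / (1 + |(l : ℝ)|) * (1 / (1 + |(l : ℝ)|) + nu (A j) l)) := by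
          refine sum_le_sum fun j _ => ?_
          rw [sum_add_distrib]
          exact add_le_add (hvar _ _ _) (hvar _ _ _)
      _ = C1 / (1 + |(l : ℝ)|) * (2 * (n / (1 + |(l : ℝ)|)) +
            ∑ j, ((nu (B j) l : ℝ) + nu (A j) l)) := by
          have : ∀ j : Fin n, (C1 / (1 + |(l : ℝ)|) * (1 / (1 + |(l : ℝ)|) + nu (B j) l) +
              C1 / (1 + |(l : ℝ)|) * (1 / (1 + |(l : ℝ)|) + nu (A j) l)) =
              C1 / (1 + |(l : ℝ)|) * (2 * (1 / (1 + |(l : ℝ)|))) +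
                C1 / (1 + |(l : ℝ)|) * ((nu (B j) l : ℝ) + nu (A j) l) := by
            intro j; ring
          rw [sum_congr rfl fun j _ => this j, sum_add_distrib, sum_const, card_univ,
            Fintype.card_fin, ← mul_sum, nsmul_eq_mul]
          ring
      _ ≤ C1 / (1 + |(l : ℝ)|) * (2 * (n / (1 + |(l : ℝ)|)) +
            2 * ∑ j, ((nu (B j) l : ℝ) + nu (A j) l)) := by
          apply mul_le_mul_of_nonneg_left _ (by positivity)
          have : 0 ≤ ∑ j, ((nu (B j) l : ℝ) + nu (A j) l) := by positivity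
          linarith
      _ = 2 * C1 / (1 + |(l : ℝ)|) * (n / (1 + |(l : ℝ)|) +
            ∑ j, ((nu (B j) l : ℝ) + nu (A j) l)) := by ring
      _ ≤ _ := by
          apply mul_le_mul_of_nonneg_right _ (by positivity)
          apply div_le_div_of_nonneg_right _ hp.le
          linarith
  · have e : ∀ l : ℤ, (1 + |(l : ℝ)|) ^ (-(1 / 4) : ℝ) * ∑ j, ((nu (B j) l : ℝ) + nu (A j) l) =
        ∑ j, ((1 + |(l : ℝ)|) ^ (-(1 / 4) : ℝ) * nu (B j) l +
          (1 + |(l : ℝ)|) ^ (-(1 / 4) : ℝ) * nu (A j) l) := by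
      intro l
      rw [mul_sum]
      exact sum_congr rfl fun j _ => mul_add _ _ _
    rw [sum_congr rfl fun l _ => e l, sum_comm]
    calc _ ≤ ∑ _j : Fin n, (C2 + C2) := by
          refine sum_le_sum fun j _ => ?_
          rw [sum_add_distrib]
          exact add_le_add (hnu _ _) (hnu _ _)
      _ = (2 * C2) * n := by
          rw [sum_const, card_univ, Fintype.card_fin, nsmul_eq_mul]
          ring
      _ ≤ _ := by
          apply mul_le_mul_of_nonneg_right _ (by positivity)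
          linarith
  · intro T hT
    have hj : 0 < n := hn
    have h10 : 10 ≤ Λ := by have := hΛ ⟨0, hj⟩; omega
    have hR : ∀ j, B j ≤ Λ - 10 := fun j => by have := hΛ j; omega
    rw [← sum_kb_prof hAB (Λ - 10) hR T]
    apply decomp (kb (prof σ A B)) (Λ - 10) _ _ T hT Λ (by omega)
    · intro s hs
      have h2 : prof σ A B s.natAbs = 0 := by
        unfold prof
        apply sum_eq_zero
        intro j _
        rw [if_neg, mul_zero]
        rintro ⟨_, h4⟩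
        have h5 := hR j
        rw [Int.abs_eq_natAbs] at hs
        have h6 : Λ - 10 < s.natAbs := by exact_mod_cast hs
        omega
      unfold kb
      rw [h2]
      simp
    · rw [sum_Icc_symm]
      have h0 : kb (prof σ A B) 0 = 0 := by simp [kb]
      rw [h0, zero_add]
      apply sum_eq_zero
      intro s _
      rw [kb_odd]
      ring

end Crest.Agent.R072.Kernel
end

-- ▼ part R072/KEVar
section

/-! R072: variation in the scale of the step coefficient. -/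

set_option autoImplicit false

namespace Crest.Agent.R072.Kernel

open Finset Filter Topology Crest.Agent.R072

theorem stepK_abs_le (r : ℕ) (s : ℤ) : |stepK r s| ≤ 1 / |(s : ℝ)| := by
  unfold stepK
  split_ifs
  · rw [abs_div, abs_one]
  · rw [abs_zero]; positivity

/-- the step has passed the window -/
def inn (m : ℕ) (l : ℤ) (r : ℕ) : Prop := |l| * 2 ^ m + 10 * 2 ^ m < (r : ℤ)

instance (m : ℕ) (l : ℤ) (r : ℕ) : Decidable (inn m l r) := by unfold inn; infer_instance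

theorem inn_anti {m : ℕ} {l : ℤ} {r : ℕ} (h : inn (m + 1) l r) : inn m l r := by
  unfold inn at *
  have hp : (0 : ℤ) < 2 ^ m := by positivity
  have h2 : (2 : ℤ) ^ (m + 1) = 2 * 2 ^ m := by rw [pow_succ]; ring
  rw [h2] at h
  have : 0 ≤ |l| * 2 ^ m := by positivity
  nlinarith

theorem sum_near_le (r : ℕ) (l : ℤ) (M : ℕ) :
    ∑ m ∈ range M, (if near m l r then (1 : ℝ) else 0) ≤ nu r l := by
  rw [← sum_filter, sum_const, nsmul_eq_mul, mul_one]
  unfold nu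
  have : ((range M).filter (fun m => near m l r)) ⊆ ((range (r + 1)).filter (fun m => near m l r)) := by
    intro m hm
    rw [mem_filter] at hm ⊢
    exact ⟨mem_range.mpr (near_le hm.2), hm.2⟩
  exact_mod_cast card_le_card this

theorem sum_near_succ_le (r : ℕ) (l : ℤ) (M : ℕ) :
    ∑ m ∈ range M, (if near (m + 1) l r then (1 : ℝ) else 0) ≤ nu r l := by
  have h := sum_near_le r l (M + 1)
  rw [sum_range_succ'] at h
  have : (0 : ℝ) ≤ if near 0 l r then (1 : ℝ) else 0 := by split_ifs <;> norm_num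
  linarith

theorem sum_inn_le (r : ℕ) (l : ℤ) (M : ℕ) :
    ∑ m ∈ range M, ((if inn m l r then (1 : ℝ) else 0) - (if inn (m + 1) l r then 1 else 0)) ≤ 1 := by
  rw [sum_range_sub' (fun m => if inn m l r then (1 : ℝ) else 0)]
  have h1 : (if inn 0 l r then (1 : ℝ) else 0) ≤ 1 := by split_ifs <;> norm_num
  have h2 : (0 : ℝ) ≤ (if inn M l r then (1 : ℝ) else 0) := by split_ifs <;> norm_num
  linarith

theorem var_far_aux {m : ℕ} {l : ℤ} {r : ℕ} (h20 : 20 ≤ |l|) :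
    |ee (stepK r) (m + 1) l - ee (stepK r) m l| ≤ 46 / (1 + |(l : ℝ)|) ^ 2 * (1 / 2) ^ m +
      20 / (1 + |(l : ℝ)|) ^ 2 *
        ((if inn m l r then (1 : ℝ) else 0) - (if inn (m + 1) l r then 1 else 0)) +
      4 / (1 + |(l : ℝ)|) * ((if near m l r then (1 : ℝ) else 0) +
        (if near (m + 1) l r then (1 : ℝ) else 0)) := by
  have hp : 0 < 1 + |(l : ℝ)| := by positivity
  have n1 : 0 ≤ 46 / (1 + |(l : ℝ)|) ^ 2 * (1 / 2) ^ m := by positivity
  have n2 : 0 ≤ 20 / (1 + |(l : ℝ)|) ^ 2 *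
        ((if inn m l r then (1 : ℝ) else 0) - (if inn (m + 1) l r then 1 else 0)) := by
    apply mul_nonneg (by positivity)
    by_cases h : inn (m + 1) l r
    · rw [if_pos h, if_pos (inn_anti h)]; norm_num
    · rw [if_neg h]; split_ifs <;> norm_num
  have n3 : 0 ≤ 4 / (1 + |(l : ℝ)|) := by positivity
  by_cases hnear : near m l r ∨ near (m + 1) l r
  · have h1 : (1 : ℝ) ≤ (if near m l r then (1 : ℝ) else 0) +
        (if near (m + 1) l r then (1 : ℝ) else 0) := by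
      rcases hnear with h | h
      · rw [if_pos h]; split_ifs <;> norm_num
      · rw [if_pos h]; split_ifs <;> norm_num
    have h2 : |ee (stepK r) (m + 1) l - ee (stepK r) m l| ≤ 4 / (1 + |(l : ℝ)|) := by
      refine le_trans (abs_sub _ _) ?_
      have a1 := ee_crude_far (stepK_abs_le r) (m := m + 1) h20
      have a2 := ee_crude_far (stepK_abs_le r) (m := m) h20
      have : 4 / (1 + |(l : ℝ)|) = 2 / (1 + |(l : ℝ)|) + 2 / (1 + |(l : ℝ)|) := by ring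
      rw [this]
      exact add_le_add a1 a2
    have h3 : 4 / (1 + |(l : ℝ)|) * 1 ≤ 4 / (1 + |(l : ℝ)|) *
        ((if near m l r then (1 : ℝ) else 0) + (if near (m + 1) l r then (1 : ℝ) else 0)) :=
      mul_le_mul_of_nonneg_left h1 n3
    linarith
  · push Not at hnear
    have n4 : 0 ≤ 4 / (1 + |(l : ℝ)|) * ((if near m l r then (1 : ℝ) else 0) +
        (if near (m + 1) l r then (1 : ℝ) else 0)) := by
      rw [if_neg hnear.1, if_neg hnear.2]; simp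
    have cls : ∀ k, ¬ near k l r → inn k l r ∨ (r : ℤ) < |l| * 2 ^ k - 10 * 2 ^ k := by
      intro k hk
      have h1 : ¬ |(r : ℤ) - |l| * 2 ^ k| ≤ 10 * 2 ^ k := fun h => hk ⟨h20, h⟩
      rw [abs_le, not_and_or, not_le, not_le] at h1
      unfold inn
      rcases h1 with h1 | h1
      · right; linarith
      · left; linarith
    rcases cls m hnear.1 with hm | hm
    · rcases cls (m + 1) hnear.2 with hm1 | hm1
      · have := ee_inf_scale_far (m := m) h20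
        rw [ee_step_eq_inf hm, ee_step_eq_inf hm1]
        linarith
      · have hn : ¬ inn (m + 1) l r := by
          intro h
          unfold inn at h
          have hp : (0 : ℤ) < 2 ^ (m + 1) := by positivity
          linarith
        rw [ee_step_eq_inf hm, ee_step_zero h20 hm1, if_pos hm, if_neg hn, zero_sub, abs_neg] 
        have := ee_inf_far (m := m) h20
        rw [sub_zero, mul_one]
        linarith
    · have hm1 : (r : ℤ) < |l| * 2 ^ (m + 1) - 10 * 2 ^ (m + 1) := by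
        have hp : (0 : ℤ) < 2 ^ m := by positivity
        have h2 : (2 : ℤ) ^ (m + 1) = 2 * 2 ^ m := by rw [pow_succ]; ring
        rw [h2]
        nlinarith
      rw [ee_step_zero h20 hm, ee_step_zero h20 hm1, sub_zero, abs_zero]
      linarith

theorem var_far {r : ℕ} {l : ℤ} (h20 : 20 ≤ |l|) (M : ℕ) :
    ∑ m ∈ range M, |ee (stepK r) (m + 1) l - ee (stepK r) m l| ≤
      112 / (1 + |(l : ℝ)|) * (1 / (1 + |(l : ℝ)|) + nu r l) := by
  refine le_trans (sum_le_sum fun m _ => var_far_aux h20) ?_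
  rw [sum_add_distrib, sum_add_distrib, ← mul_sum, ← mul_sum, ← mul_sum, sum_add_distrib]
  have hp : 0 < 1 + |(l : ℝ)| := by positivity
  have a1 : 46 / (1 + |(l : ℝ)|) ^ 2 * ∑ m ∈ range M, (1 / 2 : ℝ) ^ m ≤
      46 / (1 + |(l : ℝ)|) ^ 2 * 2 := mul_le_mul_of_nonneg_left (geom12 M) (by positivity)
  have a2 := mul_le_mul_of_nonneg_left (sum_inn_le r l M)
    (by positivity : 0 ≤ 20 / (1 + |(l : ℝ)|) ^ 2)
  have a3 := mul_le_mul_of_nonneg_left (add_le_add (sum_near_le r l M) (sum_near_succ_le r l M))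
    (by positivity : 0 ≤ 4 / (1 + |(l : ℝ)|))
  refine le_trans (add_le_add (add_le_add a1 a2) a3) ?_
  have hn : (0 : ℝ) ≤ nu r l := Nat.cast_nonneg _
  have e : 112 / (1 + |(l : ℝ)|) * (1 / (1 + |(l : ℝ)|) + nu r l) -
      (46 / (1 + |(l : ℝ)|) ^ 2 * 2 + 20 / (1 + |(l : ℝ)|) ^ 2 * 1 +
        4 / (1 + |(l : ℝ)|) * ((nu r l : ℝ) + nu r l)) = 104 / (1 + |(l : ℝ)|) * nu r l := by
    field_simp
    ring
  have : 0 ≤ 104 / (1 + |(l : ℝ)|) * nu r l := by positivity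
  linarith

/-- variation in `m` of the step coefficient -/
theorem ee_step_var' : ∃ C : ℝ, 0 ≤ C ∧ ∀ (r : ℕ) (l : ℤ) (M : ℕ),
    ∑ m ∈ range M, |ee (stepK r) (m + 1) l - ee (stepK r) m l| ≤
      C / (1 + |(l : ℝ)|) * (1 / (1 + |(l : ℝ)|) + nu r l) := by
  refine ⟨403200, by norm_num, ?_⟩
  intro r l M
  have hp : 0 < 1 + |(l : ℝ)| := by positivity
  have hn : (0 : ℝ) ≤ nu r l := Nat.cast_nonneg _
  by_cases hl : |l| < 20
  · refine le_trans (step_var_near r M hl) ?_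
    have h1 := abs_l_lt hl
    calc (1008 : ℝ) ≤ 403200 / (1 + |(l : ℝ)|) * (1 / (1 + |(l : ℝ)|)) := by
          rw [div_mul_div_comm, mul_one, le_div_iff₀ (by positivity)]
          nlinarith
      _ ≤ _ := by
          apply mul_le_mul_of_nonneg_left _ (by positivity)
          linarith
  · refine le_trans (var_far (by omega) M) ?_
    apply mul_le_mul_of_nonneg_right _ (by positivity)
    apply div_le_div_of_nonneg_right _ hp.le
    norm_num

end Crest.Agent.R072.Kernel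
end

-- ▼ part R072/KENu
section

/-! R072: weighted count of near scales. -/

set_option autoImplicit false

namespace Crest.Agent.R072.Kernel

open Finset Filter Topology Crest.Agent.R072

theorem near_scale {m : ℕ} {l : ℤ} {r : ℕ} (h : near m l r) :
    m ≤ Nat.log 2 (r / 10) ∧ (2 : ℤ) ^ (Nat.log 2 (r / 10) - m) ≤ |l| := by
  have h1 := near_pow_le h
  have h2 : 2 ^ m ≤ r / 10 := by
    rw [Nat.le_div_iff_mul_le (by norm_num)]
    linarith
  have hm : m ≤ Nat.log 2 (r / 10) := Nat.le_log_of_pow_le (by norm_num) h2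
  refine ⟨hm, ?_⟩
  have h3 : r / 10 ≠ 0 := by
    have : 0 < 2 ^ m := by positivity
    omega
  have h4 : 2 ^ (Nat.log 2 (r / 10)) ≤ r / 10 := Nat.pow_log_le_self 2 h3
  have h5 : 10 * 2 ^ (Nat.log 2 (r / 10)) ≤ r := by
    have := Nat.div_mul_le_self r 10
    omega
  have h6 : 2 ^ (Nat.log 2 (r / 10)) = 2 ^ (Nat.log 2 (r / 10) - m) * 2 ^ m := by
    rw [← pow_add, Nat.sub_add_cancel hm]
  have h7 : (10 : ℤ) * (2 ^ (Nat.log 2 (r / 10) - m) * 2 ^ m) ≤ r := by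
    rw [h6] at h5
    exact_mod_cast h5
  obtain ⟨g1, g2⟩ := h
  have g3 := (abs_le.mp g2).2
  have hp : (0 : ℤ) < 2 ^ m := by positivity
  have h8 : (10 * 2 ^ (Nat.log 2 (r / 10) - m)) * (2 : ℤ) ^ m ≤ (|l| + 10) * 2 ^ m := by
    linarith
  have h9 := le_of_mul_le_mul_right h8 hp
  have h10 : (0 : ℤ) < 2 ^ (Nat.log 2 (r / 10) - m) := by positivity
  linarith

theorem near_window {m : ℕ} {l : ℤ} {r : ℕ} (h : near m l r) :
    l ∈ Icc (((r / 2 ^ m : ℕ) : ℤ) - 10) (((r / 2 ^ m : ℕ) : ℤ) + 10) ∪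
      Icc (-(((r / 2 ^ m : ℕ) : ℤ) + 10)) (-(((r / 2 ^ m : ℕ) : ℤ) - 10)) := by
  obtain ⟨_, g2⟩ := h
  have hp : (0 : ℤ) < 2 ^ m := by positivity
  have g3 := (abs_le.mp g2).2
  have g4 := (abs_le.mp g2).1
  have d1 : ((r / 2 ^ m : ℕ) : ℤ) * 2 ^ m ≤ r := by
    exact_mod_cast Nat.div_mul_le_self r (2 ^ m)
  have d2 : (r : ℤ) < (((r / 2 ^ m : ℕ) : ℤ) + 1) * 2 ^ m := by
    have h3 : r < (r / 2 ^ m + 1) * 2 ^ m := by
      have := Nat.lt_div_mul_add (a := r) (b := 2 ^ m) (by positivity)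
      linarith
    exact_mod_cast h3
  have u : |l| ≤ ((r / 2 ^ m : ℕ) : ℤ) + 10 := by
    have : |l| * 2 ^ m < (((r / 2 ^ m : ℕ) : ℤ) + 11) * 2 ^ m := by linarith
    have := lt_of_mul_lt_mul_right this hp.le
    omega
  have v : ((r / 2 ^ m : ℕ) : ℤ) - 10 ≤ |l| := by
    have : (((r / 2 ^ m : ℕ) : ℤ) - 10) * 2 ^ m ≤ |l| * 2 ^ m := by linarith
    exact le_of_mul_le_mul_right this hp
  rw [mem_union, mem_Icc, mem_Icc]
  rcases abs_cases l with ⟨h1, _⟩ | ⟨h1, _⟩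
  · left; constructor <;> linarith
  · right; constructor <;> linarith

theorem card_window (c : ℤ) :
    (Icc (c - 10) (c + 10) ∪ Icc (-(c + 10)) (-(c - 10))).card ≤ 42 := by
  refine le_trans (card_union_le _ _) ?_
  rw [Int.card_Icc, Int.card_Icc]
  omega

theorem nu_sum' : ∃ C : ℝ, 0 ≤ C ∧ ∀ (r : ℕ) (Λ : ℕ),
    ∑ l ∈ Icc (-(Λ : ℤ)) Λ, (1 + |(l : ℝ)|) ^ (-(1 / 4) : ℝ) * nu r l ≤ C := by
  set q : ℝ := (2 : ℝ) ^ (-(1 / 4) : ℝ) with hq
  have hq0 : 0 < q := Real.rpow_pos_of_pos (by norm_num) _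
  have hq1 : q < 1 := Real.rpow_lt_one_of_one_lt_of_neg (by norm_num) (by norm_num)
  refine ⟨42 * (1 - q)⁻¹, by have : 0 < 1 - q := by linarith
                             positivity, ?_⟩
  intro r Λ
  set K := Nat.log 2 (r / 10) with hK
  have step : ∀ (l : ℤ) (m : ℕ), (1 + |(l : ℝ)|) ^ (-(1 / 4) : ℝ) *
      (if near m l r then (1 : ℝ) else 0) ≤ (if m ≤ K then q ^ (K - m) else 0) *
      (if l ∈ Icc (((r / 2 ^ m : ℕ) : ℤ) - 10) (((r / 2 ^ m : ℕ) : ℤ) + 10) ∪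
      Icc (-(((r / 2 ^ m : ℕ) : ℤ) + 10)) (-(((r / 2 ^ m : ℕ) : ℤ) - 10)) then 1 else 0) := by
    intro l m
    by_cases h : near m l r
    · obtain ⟨h1, h2⟩ := near_scale h
      rw [if_pos h, if_pos h1, if_pos (near_window h), mul_one, mul_one]
      have h3 : ((2 : ℝ) ^ (K - m)) ≤ 1 + |(l : ℝ)| := by
        have : ((2 ^ (K - m) : ℤ) : ℝ) ≤ ((|l| : ℤ) : ℝ) := by exact_mod_cast h2
        push_cast at this
        linarith
      rw [hq, Real.rpow_pow_comm (by norm_num)]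
      exact Real.rpow_le_rpow_of_nonpos (by positivity) h3 (by norm_num)
    · rw [if_neg h, mul_zero]
      apply mul_nonneg
      · split_ifs
        · positivity
        · exact le_refl _
      · split_ifs <;> norm_num
  have e : ∀ l : ℤ, (1 + |(l : ℝ)|) ^ (-(1 / 4) : ℝ) * nu r l =
      ∑ m ∈ range (r + 1), (1 + |(l : ℝ)|) ^ (-(1 / 4) : ℝ) *
        (if near m l r then (1 : ℝ) else 0) := by
    intro l
    rw [← mul_sum, ← sum_filter, sum_const, nsmul_eq_mul, mul_one]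
    rfl
  rw [sum_congr rfl fun l _ => e l, sum_comm]
  calc _ ≤ ∑ m ∈ range (r + 1), 42 * (if m ≤ K then q ^ (K - m) else 0) := by
        refine sum_le_sum fun m _ => ?_
        refine le_trans (sum_le_sum fun l _ => step l m) ?_
        rw [← mul_sum, mul_comm]
        apply mul_le_mul_of_nonneg_right
        · rw [← sum_filter, sum_const, nsmul_eq_mul, mul_one]
          have h1 : ((Icc (-(Λ : ℤ)) Λ).filter (fun l => l ∈
              Icc (((r / 2 ^ m : ℕ) : ℤ) - 10) (((r / 2 ^ m : ℕ) : ℤ) + 10) ∪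
              Icc (-(((r / 2 ^ m : ℕ) : ℤ) + 10)) (-(((r / 2 ^ m : ℕ) : ℤ) - 10)))).card ≤ 42 := by
            refine le_trans (card_le_card ?_) (card_window ((r / 2 ^ m : ℕ) : ℤ))
            intro x hx
            exact (mem_filter.mp hx).2
          exact_mod_cast h1
        · split_ifs
          · positivity
          · exact le_refl _
    _ = 42 * ∑ m ∈ (range (r + 1)).filter (fun m => m ≤ K), q ^ (K - m) := by
        rw [← mul_sum, sum_filter]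
    _ ≤ 42 * ∑ m ∈ range (K + 1), q ^ (K - m) := by
        apply mul_le_mul_of_nonneg_left _ (by norm_num)
        apply sum_le_sum_of_subset_of_nonneg
        · intro m hm
          rw [mem_filter] at hm
          exact mem_range.mpr (by omega)
        · intro m _ _
          positivity
    _ = 42 * ∑ m ∈ range (K + 1), q ^ m := by
        congr 1
        rw [← sum_range_reflect (fun m => q ^ m) (K + 1)]
        refine sum_congr rfl fun m _ => ?_
        congr 1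
    _ ≤ 42 * (1 - q)⁻¹ := by
        apply mul_le_mul_of_nonneg_left _ (by norm_num)
        rw [← tsum_geometric_of_lt_one hq0.le hq1]
        exact (summable_geometric_of_lt_one hq0.le hq1).sum_le_tsum _ (fun i _ => by positivity)

end Crest.Agent.R072.Kernel
end

-- ▼ part R072/KernelEst
section

/-! R072: kernel coefficient estimates (blueprint part 2, "Kernel").
Definitions of `near`, `nu`, `near_le`: `KEDefs`; `ee_step_zero`, `ee_step_const`, `ee_step_inf`,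
`ee_crude`: `KEBasic`; reduction of the kernel theorem: `KEMain`. -/

set_option autoImplicit false

namespace Crest.Agent.R072.Kernel

open Finset Filter Topology Crest.Agent.R072

/-- variation in `m` of the step coefficient -/
theorem ee_step_var : ∃ C : ℝ, 0 ≤ C ∧ ∀ (r : ℕ) (l : ℤ) (M : ℕ),
    ∑ m ∈ range M, |ee (stepK r) (m + 1) l - ee (stepK r) m l| ≤
      C / (1 + |(l : ℝ)|) * (1 / (1 + |(l : ℝ)|) + nu r l) :=
  ee_step_var'

theorem nu_sum : ∃ C : ℝ, 0 ≤ C ∧ ∀ (r : ℕ) (Λ : ℕ),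
    ∑ l ∈ Icc (-(Λ : ℤ)) Λ, (1 + |(l : ℝ)|) ^ (-(1 / 4) : ℝ) * nu r l ≤ C :=
  nu_sum'

/-- **Kernel theorem.** -/
theorem kernel_main : ∃ C : ℝ, 0 ≤ C ∧ ∀ (n : ℕ) (σ : Fin n → ℝ) (A B : Fin n → ℕ), 1 ≤ n →
    (∀ j, |σ j| ≤ 1) → (∀ j, A j ≤ B j) → (∀ i j, i ≠ j → B i ≤ A j ∨ B j ≤ A i) →
    ∀ Λ : ℕ, (∀ j, B j + 10 ≤ Λ) →
    ∃ (e : ℕ → ℤ → ℝ) (ν : ℤ → ℝ), (∀ l, 0 ≤ ν l) ∧
      (∀ m l, |e m l| ≤ C / (1 + |(l : ℝ)|) * (1 / (1 + |(l : ℝ)|) + min 1 (ν l))) ∧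
      (∀ M l, ∑ m ∈ range M, |e (m + 1) l - e m l| ≤
        C / (1 + |(l : ℝ)|) * (n / (1 + |(l : ℝ)|) + ν l)) ∧
      (∑ l ∈ Icc (-(Λ : ℤ)) Λ, (1 + |(l : ℝ)|) ^ (-(1 / 4) : ℝ) * ν l ≤ C * n) ∧
      (∀ T : ℤ → ℝ, (∃ B', ∀ s, |T s| ≤ B') →
        Tendsto (fun M : ℕ => ∑ m ∈ range M, ∑ l ∈ Icc (-(Λ : ℤ)) Λ, e m l * psiT (2 ^ m) T l)
          atTop (𝓝 (∑ j, σ j * ∑ s ∈ Ioc (A j) (B j), (T s - T (-(s : ℤ))) / (s : ℝ)))) :=
  kernel_main_of ee_step_var nu_sum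

end Crest.Agent.R072.Kernel
end

-- ▼ part R072/AsmA
section

/-! R072: assembly, part A: pairing of boxes with the kernel function. -/

set_option autoImplicit false

namespace Crest.Agent.R072.Assembly

open Finset Filter Topology Crest.Agent.R072 Crest.Agent.R072.Lattice Crest.Agent.R072.Jump
  Crest.Agent.R072.Kernel

lemma swap3 {α β γ : Type*} [Fintype α] [Fintype β] [Fintype γ] (f : α → β → γ → ℝ) :
    ∑ a, ∑ b, ∑ c, f a b c = ∑ c, ∑ a, ∑ b, f a b c := by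
  rw [show (∑ a, ∑ b, ∑ c, f a b c) = ∑ a, ∑ c, ∑ b, f a b c from
    Finset.sum_congr rfl fun a _ => Finset.sum_comm]
  exact Finset.sum_comm

lemma swap5 {α β γ δ ε : Type*} [Fintype α] [Fintype β] [Fintype γ] [Fintype δ] [Fintype ε]
    (f : α → β → γ → δ → ε → ℝ) :
    ∑ a, ∑ b, ∑ c, ∑ d, ∑ e, f a b c d e = ∑ c, ∑ d, ∑ e, ∑ a, ∑ b, f a b c d e := by
  rw [swap3 (fun a b c => ∑ d, ∑ e, f a b c d e)]
  refine Finset.sum_congr rfl fun c _ => ?_
  rw [swap3 (fun a b d => ∑ e, f a b c d e)]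
  refine Finset.sum_congr rfl fun d _ => ?_
  exact swap3 _

/-- pairing of all boxes with the kernel function `psiT` -/
theorem sum_Lbox {Q : ℕ} [NeZero Q] (F0 F1 F2 : ZMod Q → ZMod Q → ℝ) {N : ℕ} (hN : 0 < N) (l : ℤ) :
    ∑ p0 : ZMod Q, ∑ p1 : ZMod Q, Lbox F0 F1 F2 N p0 p1 ((l : ZMod Q) * (N : ZMod Q) - p0 - p1) =
      (1 / 8) * ∑ x0 : ZMod Q, ∑ x1 : ZMod Q, F0 x0 x1 *
        psiT N (fun s : ℤ => F1 x1 ((s : ZMod Q) - x0 - x1) * F2 ((s : ZMod Q) - x0 - x1) x0) l := by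
  have hN' : (N : ℝ) ≠ 0 := by positivity
  set G : ZMod Q → ZMod Q → ZMod Q → ℝ := fun a b c => ∑ x0 : ZMod Q, ∑ x1 : ZMod Q, F0 x0 x1 *
     (F1 x1 ((l : ZMod Q) * N + a + b + c - x0 - x1) *
      F2 ((l : ZMod Q) * N + a + b + c - x0 - x1) x0) with hG
  have key : ∀ a b c : ZMod Q, ∑ p0 : ZMod Q, ∑ p1 : ZMod Q,
      (F0 (p0 + a) (p1 + b) * F1 (p1 + b) ((l : ZMod Q) * (N : ZMod Q) - p0 - p1 + c) *
        F2 ((l : ZMod Q) * (N : ZMod Q) - p0 - p1 + c) (p0 + a)) = G a b c := by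
    intro a b c
    simp only [hG]
    symm
    rw [← Equiv.sum_comp (Equiv.addRight a)]
    refine Finset.sum_congr rfl fun p0 _ => ?_
    rw [← Equiv.sum_comp (Equiv.addRight b)]
    refine Finset.sum_congr rfl fun p1 _ => ?_
    simp only [Equiv.coe_addRight]
    have e : (l : ZMod Q) * N + a + b + c - (p0 + a) - (p1 + b)
      = (l : ZMod Q) * (N : ZMod Q) - p0 - p1 + c := by ring
    rw [e]; ring
  have hL : ∑ p0 : ZMod Q, ∑ p1 : ZMod Q,
      Lbox F0 F1 F2 N p0 p1 ((l : ZMod Q) * (N : ZMod Q) - p0 - p1) =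
      (1 / ((N : ℝ) + N) ^ 3) * ∑ i0 : Fin (N + N), ∑ i1 : Fin (N + N), ∑ i2 : Fin (N + N),
        hsgn N i0 * hsgn N i1 * hsgn N i2 * G ((i0 : ℕ) : ZMod Q) ((i1 : ℕ) : ZMod Q)
          ((i2 : ℕ) : ZMod Q) := by
    simp only [Lbox]
    simp_rw [← Finset.mul_sum]
    rw [swap5]
    congr 1
    refine Finset.sum_congr rfl fun i0 _ => Finset.sum_congr rfl fun i1 _ =>
      Finset.sum_congr rfl fun i2 _ => ?_
    rw [← key]
    simp_rw [Finset.mul_sum]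
  have hR : (1 / 8) * ∑ x0 : ZMod Q, ∑ x1 : ZMod Q, F0 x0 x1 *
        psiT N (fun s : ℤ => F1 x1 ((s : ZMod Q) - x0 - x1) * F2 ((s : ZMod Q) - x0 - x1) x0) l
      = (1 / 8) * ((1 / (N : ℝ) ^ 3) * ∑ i0 : Fin (N + N), ∑ i1 : Fin (N + N), ∑ i2 : Fin (N + N),
        hsgn N i0 * hsgn N i1 * hsgn N i2 * G ((i0 : ℕ) : ZMod Q) ((i1 : ℕ) : ZMod Q)
          ((i2 : ℕ) : ZMod Q)) := by
    congr 1
    simp only [psiT, hG, Finset.mul_sum]
    rw [swap5]
    refine Finset.sum_congr rfl fun i0 _ => Finset.sum_congr rfl fun i1 _ =>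
      Finset.sum_congr rfl fun i2 _ => Finset.sum_congr rfl fun x0 _ =>
      Finset.sum_congr rfl fun x1 _ => ?_
    push_cast
    ring
  rw [hL, hR]
  field_simp
  ring

end Crest.Agent.R072.Assembly
end

-- ▼ part R072/AsmB
section

/-! R072: assembly, part B: summation by parts `NJ`. -/

set_option autoImplicit false

namespace Crest.Agent.R072.Assembly

open Finset Filter Topology Crest.Agent.R072 Crest.Agent.R072.Lattice Crest.Agent.R072.Jump
  Crest.Agent.R072.Kernel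

lemma tele1 (f : ℕ → ℕ → ℝ) (J : ℕ → ℝ) (κ M : ℕ) (h : ∀ m k, f (m + 1) k ≤ f m k + J m) :
    ∑ m ∈ range M, (f m (m + κ) - f m (m + κ + 1)) ≤
      f 0 κ - f M (M + κ) + ∑ m ∈ range M, J m := by
  induction M with
  | zero => simp
  | succ M ih =>
    rw [Finset.sum_range_succ, Finset.sum_range_succ]
    have h1 := h M (M + κ + 1)
    have e : M + 1 + κ = M + κ + 1 := by ring
    rw [e]
    linarith

lemma tele2 (f : ℕ → ℕ → ℝ) (J : ℕ → ℝ) (κ M : ℕ) (h : ∀ m k, f (m + 1) k ≤ f m k + J m)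
    (h0 : ∀ m k, 0 ≤ f m k) (hd : ∀ m k, f m (k + 1) ≤ f m k) :
    ∑ m ∈ range M, (f m m - f m (m + κ)) ≤ κ * (f 0 0 + ∑ m ∈ range M, J m) := by
  have hdec : ∀ k, f 0 k ≤ f 0 0 := by
    intro k
    induction k with
    | zero => exact le_rfl
    | succ k ih => exact (hd 0 k).trans ih
  induction κ with
  | zero => simp
  | succ κ ih =>
    have e : ∑ m ∈ range M, (f m m - f m (m + (κ + 1))) =
        ∑ m ∈ range M, (f m m - f m (m + κ)) +
          ∑ m ∈ range M, (f m (m + κ) - f m (m + κ + 1)) := by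
      rw [← Finset.sum_add_distrib]
      refine Finset.sum_congr rfl fun m _ => ?_
      rw [← add_assoc]; ring
    rw [e]
    have h1 := tele1 f J κ M h
    have h2 := h0 M (M + κ)
    have h3 := hdec κ
    push_cast
    linarith

lemma EW_pow_succ {Q : ℕ} [NeZero Q] (X : ZMod Q → ZMod Q → ℝ) (k : ℕ) :
    EW X (2 ^ (k + 1)) (2 ^ (k + 1)) ≤ EW X (2 ^ k) (2 ^ k) := by
  have h : (2 : ℕ) ^ (k + 1) = 2 ^ k + 2 ^ k := by ring
  have hp : 0 < (2 : ℕ) ^ k := by positivity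
  rw [h]
  exact (EW_double_a X hp (by omega)).trans (EW_double_r X hp hp)

lemma EW_pow_zero {Q : ℕ} [NeZero Q] (X : ZMod Q → ZMod Q → ℝ) :
    EW X (2 ^ 0) (2 ^ 0) = ∑ x : ZMod Q, ∑ y : ZMod Q, |X x y| ^ 3 := by
  rw [pow_zero, EW_one]

lemma Vref_zero_le {Q : ℕ} [NeZero Q] (X Z : ZMod Q → ZMod Q → ℝ) :
    Vref X Z (2 ^ 0) ≤ Real.sqrt 2 * (∑ x : ZMod Q, ∑ y : ZMod Q, |X x y| ^ 3 +
      ∑ x : ZMod Q, ∑ y : ZMod Q, |Z x y| ^ 3) := by
  unfold Vref
  have h1 := W_le X Z (2 ^ 0) (2 ^ 0) (-(2 * (((2 : ℕ) ^ 0 : ℕ) : ZMod Q)))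
  have h2 := W_le X Z (2 ^ 0) (2 ^ 0) (-((((2 : ℕ) ^ 0 : ℕ) : ZMod Q)))
  rw [EW_pow_zero, EW_pow_zero] at h1 h2
  refine (mul_le_mul_of_nonneg_left (add_le_add h1 h2) (by norm_num : (0 : ℝ) ≤ 1 / 2)).trans
    (le_of_eq (by ring))

lemma Vref_nonneg {Q : ℕ} [NeZero Q] (X Z : ZMod Q → ZMod Q → ℝ) (N : ℕ) : 0 ≤ Vref X Z N := by
  unfold Vref
  have h1 := W_nonneg X Z N N (-(2 * (N : ZMod Q)))
  have h2 := W_nonneg X Z N N (-(N : ZMod Q))
  linarith

lemma sum_transpose {Q : ℕ} [NeZero Q] (F : ZMod Q → ZMod Q → ℝ) :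
    ∑ x : ZMod Q, ∑ y : ZMod Q, |F y x| ^ 3 = ∑ x : ZMod Q, ∑ y : ZMod Q, |F x y| ^ 3 :=
  Finset.sum_comm

/-- summed potential estimate for one vertex, both functions may change with `m` -/
lemma vertex_sum {Q : ℕ} [NeZero Q] (X Z : ℕ → ZMod Q → ZMod Q → ℝ) (J : ℕ → ℝ) (a b : ℝ)
    (hJ : ∀ m, 0 ≤ J m)
    (hV : ∀ m N : ℕ, 0 < N → Vref (X (m + 1)) (Z (m + 1)) N - Vref (X m) (Z m) N ≤ J m)
    (hE : ∀ m N : ℕ, 0 < N → EE (X (m + 1)) (Z (m + 1)) N - EE (X m) (Z m) N ≤ J m)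
    (ha : ∑ x : ZMod Q, ∑ y : ZMod Q, |X 0 x y| ^ 3 = a)
    (hb : ∑ x : ZMod Q, ∑ y : ZMod Q, |Z 0 x y| ^ 3 = b)
    (l : ℤ) (κ : ℕ) (hκ : 2 * |l| + 10 ≤ 2 ^ κ) (M : ℕ) :
    ∑ m ∈ range M, (1 / 2) * GW (X m) (Z m) (2 ^ m + 2 ^ m) (2 ^ m)
        ((l : ZMod Q) * ((2 ^ m : ℕ) : ZMod Q)) ≤
      (3 + 32 * κ) * (a + b + ∑ m ∈ range M, J m) := by
  have h1 : ∀ m ∈ range M, (1 / 2) * GW (X m) (Z m) (2 ^ m + 2 ^ m) (2 ^ m)
        ((l : ZMod Q) * ((2 ^ m : ℕ) : ZMod Q)) ≤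
      2 * (Vref (X m) (Z m) (2 ^ m) - Vref (X m) (Z m) (2 ^ (m + 1))) +
        32 * (EE (X m) (Z m) (2 ^ m) - EE (X m) (Z m) (2 ^ (m + κ))) :=
    fun m _ => gap_pot (X m) (Z m) m κ l hκ
  refine (Finset.sum_le_sum h1).trans ?_
  rw [Finset.sum_add_distrib, ← Finset.mul_sum, ← Finset.mul_sum]
  have hpow : ∀ k : ℕ, 0 < (2 : ℕ) ^ k := fun k => by positivity
  have t1 := tele1 (fun m k => Vref (X m) (Z m) (2 ^ k)) J 0 M (fun m k => by
    have := hV m (2 ^ k) (hpow k); linarith)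
  simp only [add_zero] at t1
  have t2 := tele2 (fun m k => EE (X m) (Z m) (2 ^ k)) J κ M (fun m k => by
    have := hE m (2 ^ k) (hpow k); linarith) (fun m k => by
      unfold EE
      have := EW_nonneg (X m) (2 ^ k) (2 ^ k)
      have := EW_nonneg (Z m) (2 ^ k) (2 ^ k)
      linarith) (fun m k => by
      unfold EE
      have := EW_pow_succ (X m) k
      have := EW_pow_succ (Z m) k
      linarith)
  have v0 := Vref_nonneg (X M) (Z M) (2 ^ M)
  have v1 := Vref_zero_le (X 0) (Z 0)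
  rw [ha, hb] at v1
  have e0 : EE (X 0) (Z 0) (2 ^ 0) = a + b := by
    unfold EE
    rw [EW_pow_zero, EW_pow_zero, ha, hb]
  simp only [e0] at t2
  have ha0 : 0 ≤ a := by rw [← ha]; positivity
  have hb0 : 0 ≤ b := by rw [← hb]; positivity
  have hs : 0 ≤ ∑ m ∈ range M, J m := Finset.sum_nonneg fun m _ => hJ m
  have hsq : Real.sqrt 2 ≤ 3 / 2 := by
    rw [Real.sqrt_le_left (by norm_num)]; norm_num
  have v2 : Real.sqrt 2 * (a + b) ≤ 3 / 2 * (a + b) :=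
    mul_le_mul_of_nonneg_right hsq (by linarith)
  nlinarith

/-- (NJ) summation by parts: scale-dependent first function. `cst` is the cost factor and `D` the
cost density as produced by `Jump.exists_D`. -/
theorem NJ {Q : ℕ} [NeZero Q] (X : ℕ → ZMod Q → ZMod Q → ℝ) (F1 F2 D : ZMod Q → ZMod Q → ℝ)
    (cst : ℝ) (hcst : 0 ≤ cst) (hD : ∀ x y, 0 ≤ D x y)
    (h1 : ∀ m N : ℕ, 0 < N → Vref (X (m + 1)) (fun x y => F1 y x) N -
      Vref (X m) (fun x y => F1 y x) N ≤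
        cst * ∑ x : ZMod Q, ∑ y : ZMod Q, |X (m + 1) x y - X m x y| * D x y)
    (h2 : ∀ m N : ℕ, 0 < N → Vref F2 (fun x y => X (m + 1) y x) N -
      Vref F2 (fun x y => X m y x) N ≤
        cst * ∑ x : ZMod Q, ∑ y : ZMod Q, |X (m + 1) x y - X m x y| * D x y)
    (h3 : ∀ m N : ℕ, 0 < N → EW (X (m + 1)) N N - EW (X m) N N ≤
        cst * ∑ x : ZMod Q, ∑ y : ZMod Q, |X (m + 1) x y - X m x y| * D x y)
    (h4 : ∀ m N : ℕ, 0 < N → EW (fun x y => X (m + 1) y x) N N - EW (fun x y => X m y x) N N ≤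
        cst * ∑ x : ZMod Q, ∑ y : ZMod Q, |X (m + 1) x y - X m x y| * D x y)
    (l : ℤ) (κ : ℕ) (hκ : 2 * |l| + 10 ≤ 2 ^ κ) (M : ℕ) :
    ∑ m ∈ range M, ∑ p0 : ZMod Q, ∑ p1 : ZMod Q,
      |Lbox (X m) F1 F2 (2 ^ m) p0 p1 ((l : ZMod Q) * ((2 ^ m : ℕ) : ZMod Q) - p0 - p1)| ≤
      300 * (1 + κ) * (∑ x : ZMod Q, ∑ y : ZMod Q, |X 0 x y| ^ 3 +
        ∑ x : ZMod Q, ∑ y : ZMod Q, |F1 x y| ^ 3 + ∑ x : ZMod Q, ∑ y : ZMod Q, |F2 x y| ^ 3 +
        cst * ∑ m ∈ range M, ∑ x : ZMod Q, ∑ y : ZMod Q, |X (m + 1) x y - X m x y| * D x y) := by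
  set J : ℕ → ℝ := fun m => cst * ∑ x : ZMod Q, ∑ y : ZMod Q, |X (m + 1) x y - X m x y| * D x y
    with hJdef
  have hJ : ∀ m, 0 ≤ J m := fun m => mul_nonneg hcst
    (Finset.sum_nonneg fun x _ => Finset.sum_nonneg fun y _ => mul_nonneg (abs_nonneg _) (hD x y))
  set a := ∑ x : ZMod Q, ∑ y : ZMod Q, |X 0 x y| ^ 3 with ha
  set b := ∑ x : ZMod Q, ∑ y : ZMod Q, |F1 x y| ^ 3 with hb
  set c := ∑ x : ZMod Q, ∑ y : ZMod Q, |F2 x y| ^ 3 with hc
  rw [Finset.mul_sum]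
  change _ ≤ 300 * (1 + (κ : ℝ)) * (a + b + c + ∑ m ∈ range M, J m)
  have v1 := vertex_sum X (fun _ x y => F1 y x) J a b hJ h1 (fun m N hN => by
    have := h3 m N hN; unfold EE; linarith) rfl (sum_transpose F1) l κ hκ M
  have v2 := vertex_sum (fun _ => F1) (fun _ x y => F2 y x) (fun _ => 0) b c (fun _ => le_rfl)
    (fun m N hN => by simp) (fun m N hN => by simp) rfl (sum_transpose F2) l κ hκ M
  have v3 := vertex_sum (fun _ => F2) (fun m x y => X m y x) J c a hJ h2 (fun m N hN => by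
    have := h4 m N hN; unfold EE; linarith) rfl (sum_transpose (X 0)) l κ hκ M
  simp only [Finset.sum_const_zero, add_zero] at v2
  have hle : ∀ m ∈ range M, ∑ p0 : ZMod Q, ∑ p1 : ZMod Q,
      |Lbox (X m) F1 F2 (2 ^ m) p0 p1 ((l : ZMod Q) * ((2 ^ m : ℕ) : ZMod Q) - p0 - p1)| ≤
      Real.pi *
        ((1 / 2) * GW (X m) (fun x y => F1 y x) (2 ^ m + 2 ^ m) (2 ^ m)
            ((l : ZMod Q) * ((2 ^ m : ℕ) : ZMod Q)) +
          (1 / 2) * GW F1 (fun x y => F2 y x) (2 ^ m + 2 ^ m) (2 ^ m)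
            ((l : ZMod Q) * ((2 ^ m : ℕ) : ZMod Q)) +
          (1 / 2) * GW F2 (fun x y => X m y x) (2 ^ m + 2 ^ m) (2 ^ m)
            ((l : ZMod Q) * ((2 ^ m : ℕ) : ZMod Q))) := by
    intro m _
    have hp : 0 < (2 : ℕ) ^ m := by positivity
    have hLb := Lbox_le (X m) F1 F2 hp ((l : ZMod Q) * ((2 ^ m : ℕ) : ZMod Q))
    refine hLb.trans (le_of_eq ?_)
    ring
  refine (Finset.sum_le_sum hle).trans ?_
  rw [← Finset.mul_sum, Finset.sum_add_distrib, Finset.sum_add_distrib]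
  have ha0 : 0 ≤ a := by rw [ha]; positivity
  have hb0 : 0 ≤ b := by rw [hb]; positivity
  have hc0 : 0 ≤ c := by rw [hc]; positivity
  have hs : 0 ≤ ∑ m ∈ range M, J m := Finset.sum_nonneg fun m _ => hJ m
  set SJ := ∑ m ∈ range M, J m
  have hκ0 : (0 : ℝ) ≤ κ := Nat.cast_nonneg κ
  have hpi : Real.pi ≤ 3.2 := by
    have := Real.pi_lt_d2; linarith
  have hpi0 : 0 ≤ Real.pi := Real.pi_pos.le
  have tot : ∑ m ∈ range M, (1 / 2) * GW (X m) (fun x y => F1 y x) (2 ^ m + 2 ^ m) (2 ^ m)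
            ((l : ZMod Q) * ((2 ^ m : ℕ) : ZMod Q)) +
      ∑ m ∈ range M, (1 / 2) * GW F1 (fun x y => F2 y x) (2 ^ m + 2 ^ m) (2 ^ m)
            ((l : ZMod Q) * ((2 ^ m : ℕ) : ZMod Q)) +
      ∑ m ∈ range M, (1 / 2) * GW F2 (fun x y => X m y x) (2 ^ m + 2 ^ m) (2 ^ m)
            ((l : ZMod Q) * ((2 ^ m : ℕ) : ZMod Q)) ≤ 2 * (3 + 32 * κ) * (a + b + c + SJ) := by
    nlinarith
  have hT : 0 ≤ 2 * (3 + 32 * (κ : ℝ)) * (a + b + c + SJ) := by positivity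
  calc _ ≤ Real.pi * (2 * (3 + 32 * κ) * (a + b + c + SJ)) :=
        mul_le_mul_of_nonneg_left tot hpi0
    _ ≤ 3.2 * (2 * (3 + 32 * κ) * (a + b + c + SJ)) := mul_le_mul_of_nonneg_right hpi hT
    _ ≤ 300 * (1 + κ) * (a + b + c + SJ) := by
        have hS : 0 ≤ a + b + c + SJ := by positivity
        have : 3.2 * (2 * (3 + 32 * (κ : ℝ))) ≤ 300 * (1 + κ) := by nlinarith
        calc _ = (3.2 * (2 * (3 + 32 * (κ : ℝ)))) * (a + b + c + SJ) := by ring
          _ ≤ _ := mul_le_mul_of_nonneg_right this hS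

end Crest.Agent.R072.Assembly
end

-- ▼ part R072/AsmC
section

/-! R072: assembly, part C: bound for one position `l`, real-number bookkeeping. -/

set_option autoImplicit false

namespace Crest.Agent.R072.Assembly

open Finset Filter Topology Crest.Agent.R072 Crest.Agent.R072.Lattice Crest.Agent.R072.Jump
  Crest.Agent.R072.Kernel

/-- the function paired with the kernel -/
def TT {Q : ℕ} (F1 F2 : ZMod Q → ZMod Q → ℝ) (x0 x1 : ZMod Q) (s : ℤ) : ℝ :=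
  F1 x1 ((s : ZMod Q) - x0 - x1) * F2 ((s : ZMod Q) - x0 - x1) x0

lemma cube_aux {w t ν : ℝ} (hw : 0 ≤ w) (hν : 0 ≤ ν) (h0 : 0 ≤ t) (ht : t ≤ (w + min 1 ν) / 2) :
    t ^ 3 ≤ w ^ 3 + ν := by
  have hm0 : 0 ≤ min 1 ν := le_min zero_le_one hν
  have hm1 : min 1 ν ≤ 1 := min_le_left _ _
  have hmν : min 1 ν ≤ ν := min_le_right _ _
  set r := min 1 ν
  have h1 : t ^ 3 ≤ ((w + r) / 2) ^ 3 := pow_le_pow_left₀ h0 ht 3
  have h2 : ((w + r) / 2) ^ 3 ≤ (w ^ 3 + r ^ 3) / 2 := by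
    nlinarith [mul_nonneg (add_nonneg hw hm0) (sq_nonneg (w - r))]
  have h3 : r ^ 3 ≤ r := by
    have : r ^ 2 ≤ 1 := by nlinarith
    calc r ^ 3 = r * r ^ 2 := by ring
      _ ≤ r * 1 := mul_le_mul_of_nonneg_left this hm0
      _ = r := mul_one r
  have h4 : 0 ≤ w ^ 3 := by positivity
  linarith

lemma level_bound {Q : ℕ} [NeZero Q] (H F1 F2 D : ZMod Q → ZMod Q → ℝ)
    (hH : ∑ x : ZMod Q, ∑ y : ZMod Q, |H x y| ^ 3 ≤ 1)
    (hF1 : ∑ x : ZMod Q, ∑ y : ZMod Q, |F1 x y| ^ 3 ≤ 1)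
    (hF2 : ∑ x : ZMod Q, ∑ y : ZMod Q, |F2 x y| ^ 3 ≤ 1)
    (hD0 : ∀ x y, 0 ≤ D x y)
    (hcost : ∀ (τ : ℝ), 0 ≤ τ → ∀ (X X' : ZMod Q → ZMod Q → ℝ),
        (∀ x y, |X x y| ≤ τ * |H x y|) → (∀ x y, |X' x y| ≤ τ * |H x y|) → ∀ N : ℕ, 0 < N →
          (Vref X (fun x y => F1 y x) N - Vref X' (fun x y => F1 y x) N ≤
            τ * (1 + τ) * ∑ x : ZMod Q, ∑ y : ZMod Q, |X x y - X' x y| * D x y) ∧
          (Vref F2 (fun x y => X y x) N - Vref F2 (fun x y => X' y x) N ≤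
            τ * (1 + τ) * ∑ x : ZMod Q, ∑ y : ZMod Q, |X x y - X' x y| * D x y) ∧
          (EW X N N - EW X' N N ≤
            τ * (1 + τ) * ∑ x : ZMod Q, ∑ y : ZMod Q, |X x y - X' x y| * D x y) ∧
          (EW (fun x y => X y x) N N - EW (fun x y => X' y x) N N ≤
            τ * (1 + τ) * ∑ x : ZMod Q, ∑ y : ZMod Q, |X x y - X' x y| * D x y))
    (g : ZMod Q → ZMod Q → ℕ → ℝ) (ν : ZMod Q → ZMod Q → ℝ) (w nn : ℝ) (hw : 0 ≤ w) (hw1 : w ≤ 1)
    (hν : ∀ x y, 0 ≤ ν x y)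
    (hg : ∀ x y m, |g x y m| ≤ (w + min 1 (ν x y)) / 2)
    (hvar : ∀ x y M, ∑ m ∈ range M, |g x y (m + 1) - g x y m| ≤ nn * w + ν x y)
    (τ : ℝ) (hτ : 0 < τ) (l : ℤ) (κ : ℕ) (hκ : 2 * |l| + 10 ≤ 2 ^ κ) (M : ℕ) :
    |∑ m ∈ range M, ∑ x0 : ZMod Q, ∑ x1 : ZMod Q,
      H x0 x1 * (g x0 x1 m * psiT (2 ^ m) (TT F1 F2 x0 x1) l)| ≤
      2400 * (1 + κ) / τ * (τ ^ 3 * (w ^ 3 + ∑ x : ZMod Q, ∑ y : ZMod Q, ν x y * |H x y| ^ 3) + 2 +
        τ ^ 2 * (1 + τ) * (nn * w * ∑ x : ZMod Q, ∑ y : ZMod Q, |H x y| * D x y +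
          ∑ x : ZMod Q, ∑ y : ZMod Q, ν x y * (|H x y| * D x y))) := by
  set X : ℕ → ZMod Q → ZMod Q → ℝ := fun m x y => τ * g x y m * H x y with hX
  have hg1 : ∀ x y m, |g x y m| ≤ 1 := by
    intro x y m
    have h1 := hg x y m
    have h2 : min 1 (ν x y) ≤ 1 := min_le_left _ _
    linarith
  have hXle : ∀ m x y, |X m x y| ≤ τ * |H x y| := by
    intro m x y
    simp only [hX]
    rw [abs_mul, abs_mul, abs_of_pos hτ]
    have h1 := hg1 x y m
    have h2 : τ * |g x y m| ≤ τ * 1 := mul_le_mul_of_nonneg_left h1 hτ.le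
    rw [mul_one] at h2
    exact mul_le_mul_of_nonneg_right h2 (abs_nonneg _)
  have hc := fun m N hN => hcost τ hτ.le (X (m + 1)) (X m) (hXle (m + 1)) (hXle m) N hN
  have hcst : 0 ≤ τ * (1 + τ) := by positivity
  have hNJ := NJ X F1 F2 D (τ * (1 + τ)) hcst hD0 (fun m N hN => (hc m N hN).1)
    (fun m N hN => (hc m N hN).2.1) (fun m N hN => (hc m N hN).2.2.1)
    (fun m N hN => (hc m N hN).2.2.2) l κ hκ M
  -- the pairing
  have hpair : ∑ m ∈ range M, ∑ x0 : ZMod Q, ∑ x1 : ZMod Q,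
      H x0 x1 * (g x0 x1 m * psiT (2 ^ m) (TT F1 F2 x0 x1) l) =
      (8 / τ) * ∑ m ∈ range M, ∑ p0 : ZMod Q, ∑ p1 : ZMod Q,
        Lbox (X m) F1 F2 (2 ^ m) p0 p1 ((l : ZMod Q) * ((2 ^ m : ℕ) : ZMod Q) - p0 - p1) := by
    rw [Finset.mul_sum]
    refine Finset.sum_congr rfl fun m _ => ?_
    rw [sum_Lbox (X m) F1 F2 (by positivity : 0 < (2 : ℕ) ^ m) l]
    rw [← mul_assoc, Finset.mul_sum]
    refine Finset.sum_congr rfl fun x0 _ => ?_
    rw [Finset.mul_sum]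
    refine Finset.sum_congr rfl fun x1 _ => ?_
    have e : (TT F1 F2 x0 x1) = (fun s : ℤ => F1 x1 ((s : ZMod Q) - x0 - x1) *
      F2 ((s : ZMod Q) - x0 - x1) x0) := rfl
    rw [e]
    simp only [hX]
    field_simp
  have habs : |∑ m ∈ range M, ∑ x0 : ZMod Q, ∑ x1 : ZMod Q,
      H x0 x1 * (g x0 x1 m * psiT (2 ^ m) (TT F1 F2 x0 x1) l)| ≤
      (8 / τ) * ∑ m ∈ range M, ∑ p0 : ZMod Q, ∑ p1 : ZMod Q,
        |Lbox (X m) F1 F2 (2 ^ m) p0 p1 ((l : ZMod Q) * ((2 ^ m : ℕ) : ZMod Q) - p0 - p1)| := by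
    rw [hpair, abs_mul, abs_of_pos (by positivity : 0 < 8 / τ)]
    refine mul_le_mul_of_nonneg_left ?_ (by positivity)
    refine (Finset.abs_sum_le_sum_abs _ _).trans (Finset.sum_le_sum fun m _ => ?_)
    refine (Finset.abs_sum_le_sum_abs _ _).trans (Finset.sum_le_sum fun p0 _ => ?_)
    exact Finset.abs_sum_le_sum_abs _ _
  -- cube of X 0
  have hX0 : ∑ x : ZMod Q, ∑ y : ZMod Q, |X 0 x y| ^ 3 ≤
      τ ^ 3 * (w ^ 3 + ∑ x : ZMod Q, ∑ y : ZMod Q, ν x y * |H x y| ^ 3) := by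
    have h1 : ∀ x y, |X 0 x y| ^ 3 ≤ τ ^ 3 * (w ^ 3 * |H x y| ^ 3 + ν x y * |H x y| ^ 3) := by
      intro x y
      simp only [hX]
      rw [abs_mul, abs_mul, abs_of_pos hτ, mul_pow, mul_pow]
      have h2 := cube_aux hw (hν x y) (abs_nonneg _) (hg x y 0)
      have h3 : 0 ≤ |H x y| ^ 3 := by positivity
      calc τ ^ 3 * |g x y 0| ^ 3 * |H x y| ^ 3 = τ ^ 3 * (|g x y 0| ^ 3 * |H x y| ^ 3) := by ring
        _ ≤ τ ^ 3 * ((w ^ 3 + ν x y) * |H x y| ^ 3) := by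
            refine mul_le_mul_of_nonneg_left (mul_le_mul_of_nonneg_right h2 h3) (by positivity)
        _ = _ := by ring
    calc _ ≤ ∑ x : ZMod Q, ∑ y : ZMod Q,
          τ ^ 3 * (w ^ 3 * |H x y| ^ 3 + ν x y * |H x y| ^ 3) :=
          Finset.sum_le_sum fun x _ => Finset.sum_le_sum fun y _ => h1 x y
      _ = τ ^ 3 * (w ^ 3 * ∑ x : ZMod Q, ∑ y : ZMod Q, |H x y| ^ 3 +
          ∑ x : ZMod Q, ∑ y : ZMod Q, ν x y * |H x y| ^ 3) := by
          simp only [Finset.mul_sum, ← Finset.sum_add_distrib]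
      _ ≤ _ := by
          refine mul_le_mul_of_nonneg_left ?_ (by positivity)
          have : w ^ 3 * ∑ x : ZMod Q, ∑ y : ZMod Q, |H x y| ^ 3 ≤ w ^ 3 * 1 :=
            mul_le_mul_of_nonneg_left hH (by positivity)
          linarith
  -- variation
  have hV : ∑ m ∈ range M, ∑ x : ZMod Q, ∑ y : ZMod Q, |X (m + 1) x y - X m x y| * D x y ≤
      τ * (nn * w * ∑ x : ZMod Q, ∑ y : ZMod Q, |H x y| * D x y +
          ∑ x : ZMod Q, ∑ y : ZMod Q, ν x y * (|H x y| * D x y)) := by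
    have e1 : ∀ m x y, |X (m + 1) x y - X m x y| * D x y =
        τ * (|H x y| * D x y) * |g x y (m + 1) - g x y m| := by
      intro m x y
      simp only [hX]
      have : τ * g x y (m + 1) * H x y - τ * g x y m * H x y =
        τ * ((g x y (m + 1) - g x y m) * H x y) := by ring
      rw [this, abs_mul, abs_mul, abs_of_pos hτ]; ring
    have e2 : ∑ m ∈ range M, ∑ x : ZMod Q, ∑ y : ZMod Q, |X (m + 1) x y - X m x y| * D x y =
        ∑ x : ZMod Q, ∑ y : ZMod Q, τ * (|H x y| * D x y) *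
          ∑ m ∈ range M, |g x y (m + 1) - g x y m| := by
      rw [Finset.sum_comm]
      refine Finset.sum_congr rfl fun x _ => ?_
      rw [Finset.sum_comm]
      refine Finset.sum_congr rfl fun y _ => ?_
      rw [Finset.mul_sum]
      exact Finset.sum_congr rfl fun m _ => e1 m x y
    rw [e2]
    calc _ ≤ ∑ x : ZMod Q, ∑ y : ZMod Q, τ * (|H x y| * D x y) * (nn * w + ν x y) := by
          refine Finset.sum_le_sum fun x _ => Finset.sum_le_sum fun y _ => ?_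
          exact mul_le_mul_of_nonneg_left (hvar x y M)
            (mul_nonneg hτ.le (mul_nonneg (abs_nonneg _) (hD0 x y)))
      _ = _ := by
          simp only [Finset.mul_sum, ← Finset.sum_add_distrib]
          refine Finset.sum_congr rfl fun x _ => Finset.sum_congr rfl fun y _ => ?_
          ring
  refine habs.trans ?_
  have hbr : (∑ x : ZMod Q, ∑ y : ZMod Q, |X 0 x y| ^ 3 +
        ∑ x : ZMod Q, ∑ y : ZMod Q, |F1 x y| ^ 3 + ∑ x : ZMod Q, ∑ y : ZMod Q, |F2 x y| ^ 3 +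
        τ * (1 + τ) * ∑ m ∈ range M, ∑ x : ZMod Q, ∑ y : ZMod Q,
          |X (m + 1) x y - X m x y| * D x y) ≤
      τ ^ 3 * (w ^ 3 + ∑ x : ZMod Q, ∑ y : ZMod Q, ν x y * |H x y| ^ 3) + 2 +
        τ ^ 2 * (1 + τ) * (nn * w * ∑ x : ZMod Q, ∑ y : ZMod Q, |H x y| * D x y +
          ∑ x : ZMod Q, ∑ y : ZMod Q, ν x y * (|H x y| * D x y)) := by
    have h5 := mul_le_mul_of_nonneg_left hV hcst
    have h6 : τ * (1 + τ) * (τ * (nn * w * ∑ x : ZMod Q, ∑ y : ZMod Q, |H x y| * D x y +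
          ∑ x : ZMod Q, ∑ y : ZMod Q, ν x y * (|H x y| * D x y))) =
        τ ^ 2 * (1 + τ) * (nn * w * ∑ x : ZMod Q, ∑ y : ZMod Q, |H x y| * D x y +
          ∑ x : ZMod Q, ∑ y : ZMod Q, ν x y * (|H x y| * D x y)) := by ring
    rw [h6] at h5
    linarith
  have hk0 : (0 : ℝ) ≤ 300 * (1 + κ) := by positivity
  calc _ ≤ (8 / τ) * (300 * (1 + κ) * (∑ x : ZMod Q, ∑ y : ZMod Q, |X 0 x y| ^ 3 +
        ∑ x : ZMod Q, ∑ y : ZMod Q, |F1 x y| ^ 3 + ∑ x : ZMod Q, ∑ y : ZMod Q, |F2 x y| ^ 3 +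
        τ * (1 + τ) * ∑ m ∈ range M, ∑ x : ZMod Q, ∑ y : ZMod Q,
          |X (m + 1) x y - X m x y| * D x y)) :=
        mul_le_mul_of_nonneg_left hNJ (by positivity)
    _ ≤ (8 / τ) * (300 * (1 + κ) * (τ ^ 3 * (w ^ 3 + ∑ x : ZMod Q, ∑ y : ZMod Q,
          ν x y * |H x y| ^ 3) + 2 +
        τ ^ 2 * (1 + τ) * (nn * w * ∑ x : ZMod Q, ∑ y : ZMod Q, |H x y| * D x y +
          ∑ x : ZMod Q, ∑ y : ZMod Q, ν x y * (|H x y| * D x y)))) :=
        mul_le_mul_of_nonneg_left (mul_le_mul_of_nonneg_left hbr hk0) (by positivity)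
    _ = _ := by ring

/-- bookkeeping with `lam = u^8`, `τ = u²/s`, `s = √n` -/
lemma final_real {u s S N1 N2 k K : ℝ} (hu : 1 ≤ u) (hs : 1 ≤ s) (hS : 0 ≤ S) (hN1 : 0 ≤ N1)
    (hN2 : 0 ≤ N2) (hk0 : 0 ≤ K) (hk : k ≤ K * u) :
    (1 / u ^ 8) * (2400 * k / (u ^ 2 / s) * ((u ^ 2 / s) ^ 3 * ((1 / u ^ 8) ^ 3 + N1) + 2 +
      (u ^ 2 / s) ^ 2 * (1 + u ^ 2 / s) * (s ^ 2 * (1 / u ^ 8) * S + N2))) ≤
      2400 * K * ((3 + 2 * S) * s * (1 / u) ^ 9 + (1 / u) ^ 2 * N1 / s ^ 2 +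
        2 * (1 / u) ^ 2 * N2 / s) := by
  have hu0 : 0 < u := by linarith
  have hs0 : 0 < s := by linarith
  set p := 1 / u with hp
  set q := 1 / s with hq
  have hp0 : 0 < p := by positivity
  have hq0 : 0 < q := by positivity
  have hp1 : p ≤ 1 := by rw [hp, div_le_one hu0]; exact hu
  have hq1 : q ≤ 1 := by rw [hq, div_le_one hs0]; exact hs
  have hup : u * p = 1 := by rw [hp]; field_simp
  have hsq : s * q = 1 := by rw [hq]; field_simp
  have e1 : (1 / u ^ 8) * (2400 * k / (u ^ 2 / s) * ((u ^ 2 / s) ^ 3 * ((1 / u ^ 8) ^ 3 + N1) + 2 +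
      (u ^ 2 / s) ^ 2 * (1 + u ^ 2 / s) * (s ^ 2 * (1 / u ^ 8) * S + N2))) =
      2400 * (k * p) * (q ^ 2 * p ^ 27 + q ^ 2 * p ^ 3 * N1 + 2 * s * p ^ 9 + s * p ^ 13 * S +
        p ^ 11 * S + q * p ^ 5 * N2 + q ^ 2 * p ^ 3 * N2) := by
    rw [hp, hq]
    field_simp
    ring
  rw [e1]
  have hkp : k * p ≤ K := by
    calc k * p ≤ K * u * p := mul_le_mul_of_nonneg_right hk hp0.le
      _ = K := by rw [mul_assoc, hup, mul_one]
  have hbr0 : 0 ≤ (q ^ 2 * p ^ 27 + q ^ 2 * p ^ 3 * N1 + 2 * s * p ^ 9 + s * p ^ 13 * S +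
        p ^ 11 * S + q * p ^ 5 * N2 + q ^ 2 * p ^ 3 * N2) := by positivity
  have hpow : ∀ a b : ℕ, a ≤ b → p ^ b ≤ p ^ a := fun a b h => pow_le_pow_of_le_one hp0.le hp1 h
  have t1 : q ^ 2 * p ^ 27 ≤ s * p ^ 9 := by
    have h1 : q ^ 2 ≤ s := by nlinarith
    exact mul_le_mul h1 (hpow 9 27 (by norm_num)) (by positivity) hs0.le
  have t2 : q ^ 2 * p ^ 3 * N1 ≤ q ^ 2 * p ^ 2 * N1 :=
    mul_le_mul_of_nonneg_right (mul_le_mul_of_nonneg_left (hpow 2 3 (by norm_num))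
      (by positivity)) hN1
  have t3 : s * p ^ 13 * S ≤ s * p ^ 9 * S :=
    mul_le_mul_of_nonneg_right (mul_le_mul_of_nonneg_left (hpow 9 13 (by norm_num)) hs0.le) hS
  have t4 : p ^ 11 * S ≤ s * p ^ 9 * S := by
    refine mul_le_mul_of_nonneg_right ?_ hS
    calc p ^ 11 ≤ p ^ 9 := hpow 9 11 (by norm_num)
      _ = 1 * p ^ 9 := (one_mul _).symm
      _ ≤ s * p ^ 9 := mul_le_mul_of_nonneg_right hs (by positivity)
  have t5 : q * p ^ 5 * N2 ≤ q * p ^ 2 * N2 :=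
    mul_le_mul_of_nonneg_right (mul_le_mul_of_nonneg_left (hpow 2 5 (by norm_num)) hq0.le) hN2
  have t6 : q ^ 2 * p ^ 3 * N2 ≤ q * p ^ 2 * N2 := by
    refine mul_le_mul_of_nonneg_right ?_ hN2
    have h1 : q ^ 2 ≤ q := by nlinarith
    exact mul_le_mul h1 (hpow 2 3 (by norm_num)) (by positivity) hq0.le
  have hfin : (q ^ 2 * p ^ 27 + q ^ 2 * p ^ 3 * N1 + 2 * s * p ^ 9 + s * p ^ 13 * S +
        p ^ 11 * S + q * p ^ 5 * N2 + q ^ 2 * p ^ 3 * N2) ≤
      (3 + 2 * S) * s * p ^ 9 + q ^ 2 * p ^ 2 * N1 + 2 * (q * p ^ 2 * N2) := by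
    nlinarith
  have hRHS : 2400 * K * ((3 + 2 * S) * s * p ^ 9 + p ^ 2 * N1 / s ^ 2 + 2 * p ^ 2 * N2 / s) =
      2400 * K * ((3 + 2 * S) * s * p ^ 9 + q ^ 2 * p ^ 2 * N1 + 2 * (q * p ^ 2 * N2)) := by
    rw [hq]; field_simp
  rw [hRHS]
  calc _ ≤ 2400 * K * (q ^ 2 * p ^ 27 + q ^ 2 * p ^ 3 * N1 + 2 * s * p ^ 9 + s * p ^ 13 * S +
        p ^ 11 * S + q * p ^ 5 * N2 + q ^ 2 * p ^ 3 * N2) :=
          mul_le_mul_of_nonneg_right (by linarith) hbr0
      _ ≤ _ := mul_le_mul_of_nonneg_left hfin (by positivity)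

end Crest.Agent.R072.Assembly
end

-- ▼ part R072/AsmD
section

/-! R072: assembly, part D: lattice theorem on `ZMod Q`. -/

set_option autoImplicit false

namespace Crest.Agent.R072.Assembly

open Finset Filter Topology Crest.Agent.R072 Crest.Agent.R072.Lattice Crest.Agent.R072.Jump
  Crest.Agent.R072.Kernel

/-- `κ` with `2|l|+10 ≤ 2^κ` and `1 + κ ≤ 40 (1+|l|)^{1/8}` -/
lemma exists_kappa (l : ℤ) : ∃ κ : ℕ, 2 * |l| + 10 ≤ 2 ^ κ ∧
    (1 : ℝ) + κ ≤ 40 * (1 + |(l : ℝ)|) ^ (1 / 8 : ℝ) := by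
  set a : ℕ := 2 * l.natAbs + 10 with ha
  set j : ℕ := Nat.log 2 a with hj
  refine ⟨j + 1, ?_, ?_⟩
  · have h1 : a < 2 ^ (j + 1) := Nat.lt_pow_succ_log_self (by norm_num) a
    have h2 : (2 * |l| + 10 : ℤ) = (a : ℤ) := by
      rw [ha]; push_cast; simp
    rw [h2]
    exact_mod_cast h1.le
  · have h1 : 2 ^ j ≤ a := Nat.pow_log_le_self 2 (by omega)
    have hl1 : (1 : ℝ) ≤ 1 + |(l : ℝ)| := by have := abs_nonneg (l : ℝ); linarith
    have h2 : ((2 : ℝ) ^ j) ≤ 10 * (1 + |(l : ℝ)|) := by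
      have h3 : ((2 : ℝ) ^ j) ≤ (a : ℝ) := by exact_mod_cast h1
      have h4 : (a : ℝ) = 2 * |(l : ℝ)| + 10 := by
        rw [ha]; push_cast; simp
      rw [h4] at h3
      have := abs_nonneg (l : ℝ)
      linarith
    have h5 : (j : ℝ) * Real.log 2 ≤ Real.log (10 * (1 + |(l : ℝ)|)) := by
      rw [← Real.log_pow]
      exact Real.log_le_log (by positivity) h2
    have h6 : Real.log (10 * (1 + |(l : ℝ)|)) ≤
        (10 * (1 + |(l : ℝ)|)) ^ (1 / 8 : ℝ) / (1 / 8) :=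
      Real.log_le_rpow_div (by positivity) (by norm_num)
    have h7 : (10 * (1 + |(l : ℝ)|)) ^ (1 / 8 : ℝ) ≤ 2 * (1 + |(l : ℝ)|) ^ (1 / 8 : ℝ) := by
      rw [Real.mul_rpow (by norm_num) (by positivity)]
      refine mul_le_mul_of_nonneg_right ?_ (by positivity)
      have h8 : ((10 : ℝ)) ^ (1 / 8 : ℝ) ≤ ((2 : ℝ) ^ (8 : ℝ)) ^ (1 / 8 : ℝ) := by
        refine Real.rpow_le_rpow (by norm_num) ?_ (by norm_num)
        norm_num
      refine h8.trans ?_
      rw [← Real.rpow_mul (by norm_num)]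
      norm_num
    have h9 : (1 : ℝ) ≤ (1 + |(l : ℝ)|) ^ (1 / 8 : ℝ) := Real.one_le_rpow hl1 (by norm_num)
    have hlog : (1 / 2 : ℝ) ≤ Real.log 2 := by
      have := Real.log_two_gt_d9; linarith
    have hj0 : (0 : ℝ) ≤ j := Nat.cast_nonneg j
    push_cast
    nlinarith

lemma exists_CZ : ∃ C : ℝ, 0 ≤ C ∧ ∀ Λ : ℕ,
    ∑ l ∈ Icc (-(Λ : ℤ)) Λ, (1 / (1 + |(l : ℝ)|) ^ (1 / 8 : ℝ)) ^ 9 ≤ C := by
  have hnat : Summable (fun n : ℕ => ((1 + (n : ℝ)) ^ (-(9 / 8) : ℝ))) := by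
    have h1 : Summable (fun n : ℕ => ((n : ℝ)) ^ (-(9 / 8) : ℝ)) :=
      Real.summable_nat_rpow.mpr (by norm_num)
    have h2 := (summable_nat_add_iff 1).mpr h1
    refine h2.congr fun n => ?_
    push_cast
    rw [add_comm]
  have hint : Summable (fun l : ℤ => ((1 + |(l : ℝ)|) ^ (-(9 / 8) : ℝ))) := by
    refine Summable.of_nat_of_neg ?_ ?_
    · refine hnat.congr fun n => ?_
      simp
    · refine hnat.congr fun n => ?_
      simp
  refine ⟨∑' l : ℤ, ((1 + |(l : ℝ)|) ^ (-(9 / 8) : ℝ)), tsum_nonneg fun l => by positivity,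
    fun Λ => ?_⟩
  have hnn : ∀ l ∉ Icc (-(Λ : ℤ)) Λ, 0 ≤ ((1 + |(l : ℝ)|) ^ (-(9 / 8) : ℝ)) :=
    fun l _ => by positivity
  refine le_trans (le_of_eq ?_) (hint.sum_le_tsum _ hnn)
  refine Finset.sum_congr rfl fun l _ => ?_
  have hl : (0 : ℝ) < 1 + |(l : ℝ)| := by positivity
  rw [one_div, inv_pow, ← Real.rpow_natCast, ← Real.rpow_mul hl.le, ← Real.rpow_neg hl.le]
  norm_num

lemma swap4 {α β γ δ : Type*} [Fintype α] [Fintype β] (s : Finset γ) (t : Finset δ)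
    (f : α → β → γ → δ → ℝ) :
    ∑ a, ∑ b, ∑ m ∈ s, ∑ l ∈ t, f a b m l = ∑ l ∈ t, ∑ m ∈ s, ∑ a, ∑ b, f a b m l := by
  calc ∑ a, ∑ b, ∑ m ∈ s, ∑ l ∈ t, f a b m l = ∑ a, ∑ b, ∑ l ∈ t, ∑ m ∈ s, f a b m l :=
        Finset.sum_congr rfl fun a _ => Finset.sum_congr rfl fun b _ => Finset.sum_comm
    _ = ∑ a, ∑ l ∈ t, ∑ b, ∑ m ∈ s, f a b m l :=
        Finset.sum_congr rfl fun a _ => Finset.sum_comm
    _ = ∑ l ∈ t, ∑ a, ∑ b, ∑ m ∈ s, f a b m l := Finset.sum_comm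
    _ = ∑ l ∈ t, ∑ a, ∑ m ∈ s, ∑ b, f a b m l :=
        Finset.sum_congr rfl fun l _ => Finset.sum_congr rfl fun a _ => Finset.sum_comm
    _ = ∑ l ∈ t, ∑ m ∈ s, ∑ a, ∑ b, f a b m l :=
        Finset.sum_congr rfl fun l _ => Finset.sum_comm

lemma TT_bdd {Q : ℕ} [NeZero Q] (F1 F2 : ZMod Q → ZMod Q → ℝ) (x0 x1 : ZMod Q) :
    ∃ B' : ℝ, ∀ s, |TT F1 F2 x0 x1 s| ≤ B' := by
  refine ⟨(∑ x : ZMod Q, ∑ y : ZMod Q, |F1 x y|) * (∑ x : ZMod Q, ∑ y : ZMod Q, |F2 x y|),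
    fun s => ?_⟩
  have h : ∀ (F : ZMod Q → ZMod Q → ℝ) (a b : ZMod Q), |F a b| ≤
      ∑ x : ZMod Q, ∑ y : ZMod Q, |F x y| := by
    intro F a b
    refine (Finset.single_le_sum (f := fun y => |F a y|) (fun y _ => abs_nonneg _)
      (Finset.mem_univ b)).trans ?_
    exact Finset.single_le_sum (f := fun x => ∑ y, |F x y|)
      (fun x _ => Finset.sum_nonneg fun y _ => abs_nonneg _) (Finset.mem_univ a)
  unfold TT
  rw [abs_mul]
  exact mul_le_mul (h _ _ _) (h _ _ _) (abs_nonneg _)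
    (Finset.sum_nonneg fun x _ => Finset.sum_nonneg fun y _ => abs_nonneg _)

/-- normalised lattice theorem -/
theorem zmod_norm : ∃ C : ℝ, 0 ≤ C ∧ ∀ (Q : ℕ) [NeZero Q] (n : ℕ), 1 ≤ n →
    ∀ (H F1 F2 : ZMod Q → ZMod Q → ℝ) (σ : ZMod Q → ZMod Q → Fin n → ℝ)
      (A B : ZMod Q → ZMod Q → Fin n → ℕ),
      (∀ x y j, |σ x y j| ≤ 1) → (∀ x y j, A x y j ≤ B x y j) →
      (∀ x y i j, i ≠ j → B x y i ≤ A x y j ∨ B x y j ≤ A x y i) →
      ∑ x : ZMod Q, ∑ y : ZMod Q, |H x y| ^ 3 ≤ 1 →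
      ∑ x : ZMod Q, ∑ y : ZMod Q, |F1 x y| ^ 3 ≤ 1 →
      ∑ x : ZMod Q, ∑ y : ZMod Q, |F2 x y| ^ 3 ≤ 1 →
      |∑ x0 : ZMod Q, ∑ x1 : ZMod Q, H x0 x1 * ∑ j, σ x0 x1 j *
        ∑ s ∈ Ioc (A x0 x1 j) (B x0 x1 j),
          (TT F1 F2 x0 x1 s - TT F1 F2 x0 x1 (-(s : ℤ))) / (s : ℝ)| ≤ C * Real.sqrt n := by
  obtain ⟨CK, hCK0, hK⟩ := kernel_main
  obtain ⟨CD, hCD0, hDex⟩ := exists_D
  obtain ⟨CZ, hCZ0, hCZ⟩ := exists_CZ
  set c : ℝ := 1 / (2 * (CK + 1)) with hc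
  have hc0 : 0 < c := by positivity
  set S0 : ℝ := 1 + CD with hS0
  have hS00 : 0 ≤ S0 := by positivity
  refine ⟨(1 / c) * (2400 * 40 * ((3 + 2 * S0) * CZ + CK + 2 * CK * S0)), by positivity, ?_⟩
  intro Q _ n hn H F1 F2 σ A B hσ hAB hdisj hH hF1 hF2
  obtain ⟨D, hD0, hDsum, hcost⟩ := hDex Q H F1 F2 hH hF1 hF2
  set Λ : ℕ := (∑ x : ZMod Q, ∑ y : ZMod Q, ∑ j, B x y j) + 10 with hΛ
  have hΛB : ∀ x y j, B x y j + 10 ≤ Λ := by
    intro x y j
    have h1 : B x y j ≤ ∑ j, B x y j :=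
      Finset.single_le_sum (f := fun j => B x y j) (fun j _ => Nat.zero_le _) (Finset.mem_univ j)
    have h2 : ∑ j, B x y j ≤ ∑ y : ZMod Q, ∑ j, B x y j :=
      Finset.single_le_sum (f := fun y => ∑ j, B x y j) (fun j _ => Nat.zero_le _)
        (Finset.mem_univ y)
    have h3 : ∑ y : ZMod Q, ∑ j, B x y j ≤ ∑ x : ZMod Q, ∑ y : ZMod Q, ∑ j, B x y j :=
      Finset.single_le_sum (f := fun x => ∑ y : ZMod Q, ∑ j, B x y j) (fun j _ => Nat.zero_le _)
        (Finset.mem_univ x)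
    omega
  choose e ν hν0 he hvar hsum hlim using fun x y => hK n (σ x y) (A x y) (B x y) hn (hσ x y)
    (hAB x y) (hdisj x y) Λ (hΛB x y)
  set s : ℝ := Real.sqrt n with hs
  have hn1 : (1 : ℝ) ≤ n := by exact_mod_cast hn
  have hs1 : 1 ≤ s := by
    rw [hs]; exact Real.one_le_sqrt.mpr hn1
  have hs2 : s ^ 2 = n := by rw [hs]; exact Real.sq_sqrt (by positivity)
  have hs0 : 0 < s := by linarith
  -- S
  set S : ℝ := ∑ x : ZMod Q, ∑ y : ZMod Q, |H x y| * D x y with hSdef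
  have hS0' : 0 ≤ S := Finset.sum_nonneg fun x _ => Finset.sum_nonneg fun y _ =>
    mul_nonneg (abs_nonneg _) (hD0 x y)
  have hSle : S ≤ S0 := by
    have h1 : ∀ x y, |H x y| * D x y ≤ |H x y| ^ 3 + D x y ^ (3 / 2 : ℝ) := by
      intro x y
      have h2 := Real.young_inequality_of_nonneg (abs_nonneg (H x y)) (hD0 x y)
        (show (3 : ℝ).HolderConjugate (3 / 2) from by
          rw [Real.holderConjugate_iff]; norm_num)
      have h3 : |H x y| ^ (3 : ℝ) = |H x y| ^ 3 := by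
        rw [← Real.rpow_natCast]; norm_num
      rw [h3] at h2
      have h4 : 0 ≤ |H x y| ^ 3 := by positivity
      have h5 : 0 ≤ D x y ^ (3 / 2 : ℝ) := Real.rpow_nonneg (hD0 x y) _
      linarith
    calc S ≤ ∑ x : ZMod Q, ∑ y : ZMod Q, (|H x y| ^ 3 + D x y ^ (3 / 2 : ℝ)) :=
          Finset.sum_le_sum fun x _ => Finset.sum_le_sum fun y _ => h1 x y
      _ = ∑ x : ZMod Q, ∑ y : ZMod Q, |H x y| ^ 3 +
          ∑ x : ZMod Q, ∑ y : ZMod Q, D x y ^ (3 / 2 : ℝ) := by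
          simp only [Finset.sum_add_distrib]
      _ ≤ S0 := by rw [hS0]; linarith
  -- bound for one position
  have hlevel : ∀ (l : ℤ) (M : ℕ), |∑ m ∈ range M, ∑ x0 : ZMod Q, ∑ x1 : ZMod Q,
      H x0 x1 * (e x0 x1 m l * psiT (2 ^ m) (TT F1 F2 x0 x1) l)| ≤
      (1 / c) * (2400 * 40 * ((3 + 2 * S) * s * (1 / (1 + |(l : ℝ)|) ^ (1 / 8 : ℝ)) ^ 9 +
        (1 / (1 + |(l : ℝ)|) ^ (1 / 8 : ℝ)) ^ 2 *
          (∑ x : ZMod Q, ∑ y : ZMod Q, ν x y l * |H x y| ^ 3) / s ^ 2 +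
        2 * (1 / (1 + |(l : ℝ)|) ^ (1 / 8 : ℝ)) ^ 2 *
          (∑ x : ZMod Q, ∑ y : ZMod Q, ν x y l * (|H x y| * D x y)) / s)) := by
    intro l M
    obtain ⟨κ, hκ1, hκ2⟩ := exists_kappa l
    set lam : ℝ := 1 + |(l : ℝ)| with hlam
    have hlam1 : 1 ≤ lam := by have := abs_nonneg (l : ℝ); linarith
    have hlam0 : 0 < lam := by linarith
    set u : ℝ := lam ^ (1 / 8 : ℝ) with hu
    have hu1 : 1 ≤ u := Real.one_le_rpow hlam1 (by norm_num)
    have hu0 : 0 < u := by linarith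
    have hu8 : u ^ 8 = lam := by
      rw [hu, ← Real.rpow_natCast, ← Real.rpow_mul hlam0.le]; norm_num
    set g : ZMod Q → ZMod Q → ℕ → ℝ := fun x y m => c * lam * e x y m l with hg
    have hcl : 0 < c * lam := by positivity
    have hgle : ∀ x y m, |g x y m| ≤ (1 / lam + min 1 (ν x y l)) / 2 := by
      intro x y m
      simp only [hg]
      rw [abs_mul, abs_of_pos hcl]
      have h1 := he x y m l
      have hm0 : 0 ≤ 1 / lam + min 1 (ν x y l) := add_nonneg (by positivity)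
        (le_min zero_le_one (hν0 x y l))
      calc c * lam * |e x y m l| ≤ c * lam * (CK / lam * (1 / lam + min 1 (ν x y l))) :=
            mul_le_mul_of_nonneg_left h1 hcl.le
        _ = (c * CK) * (1 / lam + min 1 (ν x y l)) := by field_simp
        _ ≤ (1 / 2) * (1 / lam + min 1 (ν x y l)) := by
            refine mul_le_mul_of_nonneg_right ?_ hm0
            rw [hc, div_mul_eq_mul_div, div_le_div_iff₀ (by positivity) (by norm_num)]
            linarith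
        _ = _ := by ring
    have hgvar : ∀ x y M, ∑ m ∈ range M, |g x y (m + 1) - g x y m| ≤
        (n : ℝ) * (1 / lam) + ν x y l := by
      intro x y M
      have h1 := hvar x y M l
      have hm0 : 0 ≤ (n : ℝ) / lam + ν x y l := add_nonneg (by positivity) (hν0 x y l)
      have h2 : ∑ m ∈ range M, |g x y (m + 1) - g x y m| =
          c * lam * ∑ m ∈ range M, |e x y (m + 1) l - e x y m l| := by
        rw [Finset.mul_sum]
        refine Finset.sum_congr rfl fun m _ => ?_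
        simp only [hg]
        rw [← mul_sub, abs_mul, abs_of_pos hcl]
      rw [h2]
      calc _ ≤ c * lam * (CK / lam * (n / lam + ν x y l)) :=
            mul_le_mul_of_nonneg_left h1 hcl.le
        _ = (c * CK) * ((n : ℝ) / lam + ν x y l) := by field_simp
        _ ≤ 1 * ((n : ℝ) / lam + ν x y l) := by
            refine mul_le_mul_of_nonneg_right ?_ hm0
            rw [hc, div_mul_eq_mul_div, div_le_one (by positivity)]
            linarith
        _ = _ := by ring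
    have hw0 : 0 ≤ 1 / lam := by positivity
    have hw1 : 1 / lam ≤ 1 := by rw [div_le_one hlam0]; exact hlam1
    have hτ : 0 < u ^ 2 / s := by positivity
    have hLB := level_bound H F1 F2 D hH hF1 hF2 hD0 hcost g (fun x y => ν x y l) (1 / lam) n
      hw0 hw1 (fun x y => hν0 x y l) hgle hgvar (u ^ 2 / s) hτ l κ hκ1 M
    have hN1 : 0 ≤ ∑ x : ZMod Q, ∑ y : ZMod Q, ν x y l * |H x y| ^ 3 :=
      Finset.sum_nonneg fun x _ => Finset.sum_nonneg fun y _ => mul_nonneg (hν0 x y l)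
        (by positivity)
    have hN2 : 0 ≤ ∑ x : ZMod Q, ∑ y : ZMod Q, ν x y l * (|H x y| * D x y) :=
      Finset.sum_nonneg fun x _ => Finset.sum_nonneg fun y _ => mul_nonneg (hν0 x y l)
        (mul_nonneg (abs_nonneg _) (hD0 x y))
    have hfr := final_real (k := 1 + (κ : ℝ)) (K := 40) hu1 hs1 hS0' hN1 hN2 (by norm_num) hκ2
    have hconv : ∑ m ∈ range M, ∑ x0 : ZMod Q, ∑ x1 : ZMod Q,
        H x0 x1 * (e x0 x1 m l * psiT (2 ^ m) (TT F1 F2 x0 x1) l) =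
        (1 / c) * ((1 / u ^ 8) * ∑ m ∈ range M, ∑ x0 : ZMod Q, ∑ x1 : ZMod Q,
          H x0 x1 * (g x0 x1 m * psiT (2 ^ m) (TT F1 F2 x0 x1) l)) := by
      simp only [Finset.mul_sum]
      refine Finset.sum_congr rfl fun m _ => Finset.sum_congr rfl fun x0 _ =>
        Finset.sum_congr rfl fun x1 _ => ?_
      simp only [hg]
      rw [hu8]
      field_simp
    rw [hconv, abs_mul, abs_of_pos (by positivity : 0 < 1 / c), abs_mul,
      abs_of_pos (by positivity : 0 < 1 / u ^ 8)]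
    refine mul_le_mul_of_nonneg_left ?_ (by positivity)
    refine (mul_le_mul_of_nonneg_left hLB (by positivity)).trans ?_
    rw [← hu8, ← hs2]
    exact hfr
  -- the limit
  have hlimit : Tendsto (fun M : ℕ => ∑ x0 : ZMod Q, ∑ x1 : ZMod Q, H x0 x1 *
      ∑ m ∈ range M, ∑ l ∈ Icc (-(Λ : ℤ)) Λ, e x0 x1 m l * psiT (2 ^ m) (TT F1 F2 x0 x1) l) atTop
      (𝓝 (∑ x0 : ZMod Q, ∑ x1 : ZMod Q, H x0 x1 * ∑ j, σ x0 x1 j *
        ∑ s ∈ Ioc (A x0 x1 j) (B x0 x1 j),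
          (TT F1 F2 x0 x1 s - TT F1 F2 x0 x1 (-(s : ℤ))) / (s : ℝ))) := by
    refine tendsto_finsetSum _ fun x0 _ => tendsto_finsetSum _ fun x1 _ => ?_
    exact (hlim x0 x1 (TT F1 F2 x0 x1) (TT_bdd F1 F2 x0 x1)).const_mul _
  refine le_of_tendsto hlimit.abs (Filter.Eventually.of_forall fun M => ?_)
  have hre : ∑ x0 : ZMod Q, ∑ x1 : ZMod Q, H x0 x1 *
      ∑ m ∈ range M, ∑ l ∈ Icc (-(Λ : ℤ)) Λ, e x0 x1 m l * psiT (2 ^ m) (TT F1 F2 x0 x1) l =
      ∑ l ∈ Icc (-(Λ : ℤ)) Λ, ∑ m ∈ range M, ∑ x0 : ZMod Q, ∑ x1 : ZMod Q,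
        H x0 x1 * (e x0 x1 m l * psiT (2 ^ m) (TT F1 F2 x0 x1) l) := by
    rw [← swap4]
    simp only [Finset.mul_sum]
  rw [hre]
  refine (Finset.abs_sum_le_sum_abs _ _).trans ?_
  refine (Finset.sum_le_sum fun l _ => hlevel l M).trans ?_
  rw [← Finset.mul_sum, ← Finset.mul_sum, Finset.sum_add_distrib, Finset.sum_add_distrib]
  -- sums over l
  have hq : ∀ l : ℤ, (1 / (1 + |(l : ℝ)|) ^ (1 / 8 : ℝ)) ^ 2 =
      (1 + |(l : ℝ)|) ^ (-(1 / 4) : ℝ) := by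
    intro l
    have hl : (0 : ℝ) < 1 + |(l : ℝ)| := by positivity
    rw [one_div, inv_pow, ← Real.rpow_natCast, ← Real.rpow_mul hl.le, ← Real.rpow_neg hl.le]
    norm_num
  have hA : ∑ l ∈ Icc (-(Λ : ℤ)) Λ, (3 + 2 * S) * s *
      (1 / (1 + |(l : ℝ)|) ^ (1 / 8 : ℝ)) ^ 9 ≤ (3 + 2 * S) * s * CZ := by
    rw [← Finset.mul_sum]
    exact mul_le_mul_of_nonneg_left (hCZ Λ) (by positivity)
  -- generic weight sum
  have hW : ∀ (Wt : ZMod Q → ZMod Q → ℝ), (∀ x y, 0 ≤ Wt x y) →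
      ∑ l ∈ Icc (-(Λ : ℤ)) Λ, (1 / (1 + |(l : ℝ)|) ^ (1 / 8 : ℝ)) ^ 2 *
          (∑ x : ZMod Q, ∑ y : ZMod Q, ν x y l * Wt x y) ≤
        CK * s ^ 2 * ∑ x : ZMod Q, ∑ y : ZMod Q, Wt x y := by
    intro Wt hWt
    have h1 : ∑ l ∈ Icc (-(Λ : ℤ)) Λ, (1 / (1 + |(l : ℝ)|) ^ (1 / 8 : ℝ)) ^ 2 *
          (∑ x : ZMod Q, ∑ y : ZMod Q, ν x y l * Wt x y) =
        ∑ x : ZMod Q, ∑ y : ZMod Q, Wt x y *
          ∑ l ∈ Icc (-(Λ : ℤ)) Λ, (1 + |(l : ℝ)|) ^ (-(1 / 4) : ℝ) * ν x y l := by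
      simp only [Finset.mul_sum]
      rw [Finset.sum_comm]
      refine Finset.sum_congr rfl fun x _ => ?_
      rw [Finset.sum_comm]
      refine Finset.sum_congr rfl fun y _ => Finset.sum_congr rfl fun l _ => ?_
      rw [hq l]; ring
    rw [h1]
    calc _ ≤ ∑ x : ZMod Q, ∑ y : ZMod Q, Wt x y * (CK * n) :=
          Finset.sum_le_sum fun x _ => Finset.sum_le_sum fun y _ =>
            mul_le_mul_of_nonneg_left (hsum x y) (hWt x y)
      _ = _ := by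
          rw [hs2]
          simp only [Finset.mul_sum]
          refine Finset.sum_congr rfl fun x _ => Finset.sum_congr rfl fun y _ => ?_
          ring
  have hB : ∑ l ∈ Icc (-(Λ : ℤ)) Λ, (1 / (1 + |(l : ℝ)|) ^ (1 / 8 : ℝ)) ^ 2 *
          (∑ x : ZMod Q, ∑ y : ZMod Q, ν x y l * |H x y| ^ 3) / s ^ 2 ≤ CK * s := by
    rw [← Finset.sum_div, div_le_iff₀ (by positivity)]
    refine (hW (fun x y => |H x y| ^ 3) (fun x y => by positivity)).trans ?_
    calc CK * s ^ 2 * ∑ x : ZMod Q, ∑ y : ZMod Q, |H x y| ^ 3 ≤ CK * s ^ 2 * 1 :=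
          mul_le_mul_of_nonneg_left hH (by positivity)
      _ ≤ CK * s * s ^ 2 := by
          have h1 : CK * s ^ 2 * 1 ≤ CK * s ^ 2 * s := mul_le_mul_of_nonneg_left hs1 (by positivity)
          linarith [h1, (by ring : CK * s * s ^ 2 = CK * s ^ 2 * s)]
  have hC : ∑ l ∈ Icc (-(Λ : ℤ)) Λ, 2 * (1 / (1 + |(l : ℝ)|) ^ (1 / 8 : ℝ)) ^ 2 *
          (∑ x : ZMod Q, ∑ y : ZMod Q, ν x y l * (|H x y| * D x y)) / s ≤ 2 * CK * S * s := by
    rw [← Finset.sum_div, div_le_iff₀ (by positivity)]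
    have h1 : ∑ l ∈ Icc (-(Λ : ℤ)) Λ, 2 * (1 / (1 + |(l : ℝ)|) ^ (1 / 8 : ℝ)) ^ 2 *
          (∑ x : ZMod Q, ∑ y : ZMod Q, ν x y l * (|H x y| * D x y)) =
        2 * ∑ l ∈ Icc (-(Λ : ℤ)) Λ, (1 / (1 + |(l : ℝ)|) ^ (1 / 8 : ℝ)) ^ 2 *
          (∑ x : ZMod Q, ∑ y : ZMod Q, ν x y l * (|H x y| * D x y)) := by
      rw [Finset.mul_sum]
      exact Finset.sum_congr rfl fun l _ => by ring
    rw [h1]
    have h2 := hW (fun x y => |H x y| * D x y) (fun x y => mul_nonneg (abs_nonneg _) (hD0 x y))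
    rw [← hSdef] at h2
    calc _ ≤ 2 * (CK * s ^ 2 * S) := mul_le_mul_of_nonneg_left h2 (by norm_num)
      _ = _ := by ring
  have htot := add_le_add (add_le_add hA hB) hC
  rw [mul_assoc (1 / c)]
  refine mul_le_mul_of_nonneg_left ?_ (by positivity)
  rw [mul_assoc (2400 * 40)]
  refine mul_le_mul_of_nonneg_left ?_ (by norm_num)
  refine htot.trans ?_
  have h9 : (3 + 2 * S) * s * CZ ≤ (3 + 2 * S0) * s * CZ := by gcongr
  have h10 : 2 * CK * S * s ≤ 2 * CK * S0 * s := by gcongr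
  nlinarith

end Crest.Agent.R072.Assembly
end

-- ▼ part R072/AsmE
section

/-! R072: assembly, part E: homogeneity. -/

set_option autoImplicit false

namespace Crest.Agent.R072.Assembly

open Finset Filter Topology Crest.Agent.R072 Crest.Agent.R072.Lattice Crest.Agent.R072.Jump
  Crest.Agent.R072.Kernel

lemma zero_of_cube {Q : ℕ} [NeZero Q] (F : ZMod Q → ZMod Q → ℝ)
    (h : (∑ x : ZMod Q, ∑ y : ZMod Q, |F x y| ^ 3) ^ (1 / 3 : ℝ) = 0) : ∀ x y, F x y = 0 := by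
  have h0 : 0 ≤ ∑ x : ZMod Q, ∑ y : ZMod Q, |F x y| ^ 3 := by positivity
  have h1 : ∑ x : ZMod Q, ∑ y : ZMod Q, |F x y| ^ 3 = 0 := by
    rw [Real.rpow_eq_zero h0 (by norm_num)] at h
    exact h
  intro x y
  have h2 := (Finset.sum_eq_zero_iff_of_nonneg (fun x _ => by positivity)).mp h1 x
    (Finset.mem_univ x)
  have h3 := (Finset.sum_eq_zero_iff_of_nonneg (fun x _ => by positivity)).mp h2 y
    (Finset.mem_univ y)
  simpa using h3

lemma cube_scale {Q : ℕ} [NeZero Q] (F : ZMod Q → ZMod Q → ℝ) {a : ℝ} (ha : 0 < a)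
    (h : (∑ x : ZMod Q, ∑ y : ZMod Q, |F x y| ^ 3) ^ (1 / 3 : ℝ) = a) :
    ∑ x : ZMod Q, ∑ y : ZMod Q, |a⁻¹ * F x y| ^ 3 ≤ 1 := by
  have h0 : 0 ≤ ∑ x : ZMod Q, ∑ y : ZMod Q, |F x y| ^ 3 := by positivity
  have h1 : ∑ x : ZMod Q, ∑ y : ZMod Q, |F x y| ^ 3 = a ^ 3 := by
    rw [← h, ← Real.rpow_natCast, ← Real.rpow_mul h0]
    norm_num
  have h2 : ∑ x : ZMod Q, ∑ y : ZMod Q, |a⁻¹ * F x y| ^ 3 =
      a⁻¹ ^ 3 * ∑ x : ZMod Q, ∑ y : ZMod Q, |F x y| ^ 3 := by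
    simp only [Finset.mul_sum]
    refine Finset.sum_congr rfl fun x _ => Finset.sum_congr rfl fun y _ => ?_
    rw [abs_mul, mul_pow, abs_of_pos (inv_pos.mpr ha)]
  rw [h2, h1, ← mul_pow, inv_mul_cancel₀ ha.ne', one_pow]

/-- **Lattice theorem on `ZMod Q`** -/
theorem lattice_zmod : ∃ C : ℝ, 0 ≤ C ∧ ∀ (Q : ℕ) [NeZero Q] (n : ℕ), 1 ≤ n →
    ∀ (H F1 F2 : ZMod Q → ZMod Q → ℝ) (σ : ZMod Q → ZMod Q → Fin n → ℝ)
      (A B : ZMod Q → ZMod Q → Fin n → ℕ),
      (∀ x y j, |σ x y j| ≤ 1) → (∀ x y j, A x y j ≤ B x y j) →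
      (∀ x y i j, i ≠ j → B x y i ≤ A x y j ∨ B x y j ≤ A x y i) →
      |∑ x0 : ZMod Q, ∑ x1 : ZMod Q, H x0 x1 * ∑ j, σ x0 x1 j *
        ∑ s ∈ Ioc (A x0 x1 j) (B x0 x1 j),
          (F1 x1 ((s : ZMod Q) - x0 - x1) * F2 ((s : ZMod Q) - x0 - x1) x0 -
            F1 x1 (-(s : ZMod Q) - x0 - x1) * F2 (-(s : ZMod Q) - x0 - x1) x0) / (s : ℝ)| ≤
        C * Real.sqrt n * (∑ x : ZMod Q, ∑ y : ZMod Q, |H x y| ^ 3) ^ (1 / 3 : ℝ) *
          (∑ x : ZMod Q, ∑ y : ZMod Q, |F1 x y| ^ 3) ^ (1 / 3 : ℝ) *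
          (∑ x : ZMod Q, ∑ y : ZMod Q, |F2 x y| ^ 3) ^ (1 / 3 : ℝ) := by
  obtain ⟨C, hC0, hC⟩ := zmod_norm
  refine ⟨C, hC0, ?_⟩
  intro Q _ n hn H F1 F2 σ A B h1 h2 h3
  generalize ha : (∑ x : ZMod Q, ∑ y : ZMod Q, |H x y| ^ 3) ^ (1 / 3 : ℝ) = a
  generalize hb : (∑ x : ZMod Q, ∑ y : ZMod Q, |F1 x y| ^ 3) ^ (1 / 3 : ℝ) = b
  generalize hc : (∑ x : ZMod Q, ∑ y : ZMod Q, |F2 x y| ^ 3) ^ (1 / 3 : ℝ) = c
  have ha0 : 0 ≤ a := by rw [← ha]; positivity
  have hb0 : 0 ≤ b := by rw [← hb]; positivity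
  have hc0 : 0 ≤ c := by rw [← hc]; positivity
  rcases ha0.eq_or_lt with h | ha1
  · have hz := zero_of_cube H (by rw [ha]; exact h.symm)
    simp only [hz, zero_mul, Finset.sum_const_zero, abs_zero]
    positivity
  rcases hb0.eq_or_lt with h | hb1
  · have hz := zero_of_cube F1 (by rw [hb]; exact h.symm)
    simp only [hz, zero_mul, sub_self, zero_div, mul_zero, Finset.sum_const_zero, abs_zero]
    positivity
  rcases hc0.eq_or_lt with h | hc1
  · have hz := zero_of_cube F2 (by rw [hc]; exact h.symm)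
    simp only [hz, sub_self, zero_div, mul_zero, Finset.sum_const_zero, abs_zero]
    positivity
  have key := hC Q n hn (fun x y => a⁻¹ * H x y) (fun x y => b⁻¹ * F1 x y)
    (fun x y => c⁻¹ * F2 x y) σ A B h1 h2 h3 (cube_scale H ha1 ha) (cube_scale F1 hb1 hb)
    (cube_scale F2 hc1 hc)
  have e : ∑ x0 : ZMod Q, ∑ x1 : ZMod Q, H x0 x1 * ∑ j, σ x0 x1 j *
        ∑ s ∈ Ioc (A x0 x1 j) (B x0 x1 j),
          (F1 x1 ((s : ZMod Q) - x0 - x1) * F2 ((s : ZMod Q) - x0 - x1) x0 -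
            F1 x1 (-(s : ZMod Q) - x0 - x1) * F2 (-(s : ZMod Q) - x0 - x1) x0) / (s : ℝ) =
      (a * b * c) * ∑ x0 : ZMod Q, ∑ x1 : ZMod Q, (a⁻¹ * H x0 x1) * ∑ j, σ x0 x1 j *
        ∑ s ∈ Ioc (A x0 x1 j) (B x0 x1 j),
          (TT (fun x y => b⁻¹ * F1 x y) (fun x y => c⁻¹ * F2 x y) x0 x1 s -
            TT (fun x y => b⁻¹ * F1 x y) (fun x y => c⁻¹ * F2 x y) x0 x1 (-(s : ℤ))) / (s : ℝ) := by
    simp only [Finset.mul_sum, TT]
    refine Finset.sum_congr rfl fun x0 _ => Finset.sum_congr rfl fun x1 _ =>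
      Finset.sum_congr rfl fun j _ => Finset.sum_congr rfl fun s _ => ?_
    push_cast
    field_simp
  rw [e, abs_mul, abs_of_pos (by positivity : 0 < a * b * c)]
  calc a * b * c * _ ≤ a * b * c * (C * Real.sqrt n) :=
        mul_le_mul_of_nonneg_left key (by positivity)
    _ = _ := by ring

end Crest.Agent.R072.Assembly
end

-- ▼ part R072/Assembly
section

/-! R072: assembly of the lattice theorem (blueprint part 2).
The theorems `sum_Lbox` (AsmA), `NJ` (AsmB), `lattice_zmod` (AsmE) of the namespace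
`Crest.Agent.R072.Assembly` are proved in `AsmA`–`AsmE`. -/
end

-- ▼ part R072/LatIntA

/-! R072: lattice theorem on `ℤ²`, real linearised form (from the `ZMod Q` version). -/

set_option autoImplicit false

namespace Crest.Agent.R072.LatticeInt

open Finset Crest.Agent.R072 Crest.Agent.R072.Assembly

theorem vma {Q : ℕ} [NeZero Q] (x : ℤ) (hx : 2 * |x| < Q) : ((x : ℤ) : ZMod Q).valMinAbs = x := by
  rw [ZMod.valMinAbs_spec]
  have h1 := neg_abs_le x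
  have h2 := le_abs_self x
  refine ⟨rfl, ?_, ?_⟩ <;> omega

/-- sum over `ZMod Q` of a function supported on small representatives -/
theorem sum_zmod_eq {Q : ℕ} [NeZero Q] (L : ℕ) (hQ : 2 * L < Q) (u : ZMod Q → ℝ)
    (hu : ∀ x : ZMod Q, (L : ℤ) < |x.valMinAbs| → u x = 0) :
    ∑ x : ZMod Q, u x = ∑ x ∈ Icc (-(L : ℤ)) L, u (x : ZMod Q) := by
  symm
  apply Finset.sum_of_injOn (fun x : ℤ => (x : ZMod Q))
  · intro a ha b hb hab
    simp only [coe_Icc, Set.mem_Icc] at ha hb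
    have hab' : ((a : ℤ) : ZMod Q) = (b : ZMod Q) := hab
    have h1 : ((a : ℤ) : ZMod Q).valMinAbs = a := vma a (by
      have : |a| ≤ L := abs_le.2 ⟨ha.1, ha.2⟩
      have : (2 * L : ℤ) < Q := by exact_mod_cast hQ
      omega)
    have h2 : ((b : ℤ) : ZMod Q).valMinAbs = b := vma b (by
      have : |b| ≤ L := abs_le.2 ⟨hb.1, hb.2⟩
      have : (2 * L : ℤ) < Q := by exact_mod_cast hQ
      omega)
    rw [← h1, ← h2, hab']
  · intro a ha; simp
  · intro x _ hx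
    apply hu
    by_contra h
    rw [not_lt] at h
    apply hx
    refine ⟨x.valMinAbs, ?_, ZMod.coe_valMinAbs x⟩
    simpa [abs_le] using h
  · intro i hi; rfl

theorem sum_zmod_cube {Q : ℕ} [NeZero Q] (L : ℕ) (hQ : 2 * L < Q) (f : ℤ → ℤ → ℝ)
    (hf : ∀ x y, (L : ℤ) < |x| ∨ (L : ℤ) < |y| → f x y = 0) :
    ∑ x : ZMod Q, ∑ y : ZMod Q, |f x.valMinAbs y.valMinAbs| ^ 3 =
      ∑ x ∈ Icc (-(L : ℤ)) L, ∑ y ∈ Icc (-(L : ℤ)) L, |f x y| ^ 3 := by
  have hQ' : (2 * L : ℤ) < Q := by exact_mod_cast hQ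
  rw [sum_zmod_eq L hQ]
  · apply Finset.sum_congr rfl
    intro x hx
    rw [mem_Icc] at hx
    rw [vma x (by have : |x| ≤ L := abs_le.2 ⟨hx.1, hx.2⟩; omega)]
    rw [sum_zmod_eq L hQ]
    · apply Finset.sum_congr rfl
      intro y hy
      rw [mem_Icc] at hy
      rw [vma y (by have : |y| ≤ L := abs_le.2 ⟨hy.1, hy.2⟩; omega)]
    · intro y hy
      rw [hf x _ (Or.inr hy)]; simp
  · intro x hx
    apply Finset.sum_eq_zero
    intro y _
    rw [hf _ _ (Or.inl hx)]; simp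

theorem sum_Ioc_min (A B M : ℕ) (G : ℕ → ℝ) (hG : ∀ s, M < s → G s = 0) :
    ∑ s ∈ Ioc (min A M) (min B M), G s = ∑ s ∈ Ioc A B, G s := by
  apply Finset.sum_subset
  · intro s hs
    rw [mem_Ioc] at hs ⊢
    omega
  · intro s hs hs'
    apply hG
    rw [mem_Ioc] at hs hs'
    by_contra h
    apply hs'
    omega

/-- real version on `ℤ²` with finite supports, linearised -/
theorem lattice_int_real : ∃ C : ℝ, 0 ≤ C ∧ ∀ (n : ℕ), 1 ≤ n → ∀ (f g h : ℤ → ℤ → ℝ) (L : ℕ),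
    (∀ x y, (L : ℤ) < |x| ∨ (L : ℤ) < |y| → f x y = 0) →
    (∀ x y, (L : ℤ) < |x| ∨ (L : ℤ) < |y| → g x y = 0) →
    (∀ x y, (L : ℤ) < |x| ∨ (L : ℤ) < |y| → h x y = 0) →
    ∀ (σ : ℤ → ℤ → Fin n → ℝ) (A B : ℤ → ℤ → Fin n → ℕ),
      (∀ x y j, |σ x y j| ≤ 1) → (∀ x y j, A x y j ≤ B x y j) →
      (∀ x y i j, i ≠ j → B x y i ≤ A x y j ∨ B x y j ≤ A x y i) →
      |∑ x ∈ Icc (-(L : ℤ)) L, ∑ y ∈ Icc (-(L : ℤ)) L, h x y * ∑ j, σ x y j *
        ∑ s ∈ Ioc (A x y j) (B x y j),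
          (f (x + s) y * g x (y + s) - f (x - s) y * g x (y - s)) / (s : ℝ)| ≤
        C * Real.sqrt n *
          (∑ x ∈ Icc (-(L : ℤ)) L, ∑ y ∈ Icc (-(L : ℤ)) L, |h x y| ^ 3) ^ (1 / 3 : ℝ) *
          (∑ x ∈ Icc (-(L : ℤ)) L, ∑ y ∈ Icc (-(L : ℤ)) L, |f x y| ^ 3) ^ (1 / 3 : ℝ) *
          (∑ x ∈ Icc (-(L : ℤ)) L, ∑ y ∈ Icc (-(L : ℤ)) L, |g x y| ^ 3) ^ (1 / 3 : ℝ) := by
  obtain ⟨C, hC, hmain⟩ := lattice_zmod
  refine ⟨C, hC, ?_⟩
  intro n hn f g h L hf hg hh σ A B hσ hAB hdisj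
  set Q : ℕ := 8 * L + 8 with hQdef
  have : NeZero Q := ⟨by omega⟩
  have hQ : 2 * L < Q := by omega
  have hQ' : (8 * L : ℤ) + 8 = Q := by rw [hQdef]; push_cast; ring
  have key := hmain Q n hn (fun x y => h x.valMinAbs y.valMinAbs)
    (fun x1 x2 => f (-x1 - x2).valMinAbs x1.valMinAbs)
    (fun x2 x0 => g x0.valMinAbs (-x0 - x2).valMinAbs)
    (fun x y j => σ x.valMinAbs y.valMinAbs j)
    (fun x y j => min (A x.valMinAbs y.valMinAbs j) (2 * L))
    (fun x y j => min (B x.valMinAbs y.valMinAbs j) (2 * L))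
    (fun x y j => hσ _ _ _)
    (fun x y j => min_le_min (hAB _ _ _) le_rfl)
    (fun x y i j hij => by
      rcases hdisj x.valMinAbs y.valMinAbs i j hij with h | h
      · left; exact min_le_min h le_rfl
      · right; exact min_le_min h le_rfl)
  -- norms
  have nH : ∑ x : ZMod Q, ∑ y : ZMod Q, |h x.valMinAbs y.valMinAbs| ^ 3 =
      ∑ x ∈ Icc (-(L : ℤ)) L, ∑ y ∈ Icc (-(L : ℤ)) L, |h x y| ^ 3 := sum_zmod_cube L hQ h hh
  have nF : ∑ x : ZMod Q, ∑ y : ZMod Q, |f (-x - y).valMinAbs x.valMinAbs| ^ 3 =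
      ∑ x ∈ Icc (-(L : ℤ)) L, ∑ y ∈ Icc (-(L : ℤ)) L, |f x y| ^ 3 := by
    rw [← sum_zmod_cube L hQ f hf]
    rw [Finset.sum_comm (f := fun x y : ZMod Q => |f x.valMinAbs y.valMinAbs| ^ 3)]
    apply Finset.sum_congr rfl
    intro x _
    exact Equiv.sum_comp (Equiv.subLeft (-x))
      (fun y : ZMod Q => |f y.valMinAbs x.valMinAbs| ^ 3)
  have nG : ∑ x : ZMod Q, ∑ y : ZMod Q, |g y.valMinAbs (-y - x).valMinAbs| ^ 3 =
      ∑ x ∈ Icc (-(L : ℤ)) L, ∑ y ∈ Icc (-(L : ℤ)) L, |g x y| ^ 3 := by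
    rw [← sum_zmod_cube L hQ g hg]
    rw [Finset.sum_comm]
    apply Finset.sum_congr rfl
    intro x _
    exact Equiv.sum_comp (Equiv.subLeft (-x))
      (fun y : ZMod Q => |g x.valMinAbs y.valMinAbs| ^ 3)
  simp only [nH, nF, nG] at key
  refine le_trans (le_of_eq ?_) key
  rw [← abs_neg]
  congr 1
  rw [sum_zmod_eq L hQ]
  · rw [← Finset.sum_neg_distrib]
    apply Finset.sum_congr rfl
    intro x hx
    rw [mem_Icc] at hx
    have hxL : |x| ≤ L := abs_le.2 ⟨hx.1, hx.2⟩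
    rw [sum_zmod_eq L hQ]
    · rw [← Finset.sum_neg_distrib]
      apply Finset.sum_congr rfl
      intro y hy
      rw [mem_Icc] at hy
      have hyL : |y| ≤ L := abs_le.2 ⟨hy.1, hy.2⟩
      rw [vma x (by omega), vma y (by omega)]
      rw [← mul_neg, ← Finset.sum_neg_distrib]
      congr 1
      apply Finset.sum_congr rfl
      intro j _
      rw [← mul_neg, ← Finset.sum_neg_distrib]
      congr 1
      rw [← sum_Ioc_min (A x y j) (B x y j) (2 * L)]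
      · apply Finset.sum_congr rfl
        intro s hs
        rw [mem_Ioc] at hs
        have hs2 : (s : ℤ) ≤ 2 * L := by
          have : s ≤ 2 * L := le_trans hs.2 (min_le_right _ _)
          exact_mod_cast this
        have e1 : (-(y : ZMod Q) - ((s : ZMod Q) - x - y)) = ((x - s : ℤ) : ZMod Q) := by
          push_cast; ring
        have e2 : (-(x : ZMod Q) - ((s : ZMod Q) - x - y)) = ((y - s : ℤ) : ZMod Q) := by
          push_cast; ring
        have e3 : (-(y : ZMod Q) - (-(s : ZMod Q) - x - y)) = ((x + s : ℤ) : ZMod Q) := by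
          push_cast; ring
        have e4 : (-(x : ZMod Q) - (-(s : ZMod Q) - x - y)) = ((y + s : ℤ) : ZMod Q) := by
          push_cast; ring
        have b1 : 2 * |x - (s : ℤ)| < Q := by
          have : |x - (s : ℤ)| ≤ |x| + |(s : ℤ)| := abs_sub _ _
          have h2 : |(s : ℤ)| = s := abs_of_nonneg (by positivity)
          omega
        have b2 : 2 * |y - (s : ℤ)| < Q := by
          have : |y - (s : ℤ)| ≤ |y| + |(s : ℤ)| := abs_sub _ _
          have h2 : |(s : ℤ)| = s := abs_of_nonneg (by positivity)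
          omega
        have b3 : 2 * |x + (s : ℤ)| < Q := by
          have : |x + (s : ℤ)| ≤ |x| + |(s : ℤ)| := abs_add_le _ _
          have h2 : |(s : ℤ)| = s := abs_of_nonneg (by positivity)
          omega
        have b4 : 2 * |y + (s : ℤ)| < Q := by
          have : |y + (s : ℤ)| ≤ |y| + |(s : ℤ)| := abs_add_le _ _
          have h2 : |(s : ℤ)| = s := abs_of_nonneg (by positivity)
          omega
        rw [e1, e2, e3, e4, vma _ b1, vma _ b2, vma _ b3, vma _ b4]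
        ring
      · intro s hs
        have hs' : (2 * L : ℤ) < s := by exact_mod_cast hs
        have f1 : f (x + s) y = 0 := hf _ _ (Or.inl (lt_abs.2 (Or.inl (by omega))))
        have f2 : f (x - s) y = 0 := hf _ _ (Or.inl (lt_abs.2 (Or.inr (by omega))))
        rw [f1, f2]; simp
    · intro y hy
      rw [hh _ _ (Or.inr hy)]; simp
  · intro x hx
    apply Finset.sum_eq_zero
    intro y _
    rw [hh _ _ (Or.inl hx)]; simp

end Crest.Agent.R072.LatticeInt
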