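import Crest.Agent.R072.Mat
import Crest.Agent.R072.Node

-- ▼ part R072/LatA
section

/-! R072: lattice potentials on `ZMod Q` (blueprint part 2, (C1)–(C3), (C6), `Lbox_le`).
Definitions + part 1 (helper830). -/

set_option autoImplicit false
set_option linter.unusedSectionVars false
set_option linter.unusedVariables false

namespace Crest.Agent.R072.Lattice

open Matrix Finset Crest.Agent.R072
open scoped MatrixOrder

variable {Q : ℕ} [NeZero Q]

/-- averaged rank-one matrices -/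
noncomputable def abar (X : ZMod Q → ZMod Q → ℝ) (a r : ℕ) (q p : ZMod Q) :
    Matrix (Fin r) (Fin r) ℝ :=
  fun j j' => (1 / ((a : ℝ) * r)) *
    ∑ i ∈ range a, X (q + (i : ZMod Q)) (p + ((j : ℕ) : ZMod Q)) *
      X (q + (i : ZMod Q)) (p + ((j' : ℕ) : ZMod Q))

/-- potential -/
noncomputable def W (X Z : ZMod Q → ZMod Q → ℝ) (a r : ℕ) (n : ZMod Q) : ℝ :=
  ∑ p : ZMod Q, ∑ q : ZMod Q, phi (abar X a r q p + abar Z a r (n - p - q) p)

noncomputable def EW (X : ZMod Q → ZMod Q → ℝ) (a r : ℕ) : ℝ :=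
  ∑ p : ZMod Q, ∑ q : ZMod Q, phi (abar X a r q p)

noncomputable def GW (X Z : ZMod Q → ZMod Q → ℝ) (a r : ℕ) (n : ZMod Q) : ℝ :=
  ∑ p : ZMod Q, ∑ q : ZMod Q,
    Gam (hsgn r) (abar X a (r + r) q p + abar Z a (r + r) (n - p - q) p)

/-- reference potential `½ [V_N(-2N) + V_N(-N)]` -/
noncomputable def Vref (X Z : ZMod Q → ZMod Q → ℝ) (N : ℕ) : ℝ :=
  (1 / 2) * (W X Z N N (-(2 * (N : ZMod Q))) + W X Z N N (-(N : ZMod Q)))

noncomputable def EE (X Z : ZMod Q → ZMod Q → ℝ) (N : ℕ) : ℝ := EW X N N + EW Z N N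

theorem abar_posSemidef (X : ZMod Q → ZMod Q → ℝ) (a r : ℕ) (q p : ZMod Q) :
    (abar X a r q p).PosSemidef := by
  have h : abar X a r q p = (1 / ((a : ℝ) * r)) •
      ∑ i ∈ range a, vecMulVec (fun j : Fin r => X (q + (i : ZMod Q)) (p + ((j : ℕ) : ZMod Q)))
        (star (fun j : Fin r => X (q + (i : ZMod Q)) (p + ((j : ℕ) : ZMod Q)))) := by
    ext j j'
    simp [abar, Matrix.sum_apply, vecMulVec_apply]
  rw [h]
  refine PosSemidef.smul ?_ (by positivity)
  exact posSemidef_sum _ (fun i _ => posSemidef_vecMulVec_self_star _)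

theorem abar_add_posSemidef (X Z : ZMod Q → ZMod Q → ℝ) (a r : ℕ) (q p q' p' : ZMod Q) :
    (abar X a r q p + abar Z a r q' p').PosSemidef :=
  (abar_posSemidef X a r q p).add (abar_posSemidef Z a r q' p')

theorem W_nonneg (X Z : ZMod Q → ZMod Q → ℝ) (a r : ℕ) (n : ZMod Q) : 0 ≤ W X Z a r n :=
  Finset.sum_nonneg fun _ _ => Finset.sum_nonneg fun _ _ =>
    phi_nonneg (abar_add_posSemidef _ _ _ _ _ _ _ _)

theorem EW_nonneg (X : ZMod Q → ZMod Q → ℝ) (a r : ℕ) : 0 ≤ EW X a r :=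
  Finset.sum_nonneg fun _ _ => Finset.sum_nonneg fun _ _ => phi_nonneg (abar_posSemidef _ _ _ _ _)

theorem sum_sub_left' (f : ZMod Q → ℝ) (c : ZMod Q) : ∑ q : ZMod Q, f (c - q) = ∑ q : ZMod Q, f q :=
  Equiv.sum_comp (Equiv.subLeft c) f

theorem sum_add_right' (f : ZMod Q → ℝ) (c : ZMod Q) : ∑ q : ZMod Q, f (q + c) = ∑ q : ZMod Q, f q :=
  Equiv.sum_comp (Equiv.addRight c) f

theorem W_comm (X Z : ZMod Q → ZMod Q → ℝ) (a r : ℕ) (n : ZMod Q) : W X Z a r n = W Z X a r n := by
  unfold W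
  refine Finset.sum_congr rfl fun p _ => ?_
  rw [← sum_sub_left' (fun q => phi (abar X a r q p + abar Z a r (n - p - q) p)) (n - p)]
  refine Finset.sum_congr rfl fun q _ => ?_
  rw [sub_sub_cancel, add_comm]

/-- averages over `2a` points -/
theorem abar_double (X : ZMod Q → ZMod Q → ℝ) {a r : ℕ} (ha : 0 < a) (q p : ZMod Q) :
    abar X (a + a) r q p = (1 / 2 : ℝ) • (abar X a r q p + abar X a r (q + a) p) := by
  ext j j'
  simp only [abar, Matrix.smul_apply, Matrix.add_apply, smul_eq_mul, Finset.sum_range_add]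
  have ha' : (a : ℝ) ≠ 0 := by exact_mod_cast ha.ne'
  have : (1 / (((a + a : ℕ) : ℝ) * r)) = (1 / 2) * (1 / ((a : ℝ) * r)) := by
    push_cast
    rcases eq_or_ne (r : ℝ) 0 with hr | hr
    · simp [hr]
    · field_simp; norm_num
  rw [this]
  simp only [Nat.cast_add, ← add_assoc]
  ring

/-- (C1) -/
theorem W_double_a (X Z : ZMod Q → ZMod Q → ℝ) {a r : ℕ} (ha : 0 < a) (hr : 0 < r) (n : ZMod Q) :
    W X Z (a + a) r n ≤ W X Z a r (n + a) := by
  have key : ∀ p q : ZMod Q, phi (abar X (a + a) r q p + abar Z (a + a) r (n - p - q) p) ≤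
      (1 / 2) * phi (abar X a r q p + abar Z a r (n + a - p - q) p) +
      (1 / 2) * phi (abar X a r (q + a) p + abar Z a r (n + a - p - (q + a)) p) := by
    intro p q
    have e : abar X (a + a) r q p + abar Z (a + a) r (n - p - q) p =
        (1 / 2 : ℝ) • ((abar X a r q p + abar Z a r (n + a - p - q) p) +
          (abar X a r (q + a) p + abar Z a r (n + a - p - (q + a)) p)) := by
      rw [abar_double X ha, abar_double Z ha, ← smul_add]
      congr 1
      have e1 : n + a - p - q = n - p - q + a := by ring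
      have e2 : n + a - p - (q + a) = n - p - q := by ring
      rw [e1, e2]
      abel
    rw [e]
    have := phi_mid_le (abar_add_posSemidef X Z a r q p (n + a - p - q) p)
      (abar_add_posSemidef X Z a r (q + a) p (n + a - p - (q + a)) p)
    linarith
  unfold W
  refine Finset.sum_le_sum fun p _ => ?_
  refine (Finset.sum_le_sum fun q _ => key p q).trans ?_
  rw [Finset.sum_add_distrib, ← Finset.mul_sum, ← Finset.mul_sum,
    sum_add_right' (fun q => phi (abar X a r q p + abar Z a r (n + a - p - q) p)) a]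
  linarith

theorem abar_submatrix_castAdd (X : ZMod Q → ZMod Q → ℝ) {a r : ℕ} (hr : 0 < r)
    (q p : ZMod Q) : (2 : ℝ) • (abar X a (r + r) q p).submatrix (Fin.castAdd r) (Fin.castAdd r) =
      abar X a r q p := by
  ext j j'
  simp only [abar, Matrix.smul_apply, Matrix.submatrix_apply, smul_eq_mul, Fin.val_castAdd]
  have hr' : (r : ℝ) ≠ 0 := by exact_mod_cast hr.ne'
  have : (1 / ((a : ℝ) * r)) = 2 * (1 / ((a : ℝ) * ((r + r : ℕ) : ℝ))) := by
    push_cast
    rcases eq_or_ne (a : ℝ) 0 with ha | ha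
    · simp [ha]
    · field_simp; norm_num
  rw [this]
  ring

theorem abar_submatrix_natAdd (X : ZMod Q → ZMod Q → ℝ) {a r : ℕ} (hr : 0 < r)
    (q p : ZMod Q) : (2 : ℝ) • (abar X a (r + r) q p).submatrix (Fin.natAdd r) (Fin.natAdd r) =
      abar X a r q (p + r) := by
  ext j j'
  simp only [abar, Matrix.smul_apply, Matrix.submatrix_apply, smul_eq_mul, Fin.val_natAdd,
    Nat.cast_add, ← add_assoc]
  have hr' : (r : ℝ) ≠ 0 := by exact_mod_cast hr.ne'
  have : (1 / ((a : ℝ) * r)) = 2 * (1 / ((a : ℝ) * ((r : ℝ) + (r : ℝ)))) := by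
    rcases eq_or_ne (a : ℝ) 0 with ha | ha
    · simp [ha]
    · field_simp; norm_num
  rw [this]
  ring

theorem Gam_abar (X Z : ZMod Q → ZMod Q → ℝ) {a r : ℕ} (hr : 0 < r) (q q' p : ZMod Q) :
    Gam (hsgn r) (abar X a (r + r) q p + abar Z a (r + r) q' p) =
      phi (abar X a r q p + abar Z a r q' p) +
      phi (abar X a r q (p + r) + abar Z a r q' (p + r)) -
      2 * phi (abar X a (r + r) q p + abar Z a (r + r) q' p) := by
  rw [Gam_hsgn r (abar_add_posSemidef X Z a (r + r) q p q' p)]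
  have e1 : (2 : ℝ) • (abar X a (r + r) q p + abar Z a (r + r) q' p).submatrix (Fin.castAdd r)
      (Fin.castAdd r) = abar X a r q p + abar Z a r q' p := by
    rw [Matrix.submatrix_add, Pi.add_apply, Pi.add_apply, smul_add, abar_submatrix_castAdd X hr,
      abar_submatrix_castAdd Z hr]
  have e2 : (2 : ℝ) • (abar X a (r + r) q p + abar Z a (r + r) q' p).submatrix (Fin.natAdd r)
      (Fin.natAdd r) = abar X a r q (p + r) + abar Z a r q' (p + r) := by
    rw [Matrix.submatrix_add, Pi.add_apply, Pi.add_apply, smul_add, abar_submatrix_natAdd X hr,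
      abar_submatrix_natAdd Z hr]
  rw [e1, e2]

/-- (C2) -/
theorem W_double_r (X Z : ZMod Q → ZMod Q → ℝ) {a r : ℕ} (ha : 0 < a) (hr : 0 < r) (n : ZMod Q) :
    W X Z a (r + r) n = (1 / 2) * (W X Z a r n + W X Z a r (n + r)) - (1 / 2) * GW X Z a r n := by
  have h : GW X Z a r n = W X Z a r n + W X Z a r (n + r) - 2 * W X Z a (r + r) n := by
    unfold GW W
    simp only [Gam_abar X Z hr, Finset.sum_sub_distrib, Finset.sum_add_distrib, Finset.mul_sum]
    congr 2
    rw [← sum_add_right' (fun p => ∑ q : ZMod Q, phi (abar X a r q p +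
      abar Z a r (n + r - p - q) p)) r]
    refine Finset.sum_congr rfl fun p _ => Finset.sum_congr rfl fun q _ => ?_
    have e : n + r - (p + r) - q = n - p - q := by ring
    rw [e]
  rw [h]
  ring

theorem EW_double_a (X : ZMod Q → ZMod Q → ℝ) {a r : ℕ} (ha : 0 < a) (hr : 0 < r) :
    EW X (a + a) r ≤ EW X a r := by
  unfold EW
  refine Finset.sum_le_sum fun p _ => ?_
  have key : ∀ q : ZMod Q, phi (abar X (a + a) r q p) ≤ (1 / 2) * phi (abar X a r q p) +
      (1 / 2) * phi (abar X a r (q + a) p) := by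
    intro q
    rw [abar_double X ha]
    have := phi_mid_le (abar_posSemidef X a r q p) (abar_posSemidef X a r (q + a) p)
    linarith
  refine (Finset.sum_le_sum fun q _ => key q).trans ?_
  rw [Finset.sum_add_distrib, ← Finset.mul_sum, ← Finset.mul_sum,
    sum_add_right' (fun q => phi (abar X a r q p)) a]
  linarith

theorem EW_double_r (X : ZMod Q → ZMod Q → ℝ) {a r : ℕ} (ha : 0 < a) (hr : 0 < r) :
    EW X a (r + r) ≤ EW X a r := by
  have key : ∀ p q : ZMod Q, phi (abar X a (r + r) q p) ≤ (1 / 2) * phi (abar X a r q p) +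
      (1 / 2) * phi (abar X a r q (p + r)) := by
    intro p q
    have h1 := Gam_nonneg (abar_posSemidef X a (r + r) q p) (hsgn r) (hsgn_mul_self r)
    rw [Gam_hsgn r (abar_posSemidef X a (r + r) q p), abar_submatrix_castAdd X hr,
      abar_submatrix_natAdd X hr] at h1
    linarith
  unfold EW
  refine (Finset.sum_le_sum fun p _ => Finset.sum_le_sum fun q _ => key p q).trans ?_
  simp only [Finset.sum_add_distrib, ← Finset.mul_sum]
  rw [sum_add_right' (fun p => ∑ q : ZMod Q, phi (abar X a r q p)) r]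
  linarith

/-- (C12) -/
theorem half_GW_le (X Z : ZMod Q → ZMod Q → ℝ) {N : ℕ} (hN : 0 < N) (n : ZMod Q) :
    (1 / 2) * GW X Z (N + N) N n ≤
      (1 / 2) * (W X Z N N (n + N) + W X Z N N (n + 2 * N)) - W X Z (N + N) (N + N) n := by
  have h1 := W_double_r X Z (a := N + N) (r := N) (by omega) hN n
  have h2 := W_double_a X Z (a := N) (r := N) hN hN n
  have h3 := W_double_a X Z (a := N) (r := N) hN hN (n + N)
  have e : n + N + N = n + 2 * (N : ZMod Q) := by ring
  rw [e] at h3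
  linarith

/-- (C6) -/
theorem EW_one (X : ZMod Q → ZMod Q → ℝ) :
    EW X 1 1 = ∑ x : ZMod Q, ∑ y : ZMod Q, |X x y| ^ 3 := by
  unfold EW
  rw [Finset.sum_comm]
  refine Finset.sum_congr rfl fun q _ => Finset.sum_congr rfl fun p _ => ?_
  have e : (abar X 1 1 q p) default default = X q p ^ 2 := by
    simp [abar, sq]
  rw [phi_unique (by rw [e]; positivity), e, Real.sqrt_sq_eq_abs, ← sq_abs]
  ring

theorem W_le (X Z : ZMod Q → ZMod Q → ℝ) (a r : ℕ) (n : ZMod Q) :
    W X Z a r n ≤ Real.sqrt 2 * (EW X a r + EW Z a r) := by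
  have key : ∀ p q : ZMod Q, phi (abar X a r q p + abar Z a r (n - p - q) p) ≤
      Real.sqrt 2 * phi (abar X a r q p) + Real.sqrt 2 * phi (abar Z a r (n - p - q) p) := by
    intro p q
    have := phi_add_le (abar_posSemidef X a r q p) (abar_posSemidef Z a r (n - p - q) p)
    linarith
  unfold W EW
  refine (Finset.sum_le_sum fun p _ => Finset.sum_le_sum fun q _ => key p q).trans ?_
  simp only [Finset.sum_add_distrib, ← Finset.mul_sum]
  rw [mul_add]
  refine add_le_add le_rfl (mul_le_mul_of_nonneg_left ?_ (Real.sqrt_nonneg 2))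
  exact Finset.sum_le_sum fun p _ =>
    (sum_sub_left' (fun q => phi (abar Z a r q p)) (n - p)).le

/-- box form, side `2N`, half-box signs, normalised by `(2N)^{-3}` -/
noncomputable def Lbox (F0 F1 F2 : ZMod Q → ZMod Q → ℝ) (N : ℕ) (p0 p1 p2 : ZMod Q) : ℝ :=
  (1 / ((N : ℝ) + N) ^ 3) * ∑ i0 : Fin (N + N), ∑ i1 : Fin (N + N), ∑ i2 : Fin (N + N),
    hsgn N i0 * hsgn N i1 * hsgn N i2 *
      (F0 (p0 + ((i0 : ℕ) : ZMod Q)) (p1 + ((i1 : ℕ) : ZMod Q)) *
       F1 (p1 + ((i1 : ℕ) : ZMod Q)) (p2 + ((i2 : ℕ) : ZMod Q)) *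
       F2 (p2 + ((i2 : ℕ) : ZMod Q)) (p0 + ((i0 : ℕ) : ZMod Q)))

/-- block of a kernel -/
def blkm (F : ZMod Q → ZMod Q → ℝ) (r : ℕ) (p q : ZMod Q) : Matrix (Fin r) (Fin r) ℝ :=
  fun i j => F (p + ((i : ℕ) : ZMod Q)) (q + ((j : ℕ) : ZMod Q))

theorem transpose_mul_blkm (F : ZMod Q → ZMod Q → ℝ) {r : ℕ} (hr : 0 < r) (p q : ZMod Q) :
    (blkm F r q p)ᵀ * blkm F r q p = ((r : ℝ) ^ 2) • abar F r r q p := by
  have hr' : (r : ℝ) ≠ 0 := by exact_mod_cast hr.ne'
  ext j j'
  simp only [Matrix.mul_apply, Matrix.transpose_apply, blkm, abar, Matrix.smul_apply, smul_eq_mul]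
  rw [← mul_assoc, Finset.sum_range]
  have : (r : ℝ) ^ 2 * (1 / ((r : ℝ) * r)) = 1 := by field_simp
  rw [this, one_mul]

theorem mul_transpose_blkm (F : ZMod Q → ZMod Q → ℝ) {r : ℕ} (hr : 0 < r) (p q : ZMod Q) :
    blkm F r p q * (blkm F r p q)ᵀ = ((r : ℝ) ^ 2) • abar (fun x y => F y x) r r q p := by
  rw [← transpose_mul_blkm (fun x y => F y x) hr p q]
  rfl

theorem Gam_smul {r : ℕ} {M : Matrix (Fin r) (Fin r) ℝ} (hM : M.PosSemidef) (u : Fin r → ℝ)
    {c : ℝ} (hc : 0 ≤ c) :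
    Gam u ((c ^ 2) • M) = c ^ 3 * Gam u M := by
  have hU : (diagonal u * M * diagonal u).PosSemidef := by
    have := hM.mul_mul_conjTranspose_same (diagonal u)
    simpa [Matrix.diagonal_conjTranspose] using this
  unfold Gam
  have e : (c ^ 2) • M + diagonal u * ((c ^ 2) • M) * diagonal u =
      (c ^ 2) • (M + diagonal u * M * diagonal u) := by
    rw [Matrix.mul_smul, Matrix.smul_mul, smul_add]
  rw [e, phi_smul (hM.add hU) (by positivity), phi_smul hM (by positivity), Real.sqrt_sq hc]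
  ring

theorem trace_formula {r : ℕ} (u v w : Fin r → ℝ) (A B C : Matrix (Fin r) (Fin r) ℝ) :
    (diagonal u * A * diagonal v * B * diagonal w * C).trace =
      ∑ i0 : Fin r, ∑ i1 : Fin r, ∑ i2 : Fin r,
        u i0 * A i0 i1 * v i1 * B i1 i2 * w i2 * C i2 i0 := by
  have h1 : ∀ i j, (diagonal u * A * diagonal v) i j = u i * A i j * v j := by
    intro i j
    rw [Matrix.mul_diagonal, Matrix.diagonal_mul]
  have h2 : ∀ i k, (diagonal u * A * diagonal v * B * diagonal w) i k =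
      ∑ j, u i * A i j * v j * B j k * w k := by
    intro i k
    rw [Matrix.mul_diagonal, Matrix.mul_apply, Finset.sum_mul]
    exact Finset.sum_congr rfl fun j _ => by rw [h1]
  unfold Matrix.trace
  refine Finset.sum_congr rfl fun i0 _ => ?_
  rw [Matrix.diag_apply, Matrix.mul_apply]
  simp only [h2, Finset.sum_mul]
  rw [Finset.sum_comm]

theorem Lbox_eq (F0 F1 F2 : ZMod Q → ZMod Q → ℝ) (N : ℕ) (p0 p1 p2 : ZMod Q) :
    Lbox F0 F1 F2 N p0 p1 p2 = (1 / ((N : ℝ) + N) ^ 3) *
      (diagonal (hsgn N) * blkm F0 (N + N) p0 p1 * diagonal (hsgn N) * blkm F1 (N + N) p1 p2 *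
        diagonal (hsgn N) * blkm F2 (N + N) p2 p0).trace := by
  rw [trace_formula]
  unfold Lbox
  congr 1
  refine Finset.sum_congr rfl fun i0 _ => Finset.sum_congr rfl fun i1 _ =>
    Finset.sum_congr rfl fun i2 _ => ?_
  simp only [blkm]
  ring

/-- node inequality for one box -/
theorem Lbox_le_one (F0 F1 F2 : ZMod Q → ZMod Q → ℝ) {N : ℕ} (hN : 0 < N) (p0 p1 p2 : ZMod Q) :
    |Lbox F0 F1 F2 N p0 p1 p2| ≤ (Real.pi / 2) *
      (Gam (hsgn N) (abar F0 (N + N) (N + N) p0 p1 +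
          abar (fun x y => F1 y x) (N + N) (N + N) p2 p1) +
       Gam (hsgn N) (abar F1 (N + N) (N + N) p1 p2 +
          abar (fun x y => F2 y x) (N + N) (N + N) p0 p2) +
       Gam (hsgn N) (abar F2 (N + N) (N + N) p2 p0 +
          abar (fun x y => F0 y x) (N + N) (N + N) p1 p0)) := by
  have hN' : 0 < N + N := by omega
  have hc : (0 : ℝ) < (N : ℝ) + N := by positivity
  have hnode := node_ineq (blkm F0 (N + N) p0 p1) (blkm F1 (N + N) p1 p2) (blkm F2 (N + N) p2 p0)
    (hsgn N) (hsgn N) (hsgn N) (hsgn_mul_self N) (hsgn_mul_self N) (hsgn_mul_self N)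
  rw [transpose_mul_blkm F0 hN', transpose_mul_blkm F1 hN', transpose_mul_blkm F2 hN',
    mul_transpose_blkm F0 hN', mul_transpose_blkm F1 hN', mul_transpose_blkm F2 hN',
    ← smul_add, ← smul_add, ← smul_add,
    Gam_smul (abar_add_posSemidef _ _ _ _ _ _ _ _) _ (by positivity),
    Gam_smul (abar_add_posSemidef _ _ _ _ _ _ _ _) _ (by positivity),
    Gam_smul (abar_add_posSemidef _ _ _ _ _ _ _ _) _ (by positivity)] at hnode
  rw [Lbox_eq, abs_mul, abs_of_nonneg (by positivity : (0 : ℝ) ≤ 1 / ((N : ℝ) + N) ^ 3)]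
  push_cast at hnode
  rw [div_mul_eq_mul_div, one_mul, div_le_iff₀ (by positivity)]
  refine hnode.trans (le_of_eq ?_)
  rw [add_comm (abar (fun x y => F0 y x) (N + N) (N + N) p1 p0)
    (abar F2 (N + N) (N + N) p2 p0)]
  ring

theorem GW_alt1 (X Z : ZMod Q → ZMod Q → ℝ) (a r : ℕ) (n : ZMod Q) :
    GW X Z a r n = ∑ q : ZMod Q, ∑ p : ZMod Q,
      Gam (hsgn r) (abar X a (r + r) q p + abar Z a (r + r) (n - q - p) p) := by
  unfold GW
  rw [Finset.sum_comm]
  refine Finset.sum_congr rfl fun q _ => Finset.sum_congr rfl fun p _ => ?_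
  rw [sub_right_comm]

theorem GW_alt2 (X Z : ZMod Q → ZMod Q → ℝ) (a r : ℕ) (n : ZMod Q) :
    GW X Z a r n = ∑ p : ZMod Q, ∑ t : ZMod Q,
      Gam (hsgn r) (abar X a (r + r) (n - p - t) p + abar Z a (r + r) t p) := by
  unfold GW
  refine Finset.sum_congr rfl fun p _ => ?_
  rw [← sum_sub_left' (fun q => Gam (hsgn r) (abar X a (r + r) q p +
    abar Z a (r + r) (n - p - q) p)) (n - p)]
  refine Finset.sum_congr rfl fun t _ => ?_
  rw [sub_sub_cancel]

theorem GW_alt3 (X Z : ZMod Q → ZMod Q → ℝ) (a r : ℕ) (n : ZMod Q) :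
    GW X Z a r n = ∑ t : ZMod Q, ∑ q : ZMod Q,
      Gam (hsgn r) (abar X a (r + r) q (n - t - q) + abar Z a (r + r) t (n - t - q)) := by
  rw [GW_alt1, Finset.sum_comm (s := univ) (t := univ)]
  have h : ∀ q : ZMod Q, ∑ p : ZMod Q,
      Gam (hsgn r) (abar X a (r + r) q p + abar Z a (r + r) (n - q - p) p) =
      ∑ t : ZMod Q,
      Gam (hsgn r) (abar X a (r + r) q (n - t - q) + abar Z a (r + r) t (n - t - q)) := by
    intro q
    rw [← sum_sub_left' (fun p => Gam (hsgn r) (abar X a (r + r) q p +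
      abar Z a (r + r) (n - q - p) p)) (n - q)]
    refine Finset.sum_congr rfl fun t _ => ?_
    rw [sub_sub_cancel, sub_right_comm]
  rw [Finset.sum_comm]
  simp only [h]
  rw [Finset.sum_comm]

/-- node inequality summed over all boxes with `p0 + p1 + p2 = n` -/
theorem Lbox_le (F0 F1 F2 : ZMod Q → ZMod Q → ℝ) {N : ℕ} (hN : 0 < N) (n : ZMod Q) :
    ∑ p0 : ZMod Q, ∑ p1 : ZMod Q, |Lbox F0 F1 F2 N p0 p1 (n - p0 - p1)| ≤
      (Real.pi / 2) *
        (GW F0 (fun x y => F1 y x) (N + N) N n + GW F1 (fun x y => F2 y x) (N + N) N n +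
          GW F2 (fun x y => F0 y x) (N + N) N n) := by
  rw [GW_alt1 F0, GW_alt3 F1, GW_alt2 F2, ← Finset.sum_add_distrib, ← Finset.sum_add_distrib,
    Finset.mul_sum]
  refine Finset.sum_le_sum fun p0 _ => ?_
  rw [← Finset.sum_add_distrib, ← Finset.sum_add_distrib, Finset.mul_sum]
  exact Finset.sum_le_sum fun p1 _ => Lbox_le_one F0 F1 F2 hN p0 p1 (n - p0 - p1)

end Crest.Agent.R072.Lattice
end

-- ▼ part R072/LatB
section

/-! R072: lattice potentials on `ZMod Q`, part 2 (blueprint part 2, (SL), (C4), (C5)). Task T8. -/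

set_option autoImplicit false

namespace Crest.Agent.R072.Lattice

open Matrix Finset Crest.Agent.R072
open scoped MatrixOrder

set_option linter.unusedVariables false
set_option linter.unusedSectionVars false

variable {Q : ℕ} [NeZero Q]

theorem sum_range_mul_aux (f : ℕ → ℝ) (K N : ℕ) :
    ∑ i ∈ range (K * N), f i = ∑ i ∈ range K, ∑ j ∈ range N, f (i * N + j) := by
  induction K with
  | zero => simp
  | succ K ih => rw [Nat.succ_mul, Finset.sum_range_add, ih, Finset.sum_range_succ]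

/-- `KN`-averages are averages of shifted `N`-averages -/
theorem abar_mul (X : ZMod Q → ZMod Q → ℝ) {K N r : ℕ} (hK : 0 < K) (hN : 0 < N) (q p : ZMod Q) :
    abar X (K * N) r q p =
      (1 / (K : ℝ)) • ∑ i ∈ range K, abar X N r (q + (i : ZMod Q) * N) p := by
  have hK' : (K : ℝ) ≠ 0 := by positivity
  have hN' : (N : ℝ) ≠ 0 := by positivity
  ext j j'
  rw [Matrix.smul_apply, Matrix.sum_apply]
  unfold abar
  rw [sum_range_mul_aux, smul_eq_mul, ← Finset.mul_sum, ← mul_assoc]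
  congr 1
  · push_cast
    rw [mul_assoc, one_div_mul_one_div]
  · refine Finset.sum_congr rfl fun i _ => Finset.sum_congr rfl fun k _ => ?_
    have : q + ((i * N + k : ℕ) : ZMod Q) = q + (i : ZMod Q) * N + (k : ZMod Q) := by
      push_cast; ring
    rw [this]

theorem abar_two (X : ZMod Q → ZMod Q → ℝ) {N r : ℕ} (hN : 0 < N) (q p : ZMod Q) :
    abar X (N + N) r q p = (1 / 2 : ℝ) • (abar X N r q p + abar X N r (q + N) p) := by
  have h := abar_mul X (K := 2) (r := r) (by norm_num) hN q p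
  rw [two_mul] at h
  rw [h]
  simp [Finset.sum_range_succ]

theorem sum_shift (F : ZMod Q → ℝ) (c : ZMod Q) : ∑ q : ZMod Q, F (q + c) = ∑ q : ZMod Q, F q :=
  Equiv.sum_comp (Equiv.addRight c) F

/-- Bregman divergence of the `i`-th block to the `KN`-average, summed over all positions -/
noncomputable def BB (X : ZMod Q → ZMod Q → ℝ) (K N r : ℕ) (p : ZMod Q) (i : ℕ) : ℝ :=
  ∑ q : ZMod Q, breg (abar X N r (q + (i : ZMod Q) * N) p) (abar X (K * N) r q p)

theorem BB_nonneg (X : ZMod Q → ZMod Q → ℝ) (K N r : ℕ) (p : ZMod Q) (i : ℕ) :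
    0 ≤ BB X K N r p i :=
  Finset.sum_nonneg fun q _ => breg_nonneg (abar_posSemidef X _ _ _ _) (abar_posSemidef X _ _ _ _)

theorem sum_BB (X : ZMod Q → ZMod Q → ℝ) {K N r : ℕ} (hK : 0 < K) (hN : 0 < N) (p : ZMod Q) :
    ∑ i ∈ range K, BB X K N r p i =
      K * (∑ q : ZMod Q, phi (abar X N r q p) - ∑ q : ZMod Q, phi (abar X (K * N) r q p)) := by
  unfold BB
  rw [Finset.sum_comm]
  have h1 : ∀ q : ZMod Q, ∑ i ∈ range K,
      breg (abar X N r (q + (i : ZMod Q) * N) p) (abar X (K * N) r q p) =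
      ∑ i ∈ range K, phi (abar X N r (q + (i : ZMod Q) * N) p) -
        K * phi (abar X (K * N) r q p) := by
    intro q
    rw [abar_mul X hK hN q p]
    have h := sum_breg_avg (range K) ⟨0, Finset.mem_range.2 hK⟩
      (fun i => abar X N r (q + (i : ZMod Q) * N) p) (fun i _ => abar_posSemidef X _ _ _ _)
    rw [Finset.card_range] at h
    exact h
  rw [Finset.sum_congr rfl fun q _ => h1 q, Finset.sum_sub_distrib, Finset.sum_comm,
    ← Finset.mul_sum]
  have h2 : ∀ i ∈ range K, ∑ q : ZMod Q, phi (abar X N r (q + (i : ZMod Q) * N) p) =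
      ∑ q : ZMod Q, phi (abar X N r q p) := fun i _ =>
    sum_shift (fun q => phi (abar X N r q p)) ((i : ZMod Q) * N)
  rw [Finset.sum_congr rfl h2, Finset.sum_const, Finset.card_range, nsmul_eq_mul]
  ring

/-- partial sums of shifted blocks are bounded by the full sum -/
theorem sum_BB_shift_le (X : ZMod Q → ZMod Q → ℝ) (K N r : ℕ) (p : ZMod Q) (L c : ℕ)
    (h : L + c ≤ K) :
    ∑ i ∈ range L, BB X K N r p (i + c) ≤ ∑ i ∈ range K, BB X K N r p i := by
  have h1 : ∑ i ∈ range L, BB X K N r p (i + c) = ∑ i ∈ Finset.Ico c (L + c), BB X K N r p i := by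
    rw [Finset.sum_Ico_eq_sum_range]
    simp [add_comm]
  rw [h1]
  apply Finset.sum_le_sum_of_subset_of_nonneg
  · intro i hi
    rw [Finset.mem_Ico] at hi
    exact Finset.mem_range.2 (by omega)
  · intro i _ _
    exact BB_nonneg X K N r p i

theorem gap_shift_nat (X : ZMod Q → ZMod Q → ℝ) {N r : ℕ} (hN : 0 < N) (s K : ℕ)
    (hK : 0 < K) (hs : 2 * s ≤ K) (p : ZMod Q) :
    ∑ q : ZMod Q, gap (abar X N r q p) (abar X N r (q + (s : ZMod Q) * N) p) ≤
      4 * (∑ q : ZMod Q, phi (abar X N r q p) - ∑ q : ZMod Q, phi (abar X (K * N) r q p)) := by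
  set G := ∑ q : ZMod Q, gap (abar X N r q p) (abar X N r (q + (s : ZMod Q) * N) p) with hG
  set D := ∑ q : ZMod Q, phi (abar X N r q p) - ∑ q : ZMod Q, phi (abar X (K * N) r q p) with hD
  have hsum : ∑ i ∈ range K, BB X K N r p i = K * D := sum_BB X hK hN p
  have hD0 : 0 ≤ D := by
    have h1 : 0 ≤ ∑ i ∈ range K, BB X K N r p i :=
      Finset.sum_nonneg fun i _ => BB_nonneg X K N r p i
    rw [hsum] at h1
    have : (0 : ℝ) < K := by exact_mod_cast hK
    exact nonneg_of_mul_nonneg_right h1 this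
  have hi : ∀ i : ℕ, G ≤ BB X K N r p i + BB X K N r p (i + s) := by
    intro i
    have e1 : G = ∑ q : ZMod Q, gap (abar X N r (q + (i : ZMod Q) * N) p)
        (abar X N r (q + ((i + s : ℕ) : ZMod Q) * N) p) := by
      rw [hG, ← sum_shift _ ((i : ZMod Q) * (N : ZMod Q))]
      refine Finset.sum_congr rfl fun q _ => ?_
      have : q + (i : ZMod Q) * N + (s : ZMod Q) * N = q + ((i + s : ℕ) : ZMod Q) * N := by
        push_cast; ring
      rw [this]
    rw [e1]
    unfold BB
    rw [← Finset.sum_add_distrib]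
    exact Finset.sum_le_sum fun q _ => gap_le_breg (abar_posSemidef X _ _ _ _)
      (abar_posSemidef X _ _ _ _) (abar_posSemidef X _ _ _ _)
  have hsum2 : ((K - s : ℕ) : ℝ) * G ≤ 2 * (K * D) := by
    have h1 : ∑ _i ∈ range (K - s), G ≤
        ∑ i ∈ range (K - s), (BB X K N r p i + BB X K N r p (i + s)) :=
      Finset.sum_le_sum fun i _ => hi i
    rw [Finset.sum_const, Finset.card_range, nsmul_eq_mul, Finset.sum_add_distrib] at h1
    have h2 := sum_BB_shift_le X K N r p (K - s) 0 (by omega)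
    have h3 := sum_BB_shift_le X K N r p (K - s) s (by omega)
    simp only [add_zero] at h2
    rw [hsum] at h2 h3
    linarith
  have hKs : (K : ℝ) ≤ 2 * ((K - s : ℕ) : ℝ) := by
    have : K ≤ 2 * (K - s) := by omega
    exact_mod_cast this
  have hpos : (0 : ℝ) < ((K - s : ℕ) : ℝ) := by
    have : 0 < K - s := by omega
    exact_mod_cast this
  have h5 : ((K - s : ℕ) : ℝ) * G ≤ ((K - s : ℕ) : ℝ) * (4 * D) := by
    nlinarith
  exact le_of_mul_le_mul_left h5 hpos

theorem gap_shift_two_nat (X : ZMod Q → ZMod Q → ℝ) {N r : ℕ} (hN : 0 < N) (s K : ℕ)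
    (hs : 2 * (s + 1) ≤ K) (p : ZMod Q) :
    ∑ q : ZMod Q, gap (abar X (N + N) r q p) (abar X (N + N) r (q + (s : ZMod Q) * N) p) ≤
      4 * (∑ q : ZMod Q, phi (abar X N r q p) - ∑ q : ZMod Q, phi (abar X (K * N) r q p)) := by
  have hK : 0 < K := by omega
  set G := ∑ q : ZMod Q, gap (abar X (N + N) r q p) (abar X (N + N) r (q + (s : ZMod Q) * N) p)
    with hG
  set D := ∑ q : ZMod Q, phi (abar X N r q p) - ∑ q : ZMod Q, phi (abar X (K * N) r q p) with hD
  have hsum : ∑ i ∈ range K, BB X K N r p i = K * D := sum_BB X hK hN p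
  have hD0 : 0 ≤ D := by
    have h1 : 0 ≤ ∑ i ∈ range K, BB X K N r p i :=
      Finset.sum_nonneg fun i _ => BB_nonneg X K N r p i
    rw [hsum] at h1
    have : (0 : ℝ) < K := by exact_mod_cast hK
    exact nonneg_of_mul_nonneg_right h1 this
  have hb : ∀ (q : ZMod Q) (i : ℕ),
      breg (abar X (N + N) r (q + (i : ZMod Q) * N) p) (abar X (K * N) r q p) ≤
      (breg (abar X N r (q + (i : ZMod Q) * N) p) (abar X (K * N) r q p) +
        breg (abar X N r (q + ((i + 1 : ℕ) : ZMod Q) * N) p) (abar X (K * N) r q p)) / 2 := by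
    intro q i
    rw [abar_two X hN]
    have : q + (i : ZMod Q) * N + N = q + ((i + 1 : ℕ) : ZMod Q) * N := by
      push_cast; ring
    rw [this]
    exact breg_mid_le (abar_posSemidef X _ _ _ _) (abar_posSemidef X _ _ _ _)
      (abar_posSemidef X _ _ _ _)
  have hi : ∀ i : ℕ, G ≤ (BB X K N r p i + BB X K N r p (i + 1)) / 2 +
      (BB X K N r p (i + s) + BB X K N r p (i + (s + 1))) / 2 := by
    intro i
    have e1 : G = ∑ q : ZMod Q, gap (abar X (N + N) r (q + (i : ZMod Q) * N) p)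
        (abar X (N + N) r (q + ((i + s : ℕ) : ZMod Q) * N) p) := by
      rw [hG, ← sum_shift _ ((i : ZMod Q) * (N : ZMod Q))]
      refine Finset.sum_congr rfl fun q _ => ?_
      have : q + (i : ZMod Q) * N + (s : ZMod Q) * N = q + ((i + s : ℕ) : ZMod Q) * N := by
        push_cast; ring
      rw [this]
    have e2 : (BB X K N r p i + BB X K N r p (i + 1)) / 2 +
        (BB X K N r p (i + s) + BB X K N r p (i + (s + 1))) / 2 =
        ∑ q : ZMod Q, ((breg (abar X N r (q + (i : ZMod Q) * N) p) (abar X (K * N) r q p) +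
          breg (abar X N r (q + ((i + 1 : ℕ) : ZMod Q) * N) p) (abar X (K * N) r q p)) / 2 +
          (breg (abar X N r (q + ((i + s : ℕ) : ZMod Q) * N) p) (abar X (K * N) r q p) +
          breg (abar X N r (q + ((i + s + 1 : ℕ) : ZMod Q) * N) p) (abar X (K * N) r q p)) / 2) := by
      unfold BB
      rw [← add_assoc i s 1]
      rw [Finset.sum_add_distrib, ← Finset.sum_div, ← Finset.sum_div, Finset.sum_add_distrib,
        Finset.sum_add_distrib]
    rw [e1, e2]
    refine Finset.sum_le_sum fun q _ => ?_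
    refine (gap_le_breg (abar_posSemidef X _ _ _ _)
      (abar_posSemidef X _ _ _ _) (abar_posSemidef X (K * N) r q p)).trans ?_
    exact add_le_add (hb q i) (hb q (i + s))
  have hsum2 : ((K - (s + 1) : ℕ) : ℝ) * G ≤ 2 * (K * D) := by
    have h1 : ∑ _i ∈ range (K - (s + 1)), G ≤
        ∑ i ∈ range (K - (s + 1)), ((BB X K N r p i + BB X K N r p (i + 1)) / 2 +
          (BB X K N r p (i + s) + BB X K N r p (i + (s + 1))) / 2) :=
      Finset.sum_le_sum fun i _ => hi i
    rw [Finset.sum_const, Finset.card_range, nsmul_eq_mul, Finset.sum_add_distrib,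
      ← Finset.sum_div, ← Finset.sum_div, Finset.sum_add_distrib, Finset.sum_add_distrib] at h1
    have h2 := sum_BB_shift_le X K N r p (K - (s + 1)) 0 (by omega)
    have h3 := sum_BB_shift_le X K N r p (K - (s + 1)) 1 (by omega)
    have h4 := sum_BB_shift_le X K N r p (K - (s + 1)) s (by omega)
    have h5 := sum_BB_shift_le X K N r p (K - (s + 1)) (s + 1) (by omega)
    simp only [add_zero] at h2
    rw [hsum] at h2 h3 h4 h5
    linarith
  have hKs : (K : ℝ) ≤ 2 * ((K - (s + 1) : ℕ) : ℝ) := by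
    have : K ≤ 2 * (K - (s + 1)) := by omega
    exact_mod_cast this
  have hpos : (0 : ℝ) < ((K - (s + 1) : ℕ) : ℝ) := by
    have : 0 < K - (s + 1) := by omega
    exact_mod_cast this
  have h5 : ((K - (s + 1) : ℕ) : ℝ) * G ≤ ((K - (s + 1) : ℕ) : ℝ) * (4 * D) := by
    nlinarith
  exact le_of_mul_le_mul_left h5 hpos

/-- (SL) for `N`-averages -/
theorem gap_shift (X : ZMod Q → ZMod Q → ℝ) {N r : ℕ} (hN : 0 < N) (hr : 0 < r) (s : ℤ) (K : ℕ)
    (hK : 0 < K) (hs : 2 * |s| ≤ K) :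
    ∑ p : ZMod Q, ∑ q : ZMod Q,
      gap (abar X N r q p) (abar X N r (q + (s : ZMod Q) * N) p) ≤
      4 * (EW X N r - EW X (K * N) r) := by
  have hs' : 2 * s.natAbs ≤ K := by
    have : ((s.natAbs : ℕ) : ℤ) = |s| := Int.natCast_natAbs s
    omega
  unfold EW
  rw [← Finset.sum_sub_distrib, Finset.mul_sum]
  refine Finset.sum_le_sum fun p _ => ?_
  refine le_trans (le_of_eq ?_) (gap_shift_nat X hN s.natAbs K hK hs' p)
  rcases Int.natAbs_eq s with h | h
  · rw [h]; simp
  · rw [← sum_shift (fun q => gap (abar X N r q p) (abar X N r (q + (s : ZMod Q) * N) p))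
      ((s.natAbs : ZMod Q) * N)]
    refine Finset.sum_congr rfl fun q _ => ?_
    have e : q + (s.natAbs : ZMod Q) * N + (s : ZMod Q) * N = q := by
      have : (s : ZMod Q) = -((s.natAbs : ℕ) : ZMod Q) := by
        have h2 : (s : ZMod Q) = ((-(s.natAbs : ℤ) : ℤ) : ZMod Q) := congrArg _ h
        rw [h2, Int.cast_neg, Int.cast_natCast]
      rw [this]; ring
    rw [e, gap_comm]

/-- (SL) for `2N`-averages with shifts in `N ℤ` -/
theorem gap_shift_two (X : ZMod Q → ZMod Q → ℝ) {N r : ℕ} (hN : 0 < N) (hr : 0 < r) (s : ℤ)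
    (K : ℕ) (hs : 2 * (|s| + 1) ≤ K) :
    ∑ p : ZMod Q, ∑ q : ZMod Q,
      gap (abar X (N + N) r q p) (abar X (N + N) r (q + (s : ZMod Q) * N) p) ≤
      4 * (EW X N r - EW X (K * N) r) := by
  have hs' : 2 * (s.natAbs + 1) ≤ K := by
    have : ((s.natAbs : ℕ) : ℤ) = |s| := Int.natCast_natAbs s
    omega
  unfold EW
  rw [← Finset.sum_sub_distrib, Finset.mul_sum]
  refine Finset.sum_le_sum fun p _ => ?_
  refine le_trans (le_of_eq ?_) (gap_shift_two_nat X hN s.natAbs K hs' p)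
  rcases Int.natAbs_eq s with h | h
  · rw [h]; simp
  · rw [← sum_shift (fun q => gap (abar X (N + N) r q p)
      (abar X (N + N) r (q + (s : ZMod Q) * N) p)) ((s.natAbs : ZMod Q) * N)]
    refine Finset.sum_congr rfl fun q _ => ?_
    have e : q + (s.natAbs : ZMod Q) * N + (s : ZMod Q) * N = q := by
      have : (s : ZMod Q) = -((s.natAbs : ℕ) : ZMod Q) := by
        have h2 : (s : ZMod Q) = ((-(s.natAbs : ℤ) : ℤ) : ZMod Q) := congrArg _ h
        rw [h2, Int.cast_neg, Int.cast_natCast]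
      rw [this]; ring
    rw [e, gap_comm]

/-- general mixed difference estimate for `W` -/
theorem W_mixed_gen (X Z : ZMod Q → ZMod Q → ℝ) (a r : ℕ) (n c d : ZMod Q) (ex ez : ℝ)
    (hX : ∑ p : ZMod Q, ∑ q : ZMod Q, gap (abar X a r q p) (abar X a r (q + c) p) ≤ 4 * ex)
    (hZ : ∑ p : ZMod Q, ∑ q : ZMod Q, gap (abar Z a r q p) (abar Z a r (q + d) p) ≤ 4 * ez) :
    |W X Z a r n + W X Z a r (n + (c + d)) - W X Z a r (n + c) - W X Z a r (n + d)| ≤
      16 * (ex + ez) := by
  -- the four sums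
  have e00 : W X Z a r n = ∑ p : ZMod Q, ∑ q : ZMod Q,
      phi (abar X a r q p + abar Z a r (n - p - q) p) := rfl
  have e11 : W X Z a r (n + (c + d)) = ∑ p : ZMod Q, ∑ q : ZMod Q,
      phi (abar X a r (q + c) p + abar Z a r (n - p - q + d) p) := by
    unfold W
    refine Finset.sum_congr rfl fun p _ => ?_
    rw [← sum_shift _ c]
    refine Finset.sum_congr rfl fun q _ => ?_
    have : n + (c + d) - p - (q + c) = n - p - q + d := by ring
    rw [this]
  have e10 : W X Z a r (n + c) = ∑ p : ZMod Q, ∑ q : ZMod Q,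
      phi (abar X a r (q + c) p + abar Z a r (n - p - q) p) := by
    unfold W
    refine Finset.sum_congr rfl fun p _ => ?_
    rw [← sum_shift _ c]
    refine Finset.sum_congr rfl fun q _ => ?_
    have : n + c - p - (q + c) = n - p - q := by ring
    rw [this]
  have e01 : W X Z a r (n + d) = ∑ p : ZMod Q, ∑ q : ZMod Q,
      phi (abar X a r q p + abar Z a r (n - p - q + d) p) := by
    unfold W
    refine Finset.sum_congr rfl fun p _ => Finset.sum_congr rfl fun q _ => ?_
    have : n + d - p - q = n - p - q + d := by ring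
    rw [this]
  have hZ' : ∑ p : ZMod Q, ∑ q : ZMod Q,
      gap (abar Z a r (n - p - q) p) (abar Z a r (n - p - q + d) p) ≤ 4 * ez := by
    refine le_trans (le_of_eq ?_) hZ
    refine Finset.sum_congr rfl fun p _ => ?_
    exact Equiv.sum_comp (Equiv.subLeft (n - p))
      (fun q => gap (abar Z a r q p) (abar Z a r (q + d) p))
  have hup : ∀ p q : ZMod Q,
      |phi (abar X a r q p + abar Z a r (n - p - q) p) +
        phi (abar X a r (q + c) p + abar Z a r (n - p - q + d) p) -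
        phi (abar X a r (q + c) p + abar Z a r (n - p - q) p) -
        phi (abar X a r q p + abar Z a r (n - p - q + d) p)| ≤
      4 * (gap (abar X a r q p) (abar X a r (q + c) p) +
        gap (abar Z a r (n - p - q) p) (abar Z a r (n - p - q + d) p)) := by
    intro p q
    have h1 := phi_mixed_le (abar_posSemidef X a r q p) (abar_posSemidef X a r (q + c) p)
      (abar_posSemidef Z a r (n - p - q) p) (abar_posSemidef Z a r (n - p - q + d) p)
    have h2 := phi_mixed_le (abar_posSemidef X a r q p) (abar_posSemidef X a r (q + c) p)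
      (abar_posSemidef Z a r (n - p - q + d) p) (abar_posSemidef Z a r (n - p - q) p)
    rw [gap_comm (abar Z a r (n - p - q + d) p)] at h2
    rw [abs_le]
    constructor <;> linarith
  rw [e00, e11, e10, e01]
  simp only [← Finset.sum_add_distrib, ← Finset.sum_sub_distrib]
  calc _ ≤ ∑ p : ZMod Q, ∑ q : ZMod Q,
      |phi (abar X a r q p + abar Z a r (n - p - q) p) +
        phi (abar X a r (q + c) p + abar Z a r (n - p - q + d) p) -
        phi (abar X a r (q + c) p + abar Z a r (n - p - q) p) -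
        phi (abar X a r q p + abar Z a r (n - p - q + d) p)| :=
        (Finset.abs_sum_le_sum_abs _ _).trans
          (Finset.sum_le_sum fun p _ => Finset.abs_sum_le_sum_abs _ _)
    _ ≤ ∑ p : ZMod Q, ∑ q : ZMod Q,
      4 * (gap (abar X a r q p) (abar X a r (q + c) p) +
        gap (abar Z a r (n - p - q) p) (abar Z a r (n - p - q + d) p)) :=
        Finset.sum_le_sum fun p _ => Finset.sum_le_sum fun q _ => hup p q
    _ = 4 * (∑ p : ZMod Q, ∑ q : ZMod Q, gap (abar X a r q p) (abar X a r (q + c) p) +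
        ∑ p : ZMod Q, ∑ q : ZMod Q,
          gap (abar Z a r (n - p - q) p) (abar Z a r (n - p - q + d) p)) := by
        simp only [← Finset.mul_sum, Finset.sum_add_distrib]
    _ ≤ 16 * (ex + ez) := by linarith

/-- (C4) for `N`-averages -/
theorem W_mixed (X Z : ZMod Q → ZMod Q → ℝ) {N r : ℕ} (hN : 0 < N) (hr : 0 < r) (n : ZMod Q)
    (s t : ℤ) (K : ℕ) (hK : 0 < K) (hs : 2 * |s| ≤ K) (ht : 2 * |t| ≤ K) :
    |W X Z N r n + W X Z N r (n + (s + t : ℤ) * N) - W X Z N r (n + (s : ZMod Q) * N) -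
        W X Z N r (n + (t : ZMod Q) * N)| ≤
      16 * (EW X N r - EW X (K * N) r + (EW Z N r - EW Z (K * N) r)) := by
  have h := W_mixed_gen X Z N r n ((s : ZMod Q) * N) ((t : ZMod Q) * N) _ _
    (gap_shift X hN hr s K hK hs) (gap_shift Z hN hr t K hK ht)
  have e : ((s + t : ℤ) : ZMod Q) * N = (s : ZMod Q) * N + (t : ZMod Q) * N := by
    push_cast; ring
  rw [e]
  exact h

/-- (C4) for `2N`-averages -/
theorem W_mixed_two (X Z : ZMod Q → ZMod Q → ℝ) {N r : ℕ} (hN : 0 < N) (hr : 0 < r) (n : ZMod Q)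
    (s t : ℤ) (K : ℕ) (hs : 2 * (|s| + 1) ≤ K) (ht : 2 * (|t| + 1) ≤ K) :
    |W X Z (N + N) r n + W X Z (N + N) r (n + (s + t : ℤ) * N) -
        W X Z (N + N) r (n + (s : ZMod Q) * N) - W X Z (N + N) r (n + (t : ZMod Q) * N)| ≤
      16 * (EW X N r - EW X (K * N) r + (EW Z N r - EW Z (K * N) r)) := by
  have h := W_mixed_gen X Z (N + N) r n ((s : ZMod Q) * N) ((t : ZMod Q) * N) _ _
    (gap_shift_two X hN hr s K hs) (gap_shift_two Z hN hr t K ht)
  have e : ((s + t : ℤ) : ZMod Q) * N = (s : ZMod Q) * N + (t : ZMod Q) * N := by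
    push_cast; ring
  rw [e]
  exact h

theorem EW_pow_r (X : ZMod Q → ZMod Q → ℝ) {a r : ℕ} (ha : 0 < a) (hr : 0 < r) (κ : ℕ) :
    EW X a (2 ^ κ * r) ≤ EW X a r := by
  induction κ with
  | zero => simp
  | succ κ ih =>
    have h := EW_double_r X ha (r := 2 ^ κ * r) (by positivity)
    have e : 2 ^ (κ + 1) * r = 2 ^ κ * r + 2 ^ κ * r := by ring
    rw [e]
    exact h.trans ih

theorem GW_nonneg (X Z : ZMod Q → ZMod Q → ℝ) (a r : ℕ) (n : ZMod Q) : 0 ≤ GW X Z a r n :=
  Finset.sum_nonneg fun p _ => Finset.sum_nonneg fun q _ =>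
    Gam_nonneg ((abar_posSemidef X _ _ _ _).add (abar_posSemidef Z _ _ _ _)) _ (hsgn_mul_self r)

/-- (C5) **key potential estimate**: shifted gap at scale `N = 2^m`, position `l N`. -/
theorem gap_pot (X Z : ZMod Q → ZMod Q → ℝ) (m κ : ℕ) (l : ℤ) (hκ : 2 * |l| + 10 ≤ 2 ^ κ) :
    (1 / 2) * GW X Z (2 ^ m + 2 ^ m) (2 ^ m) ((l : ZMod Q) * (2 ^ m : ℕ)) ≤
      2 * (Vref X Z (2 ^ m) - Vref X Z (2 ^ (m + 1))) +
        32 * (EE X Z (2 ^ m) - EE X Z (2 ^ (m + κ))) := by
  set N : ℕ := 2 ^ m with hNdef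
  have hN : 0 < N := by positivity
  have hN2 : (2 : ℕ) ^ (m + 1) = N + N := by rw [hNdef]; ring
  have hNK : (2 : ℕ) ^ (m + κ) = 2 ^ κ * N := by rw [hNdef]; ring
  rw [hN2, hNK]
  set K : ℕ := 2 ^ κ with hKdef
  have hK : 0 < K := by positivity
  have hκ' : 2 * |l| + 10 ≤ (K : ℤ) := by rw [hKdef]; exact_mod_cast hκ
  have hl1 := le_abs_self l
  have hl2 := neg_abs_le l
  -- the position and its mirror
  set n : ZMod Q := (l : ZMod Q) * (N : ℕ) with hn
  set n' : ZMod Q := -(6 * (N : ZMod Q)) - n with hn'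
  have h1 := half_GW_le X Z hN n
  have h2 := half_GW_le X Z hN n'
  have h2' := GW_nonneg X Z (N + N) N n'
  -- error terms
  set DX := EW X N N - EW X (K * N) (K * N) with hDX
  set DZ := EW Z N N - EW Z (K * N) (K * N) with hDZ
  have hKN : 0 < K * N := by positivity
  have hEK : ∀ Y : ZMod Q → ZMod Q → ℝ, EW Y (K * N) (K * N) ≤ EW Y (K * N) N :=
    fun Y => EW_pow_r Y hKN hN κ
  have hκ1 : 1 ≤ κ := by
    rcases Nat.eq_zero_or_pos κ with h | h
    · exfalso
      have h3 : K = 1 := by rw [hKdef, h]; norm_num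
      rw [h3] at hκ'
      push_cast at hκ'
      have := abs_nonneg l
      omega
    · exact h
  have hEK2 : ∀ Y : ZMod Q → ZMod Q → ℝ, EW Y (K * N) (K * N) ≤ EW Y (K * N) (N + N) := by
    intro Y
    have h3 := EW_pow_r Y hKN (r := N + N) (by omega) (κ - 1)
    have e : 2 ^ (κ - 1) * (N + N) = K * N := by
      rw [hKdef, ← two_mul, ← mul_assoc, ← pow_succ, Nat.sub_add_cancel hκ1]
    rwa [e] at h3
  have hE2 : ∀ Y : ZMod Q → ZMod Q → ℝ, EW Y N (N + N) ≤ EW Y N N := fun Y => EW_double_r Y hN hN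
  -- N-scale comparison: for position `j N`
  have hA : ∀ j : ℤ, |j| ≤ |l| + 2 →
      W X Z N N ((j : ZMod Q) * N) + W X Z N N (-(3 * (N : ZMod Q)) - (j : ZMod Q) * N) ≤
        2 * Vref X Z N + 16 * (DX + DZ) := by
    intro j hj
    have hj1 := le_abs_self j
    have hj2 := neg_abs_le j
    have h3 := W_mixed X Z hN hN (-(2 * (N : ZMod Q))) (j + 2) (-1 - j) K hK
      (by rcases abs_cases (j + 2) with h | h <;> omega)
      (by rcases abs_cases (-1 - j) with h | h <;> omega)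
    have e1 : -(2 * (N : ZMod Q)) + ((j + 2 + (-1 - j) : ℤ) : ZMod Q) * N = -(N : ZMod Q) := by
      push_cast; ring
    have e2 : -(2 * (N : ZMod Q)) + ((j + 2 : ℤ) : ZMod Q) * N = (j : ZMod Q) * N := by
      push_cast; ring
    have e3 : -(2 * (N : ZMod Q)) + ((-1 - j : ℤ) : ZMod Q) * N =
        -(3 * (N : ZMod Q)) - (j : ZMod Q) * N := by
      push_cast; ring
    rw [e1, e2, e3] at h3
    have h4 := (abs_le.1 h3).1
    have h5 := hEK X
    have h6 := hEK Z
    unfold Vref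
    linarith
  -- 2N-scale comparison
  have hB : 2 * Vref X Z (N + N) - 16 * (DX + DZ) ≤
      W X Z (N + N) (N + N) n + W X Z (N + N) (N + N) n' := by
    have h3 := W_mixed_two X Z hN (r := N + N) (by omega) (-(4 * (N : ZMod Q))) (l + 4) (-2 - l) K
      (by rcases abs_cases (l + 4) with h | h <;> omega)
      (by rcases abs_cases (-2 - l) with h | h <;> omega)
    have e1 : -(4 * (N : ZMod Q)) + ((l + 4 + (-2 - l) : ℤ) : ZMod Q) * N =
        -((N + N : ℕ) : ZMod Q) := by
      push_cast; ring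
    have e2 : -(4 * (N : ZMod Q)) + ((l + 4 : ℤ) : ZMod Q) * N = n := by
      rw [hn]; push_cast; ring
    have e3 : -(4 * (N : ZMod Q)) + ((-2 - l : ℤ) : ZMod Q) * N = n' := by
      rw [hn', hn]; push_cast; ring
    have e0 : -(4 * (N : ZMod Q)) = -(2 * ((N + N : ℕ) : ZMod Q)) := by
      push_cast; ring
    rw [e1, e2, e3, e0] at h3
    have h4 := (abs_le.1 h3).2
    have h5 := hEK2 X
    have h6 := hEK2 Z
    have h7 := hE2 X
    have h8 := hE2 Z
    unfold Vref
    linarith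
  have hA1 := hA (l + 1) (by rcases abs_cases (l + 1) with h | h <;> omega)
  have hA2 := hA (l + 2) (by rcases abs_cases (l + 2) with h | h <;> omega)
  have f1 : ((l + 1 : ℤ) : ZMod Q) * N = n + N := by rw [hn]; push_cast; ring
  have f2 : -(3 * (N : ZMod Q)) - (n + N) = n' + 2 * N := by rw [hn']; ring
  have f3 : ((l + 2 : ℤ) : ZMod Q) * N = n + 2 * N := by rw [hn]; push_cast; ring
  have f4 : -(3 * (N : ZMod Q)) - (n + 2 * N) = n' + N := by rw [hn']; ring
  rw [f1, f2] at hA1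
  rw [f3, f4] at hA2
  have hEE : EE X Z N - EE X Z (K * N) = DX + DZ := by
    unfold EE; rw [hDX, hDZ]; ring
  rw [hEE]
  linarith

end Crest.Agent.R072.Lattice
end

-- ▼ part R072/Lattice

/-! R072: lattice potentials on `ZMod Q` (blueprint part 2, (C1)–(C6)).
Definitions and part 1 in `LatA`, `Lbox_le` (constant `π/2`) in `LatA`/`LatLbox`, part 2
(`gap_shift`, `W_mixed`, `gap_pot`) in `LatB`. -/
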