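import Crest.Agent.R072.Defs

/-! R072: properties of `phi M = tr M^{3/2}` (blueprint part A). Proofs by helper532. -/

set_option autoImplicit false
set_option linter.unusedSectionVars false

open Matrix
open scoped MatrixOrder

namespace Crest.Agent.R072

variable {n m : Type*} [Fintype n] [DecidableEq n] [Fintype m] [DecidableEq m]

/-- The positive semidefinite square root. -/
local notation "rt" => CFC.sqrt

lemma rt_psd (M : Matrix n n ℝ) : (rt M).PosSemidef := (CFC.sqrt_nonneg M).posSemidef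

lemma psd_transpose {M : Matrix n n ℝ} (hM : M.PosSemidef) : Mᵀ = M := by
  have := hM.isHermitian.eq
  rwa [conjTranspose_eq_transpose_of_trivial] at this

lemma rt_transpose (M : Matrix n n ℝ) : (rt M)ᵀ = rt M := psd_transpose (rt_psd M)

lemma rt_mul_rt {M : Matrix n n ℝ} (hM : M.PosSemidef) : rt M * rt M = M :=
  CFC.sqrt_mul_sqrt_self M hM.nonneg

lemma rt_unique {A B : Matrix n n ℝ} (hB : B.PosSemidef) (h : B * B = A) : rt A = B :=
  CFC.sqrt_unique h hB.nonneg

lemma psd_of_symm_sq {Z : Matrix n n ℝ} (hZ : Zᵀ = Z) : (Z * Z).PosSemidef := by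
  have := posSemidef_conjTranspose_mul_self Z
  rwa [conjTranspose_eq_transpose_of_trivial, hZ] at this

/-- conjugation `B M Bᵀ` preserves positive semidefiniteness -/
lemma psd_conj {M : Matrix n n ℝ} (hM : M.PosSemidef) (B : Matrix m n ℝ) :
    (B * M * Bᵀ).PosSemidef := by
  have := hM.mul_mul_conjTranspose_same B
  rwa [conjTranspose_eq_transpose_of_trivial] at this

lemma trace_mul_nonneg {A B : Matrix n n ℝ} (hA : A.PosSemidef) (hB : B.PosSemidef) :
    0 ≤ (A * B).trace := by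
  have h1 : (A * B).trace = (rt B * A * (rt B)ᵀ).trace := by
    rw [rt_transpose]
    nth_rewrite 1 [← rt_mul_rt hB]
    rw [← mul_assoc, trace_mul_comm, ← mul_assoc]
  rw [h1]
  exact (psd_conj hA (rt B)).trace_nonneg

/-- `tr (Z² A) ≥ 0` for symmetric `Z` and psd `A`. -/
lemma trace_sq_mul_nonneg {Z A : Matrix n n ℝ} (hZ : Zᵀ = Z) (hA : A.PosSemidef) :
    0 ≤ (Z * Z * A).trace :=
  trace_mul_nonneg (psd_of_symm_sq hZ) hA

lemma trace_mul_le_trace_mul {A B C : Matrix n n ℝ} (hA : A.PosSemidef)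
    (h : (C - B).PosSemidef) : (A * B).trace ≤ (A * C).trace := by
  have := trace_mul_nonneg hA h
  rw [mul_sub, trace_sub] at this
  linarith

/-- Operator monotonicity of the square root for real matrices. -/
lemma rt_mono' {A B : Matrix n n ℝ} (hA : A.PosSemidef) (hB : B.PosSemidef)
    (h : (B - A).PosSemidef) : (rt B - rt A).PosSemidef := by
  have hsym : (rt B - rt A).IsHermitian := (rt_psd B).isHermitian.sub (rt_psd A).isHermitian
  rw [hsym.posSemidef_iff_eigenvalues_nonneg]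
  intro i
  by_contra hneg
  simp only [Pi.zero_apply, not_le] at hneg
  set l := hsym.eigenvalues i with hl
  set v : n → ℝ := (hsym.eigenvectorBasis i).ofLp with hv
  have hDv : (rt B - rt A) *ᵥ v = l • v := hsym.mulVec_eigenvectorBasis i
  have hvne : v ≠ 0 := by
    intro h0
    have h1 : ‖hsym.eigenvectorBasis i‖ = 1 := hsym.eigenvectorBasis.orthonormal.1 i
    have h2 : hsym.eigenvectorBasis i = 0 := by
      ext j
      have := congrFun h0 j
      simpa using this
    rw [h2, norm_zero] at h1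
    exact zero_ne_one h1
  have hvD : v ᵥ* (rt B - rt A) = l • v := by
    have : v ᵥ* (rt B - rt A) = (rt B - rt A)ᵀ *ᵥ v := by rw [mulVec_transpose]
    rw [this, transpose_sub, rt_transpose, rt_transpose, hDv]
  have key : v ⬝ᵥ ((B - A) *ᵥ v) = l * (v ⬝ᵥ (rt B *ᵥ v) + v ⬝ᵥ (rt A *ᵥ v)) := by
    have e : B - A = (rt B - rt A) * rt B + rt A * (rt B - rt A) := by
      rw [sub_mul, mul_sub, rt_mul_rt hA, rt_mul_rt hB]; abel
    rw [e, add_mulVec, dotProduct_add, ← mulVec_mulVec, ← mulVec_mulVec, hDv, dotProduct_mulVec,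
      hvD, mulVec_smul, dotProduct_smul, smul_dotProduct, smul_eq_mul, smul_eq_mul, mul_add]
  have h0 : 0 ≤ v ⬝ᵥ ((B - A) *ᵥ v) := by simpa using h.dotProduct_mulVec_nonneg v
  have hb : 0 ≤ v ⬝ᵥ (rt B *ᵥ v) := by simpa using (rt_psd B).dotProduct_mulVec_nonneg v
  have ha : 0 ≤ v ⬝ᵥ (rt A *ᵥ v) := by simpa using (rt_psd A).dotProduct_mulVec_nonneg v
  have hsum : v ⬝ᵥ (rt B *ᵥ v) + v ⬝ᵥ (rt A *ᵥ v) = 0 := by
    rw [key] at h0
    nlinarith
  have hb0 : v ⬝ᵥ (rt B *ᵥ v) = 0 := by linarith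
  have ha0 : v ⬝ᵥ (rt A *ᵥ v) = 0 := by linarith
  have hb1 : rt B *ᵥ v = 0 := ((rt_psd B).dotProduct_mulVec_zero_iff v).1 (by simpa using hb0)
  have ha1 : rt A *ᵥ v = 0 := ((rt_psd A).dotProduct_mulVec_zero_iff v).1 (by simpa using ha0)
  have : l • v = 0 := by rw [← hDv, sub_mulVec, hb1, ha1, sub_zero]
  rcases smul_eq_zero.1 this with h1 | h1
  · exact hneg.ne h1
  · exact hvne h1

lemma phi_eq_cube {M : Matrix n n ℝ} (hM : M.PosSemidef) :
    phi M = (rt M * rt M * rt M).trace := by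
  rw [phi, trace_mul_comm]
  nth_rewrite 1 [← rt_mul_rt hM]
  rfl

lemma phi_nonneg {M : Matrix n n ℝ} (hM : M.PosSemidef) : 0 ≤ phi M :=
  trace_mul_nonneg (rt_psd M) hM


lemma rt_smul {c : ℝ} (hc : 0 ≤ c) {M : Matrix n n ℝ} (hM : M.PosSemidef) :
    rt (c • M) = Real.sqrt c • rt M := by
  apply rt_unique
  · exact (rt_psd M).smul (Real.sqrt_nonneg c)
  · rw [smul_mul_smul_comm, rt_mul_rt hM, Real.mul_self_sqrt hc]

theorem phi_smul {M : Matrix n n ℝ} (hM : M.PosSemidef) {c : ℝ} (hc : 0 ≤ c) :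
    phi (c • M) = c * Real.sqrt c * phi M := by
  rw [phi, rt_smul hc hM, smul_mul_smul_comm, trace_smul, smul_eq_mul, phi, mul_comm (Real.sqrt c)]


/-- The symmetric divergence. -/
noncomputable def bs (X Y : Matrix n n ℝ) : ℝ := ((rt X - rt Y) * (X - Y)).trace


lemma breg_eq {X Y : Matrix n n ℝ} (hX : X.PosSemidef) (hY : Y.PosSemidef) :
    breg Y X = (1 / 2) * ((rt X - rt Y) * (rt X - rt Y) * (rt X + (2 : ℝ) • rt Y)).trace := by
  have hX' := rt_mul_rt hX
  have hY' := rt_mul_rt hY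
  rw [breg, phi_eq_cube hX, phi_eq_cube hY]
  set s := rt X
  set t := rt Y
  rw [← hX', ← hY']
  simp only [sub_mul, mul_sub, mul_add, trace_sub, trace_add, mul_smul_comm, trace_smul,
    smul_eq_mul, mul_assoc]
  have e1 : (s * (t * s)).trace = (s * (s * t)).trace := by
    rw [← mul_assoc, trace_mul_comm, ← mul_assoc, ]
  have e2 : (t * (s * s)).trace = (s * (s * t)).trace := by
    rw [trace_mul_comm, mul_assoc]
  have e3 : (t * (s * t)).trace = (s * (t * t)).trace := by
    rw [trace_mul_comm, mul_assoc]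
  have e4 : (t * (t * s)).trace = (s * (t * t)).trace := by
    rw [← mul_assoc, trace_mul_comm]
  rw [e1, e2, e3, e4]
  ring

lemma bs_eq {X Y : Matrix n n ℝ} (hX : X.PosSemidef) (hY : Y.PosSemidef) :
    bs X Y = ((rt X - rt Y) * (rt X - rt Y) * (rt X + rt Y)).trace := by
  have hX' := rt_mul_rt hX
  have hY' := rt_mul_rt hY
  rw [bs]
  set s := rt X
  set t := rt Y
  rw [← hX', ← hY']
  simp only [sub_mul, mul_sub, mul_add, trace_sub, trace_add, mul_assoc]
  have e1 : (s * (t * s)).trace = (s * (s * t)).trace := by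
    rw [← mul_assoc, trace_mul_comm, ← mul_assoc, ]
  have e2 : (t * (s * s)).trace = (s * (s * t)).trace := by
    rw [trace_mul_comm, mul_assoc]
  have e3 : (t * (s * t)).trace = (s * (t * t)).trace := by
    rw [trace_mul_comm, mul_assoc]
  have e4 : (t * (t * s)).trace = (s * (t * t)).trace := by
    rw [← mul_assoc, trace_mul_comm]
  rw [e1, e2, e3, e4]
  ring

lemma rt_sub_symm (X Y : Matrix n n ℝ) : (rt X - rt Y)ᵀ = rt X - rt Y := by
  rw [transpose_sub, rt_transpose, rt_transpose]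

lemma breg_nonneg {X Y : Matrix n n ℝ} (hX : X.PosSemidef) (hY : Y.PosSemidef) :
    0 ≤ breg Y X := by
  rw [breg_eq hX hY]
  have := trace_sq_mul_nonneg (rt_sub_symm X Y)
    ((rt_psd X).add ((rt_psd Y).smul (by norm_num : (0 : ℝ) ≤ 2)))
  linarith



lemma breg_le_bs {X Y : Matrix n n ℝ} (hX : X.PosSemidef) (hY : Y.PosSemidef) :
    breg Y X ≤ bs X Y := by
  have h := trace_sq_mul_nonneg (rt_sub_symm X Y) (rt_psd X)
  rw [breg_eq hX hY, bs_eq hX hY]
  simp only [mul_add, trace_add, mul_smul_comm, trace_smul, smul_eq_mul] at h ⊢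
  linarith

lemma bs_le_breg {X Y : Matrix n n ℝ} (hX : X.PosSemidef) (hY : Y.PosSemidef) :
    bs X Y ≤ 2 * breg Y X := by
  have h := trace_sq_mul_nonneg (rt_sub_symm X Y) (rt_psd Y)
  rw [breg_eq hX hY, bs_eq hX hY]
  simp only [mul_add, trace_add, mul_smul_comm, trace_smul, smul_eq_mul] at h ⊢
  linarith

/-- (A7) -/
lemma phi_sub_le {M M' : Matrix n n ℝ} (hM : M.PosSemidef) (hM' : M'.PosSemidef) :
    phi M - phi M' ≤ (3 / 2) * (rt M * (M - M')).trace := by
  have h := breg_nonneg hM hM'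
  rw [breg] at h
  have e : (rt M * (M - M')).trace = - (rt M * (M' - M)).trace := by
    rw [← trace_neg, ← mul_neg, neg_sub]
  rw [e]
  linarith

/-- (A2') the variational inequality for `bs`. -/
lemma bs_variational {X Y Z : Matrix n n ℝ} (hX : X.PosSemidef) (hY : Y.PosSemidef)
    (hZ : Zᵀ = Z) :
    2 * (Z * (X - Y)).trace - (Z * Z * (rt X + rt Y)).trace ≤ bs X Y := by
  have hX' := rt_mul_rt hX
  have hY' := rt_mul_rt hY
  have hD : ((rt X - rt Y) - Z)ᵀ = (rt X - rt Y) - Z := by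
    rw [transpose_sub, rt_sub_symm, hZ]
  have h := trace_sq_mul_nonneg hD ((rt_psd X).add (rt_psd Y))
  rw [bs_eq hX hY]
  set s := rt X
  set t := rt Y
  rw [← hX', ← hY']
  have key : ((s - t) * (s - t) * (s + t)).trace -
      (2 * (Z * (s * s - t * t)).trace - (Z * Z * (s + t)).trace) =
      (((s - t) - Z) * ((s - t) - Z) * (s + t)).trace := by
    simp only [sub_mul, mul_sub, mul_add, trace_sub, trace_add, mul_assoc]
    have r : ∀ a b c : Matrix n n ℝ, (a * (b * c)).trace = (c * (a * b)).trace := by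
      intro a b c
      rw [← mul_assoc, trace_mul_comm]
    have e5 : (s * (Z * s)).trace = (Z * (s * s)).trace := by rw [r s Z s, r s s Z]
    have e6 : (t * (Z * t)).trace = (Z * (t * t)).trace := by rw [r t Z t, r t t Z]
    have e7 : (s * (Z * t)).trace = (Z * (t * s)).trace := by rw [r s Z t, r t s Z]
    have e8 : (t * (Z * s)).trace = (Z * (s * t)).trace := by rw [r t Z s, r s t Z]
    rw [e5, e6, e7, e8]
    ring
  linarith

/-- (A3) -/
lemma bs_add_le {a b a' b' : Matrix n n ℝ} (ha : a.PosSemidef) (hb : b.PosSemidef)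
    (ha' : a'.PosSemidef) (hb' : b'.PosSemidef) :
    bs (a + b) (a' + b') ≤ 2 * bs a a' + 2 * bs b b' := by
  set D := rt (a + b) - rt (a' + b') with hD
  have hDs : Dᵀ = D := rt_sub_symm _ _
  have hZs : ((1 / 2 : ℝ) • D)ᵀ = (1 / 2 : ℝ) • D := by rw [transpose_smul, hDs]
  have h1 := bs_variational ha ha' hZs
  have h2 := bs_variational hb hb' hZs
  have hbs1 : bs (a + b) (a' + b') = (D * (a + b - (a' + b'))).trace := rfl
  have hbs2 := bs_eq (ha.add hb) (ha'.add hb')
  rw [← hD] at hbs2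
  have m1 := rt_mono' ha (ha.add hb) (by rwa [add_sub_cancel_left])
  have m2 := rt_mono' hb (ha.add hb) (by rwa [add_sub_cancel_right])
  have m3 := rt_mono' ha' (ha'.add hb') (by rwa [add_sub_cancel_left])
  have m4 := rt_mono' hb' (ha'.add hb') (by rwa [add_sub_cancel_right])
  have t1 := trace_sq_mul_nonneg hDs m1
  have t2 := trace_sq_mul_nonneg hDs m2
  have t3 := trace_sq_mul_nonneg hDs m3
  have t4 := trace_sq_mul_nonneg hDs m4
  have hsplit : (D * (a + b - (a' + b'))).trace = (D * (a - a')).trace + (D * (b - b')).trace := by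
    rw [← trace_add, ← mul_add]
    congr 2
    abel
  simp only [mul_add, mul_sub, trace_add, trace_sub, smul_mul_assoc, mul_smul_comm, trace_smul,
    smul_eq_mul] at h1 h2 hbs1 hbs2 t1 t2 t3 t4 hsplit ⊢
  linarith

/-- Midpoint convexity. -/
theorem phi_mid_le {X Y : Matrix n n ℝ} (hX : X.PosSemidef) (hY : Y.PosSemidef) :
    phi ((1 / 2 : ℝ) • (X + Y)) ≤ (phi X + phi Y) / 2 := by
  have hM : ((1 / 2 : ℝ) • (X + Y)).PosSemidef := (hX.add hY).smul (by norm_num)
  have h1 := breg_nonneg hM hX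
  have h2 := breg_nonneg hM hY
  rw [breg] at h1 h2
  have e : (rt ((1 / 2 : ℝ) • (X + Y)) * (X - (1 / 2 : ℝ) • (X + Y))).trace +
      (rt ((1 / 2 : ℝ) • (X + Y)) * (Y - (1 / 2 : ℝ) • (X + Y))).trace = 0 := by
    rw [← trace_add, ← mul_add]
    have : X - (1 / 2 : ℝ) • (X + Y) + (Y - (1 / 2 : ℝ) • (X + Y)) = 0 := by
      module
    rw [this, mul_zero, trace_zero]
  linarith


/-- `phi (X + Y) ≤ √2 (phi X + phi Y)` -/
lemma phi_add_le {X Y : Matrix n n ℝ} (hX : X.PosSemidef) (hY : Y.PosSemidef) :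
    phi (X + Y) ≤ Real.sqrt 2 * (phi X + phi Y) := by
  have hM : ((1 / 2 : ℝ) • (X + Y)).PosSemidef := (hX.add hY).smul (by norm_num)
  have e : X + Y = (2 : ℝ) • ((1 / 2 : ℝ) • (X + Y)) := by module
  rw [e, phi_smul hM (by norm_num)]
  have := phi_mid_le hX hY
  have h2 : 0 ≤ Real.sqrt 2 := Real.sqrt_nonneg 2
  nlinarith

/-- superadditivity -/
theorem phi_superadd {X Y : Matrix n n ℝ} (hX : X.PosSemidef) (hY : Y.PosSemidef) :
    phi X + phi Y ≤ phi (X + Y) := by
  have m1 := rt_mono' hX (hX.add hY) (by rwa [add_sub_cancel_left])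
  have m2 := rt_mono' hY (hX.add hY) (by rwa [add_sub_cancel_right])
  have t1 := trace_mul_nonneg m1 hX
  have t2 := trace_mul_nonneg m2 hY
  rw [sub_mul, trace_sub] at t1 t2
  rw [phi, phi, phi, mul_add, trace_add]
  linarith

lemma phi_mono {X Y : Matrix n n ℝ} (hX : X.PosSemidef)
    (h : (Y - X).PosSemidef) : phi X ≤ phi Y := by
  have := phi_superadd hX h
  rw [add_sub_cancel] at this
  have := phi_nonneg h
  linarith

lemma psd_mid {X Y : Matrix n n ℝ} (hX : X.PosSemidef) (hY : Y.PosSemidef) :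
    ((1 / 2 : ℝ) • (X + Y)).PosSemidef := (hX.add hY).smul (by norm_num)

lemma gap_nonneg {x x' : Matrix n n ℝ} (hx : x.PosSemidef) (hx' : x'.PosSemidef) :
    0 ≤ gap x x' := by
  have := phi_mid_le hx hx'
  rw [gap]
  linarith

lemma gap_comm (x x' : Matrix n n ℝ) : gap x x' = gap x' x := by
  rw [gap, gap, add_comm x x']
  ring

lemma gap_eq_breg (x x' : Matrix n n ℝ) :
    gap x x' = breg x ((1 / 2 : ℝ) • (x + x')) + breg x' ((1 / 2 : ℝ) • (x + x')) := by
  have e : (rt ((1 / 2 : ℝ) • (x + x')) * (x - (1 / 2 : ℝ) • (x + x'))).trace +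
      (rt ((1 / 2 : ℝ) • (x + x')) * (x' - (1 / 2 : ℝ) • (x + x'))).trace = 0 := by
    rw [← trace_add, ← mul_add]
    have : x - (1 / 2 : ℝ) • (x + x') + (x' - (1 / 2 : ℝ) • (x + x')) = 0 := by
      module
    rw [this, mul_zero, trace_zero]
  rw [gap, breg, breg]
  linarith

/-- (A5) -/
lemma gap_le_breg {x x' z : Matrix n n ℝ} (hx : x.PosSemidef) (hx' : x'.PosSemidef)
    (hz : z.PosSemidef) : gap x x' ≤ breg x z + breg x' z := by
  have h := breg_nonneg hz (psd_mid hx hx')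
  rw [breg] at h
  have e : (rt z * ((1 / 2 : ℝ) • (x + x') - z)).trace =
      (1 / 2) * ((rt z * (x - z)).trace + (rt z * (x' - z)).trace) := by
    have e' : (1 / 2 : ℝ) • (x + x') - z = (1 / 2 : ℝ) • ((x - z) + (x' - z)) := by module
    rw [e', mul_smul_comm, trace_smul, mul_add, trace_add, smul_eq_mul]
  rw [e] at h
  rw [gap, breg, breg]
  linarith

/-- (A4) MD -/
theorem phi_mixed_le {a1 a2 b1 b2 : Matrix n n ℝ} (ha1 : a1.PosSemidef) (ha2 : a2.PosSemidef)
    (hb1 : b1.PosSemidef) (hb2 : b2.PosSemidef) :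
    phi (a1 + b1) + phi (a2 + b2) - phi (a1 + b2) - phi (a2 + b1) ≤
      4 * (gap a1 a2 + gap b1 b2) := by
  have hma := psd_mid ha1 ha2
  have hmb := psd_mid hb1 hb2
  have e1 : (1 / 2 : ℝ) • ((a1 + b1) + (a2 + b2)) =
      (1 / 2 : ℝ) • (a1 + a2) + (1 / 2 : ℝ) • (b1 + b2) := by module
  have e2 : (1 / 2 : ℝ) • ((a1 + b2) + (a2 + b1)) =
      (1 / 2 : ℝ) • (a1 + a2) + (1 / 2 : ℝ) • (b1 + b2) := by module
  have hg := gap_nonneg (ha1.add hb2) (ha2.add hb1)
  have h1 : phi (a1 + b1) + phi (a2 + b2) - phi (a1 + b2) - phi (a2 + b1) =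
      gap (a1 + b1) (a2 + b2) - gap (a1 + b2) (a2 + b1) := by
    rw [gap, gap, e1, e2]
    ring
  have h2 : gap (a1 + b1) (a2 + b2) ≤
      bs ((1 / 2 : ℝ) • (a1 + a2) + (1 / 2 : ℝ) • (b1 + b2)) (a1 + b1) +
      bs ((1 / 2 : ℝ) • (a1 + a2) + (1 / 2 : ℝ) • (b1 + b2)) (a2 + b2) := by
    rw [gap_eq_breg, e1]
    exact add_le_add (breg_le_bs (hma.add hmb) (ha1.add hb1))
      (breg_le_bs (hma.add hmb) (ha2.add hb2))
  have h3 := bs_add_le hma hmb ha1 hb1
  have h4 := bs_add_le hma hmb ha2 hb2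
  have h5 := bs_le_breg hma ha1
  have h6 := bs_le_breg hma ha2
  have h7 := bs_le_breg hmb hb1
  have h8 := bs_le_breg hmb hb2
  have h9 := gap_eq_breg a1 a2
  have h10 := gap_eq_breg b1 b2
  rw [h1]
  linarith

/-- absolute value form of MD -/
theorem phi_mixed_abs {a1 a2 b1 b2 : Matrix n n ℝ} (ha1 : a1.PosSemidef) (ha2 : a2.PosSemidef)
    (hb1 : b1.PosSemidef) (hb2 : b2.PosSemidef) :
    |phi (a1 + b1) + phi (a2 + b2) - phi (a1 + b2) - phi (a2 + b1)| ≤
      4 * (gap a1 a2 + gap b1 b2) := by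
  rw [abs_le]
  have h1 := phi_mixed_le ha1 ha2 hb1 hb2
  have h2 := phi_mixed_le ha1 ha2 hb2 hb1
  rw [gap_comm b2 b1] at h2
  constructor <;> linarith


/-- (A6) -/
lemma sum_breg_avg' {ι : Type*} (s : Finset ι) (y : ι → Matrix n n ℝ) (z : Matrix n n ℝ)
    (hz : (s.card : ℝ) • z = ∑ i ∈ s, y i) :
    ∑ i ∈ s, breg (y i) z = ∑ i ∈ s, phi (y i) - s.card * phi z := by
  simp only [breg, Finset.sum_sub_distrib, Finset.sum_const, nsmul_eq_mul]
  have e : ∑ i ∈ s, 3 / 2 * (rt z * (y i - z)).trace = 0 := by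
    rw [← Finset.mul_sum]
    have : ∑ i ∈ s, (rt z * (y i - z)).trace = (rt z * (∑ i ∈ s, (y i - z))).trace := by
      rw [Finset.mul_sum, trace_sum]
    rw [this, Finset.sum_sub_distrib, Finset.sum_const, ← hz, ← Nat.cast_smul_eq_nsmul ℝ, sub_self,
      mul_zero, trace_zero, mul_zero]
  rw [e]
  ring

/-! ### Invariance properties -/

lemma rt_reindex (e : n ≃ m) {M : Matrix n n ℝ} (hM : M.PosSemidef) :
    rt (reindex e e M) = reindex e e (rt M) := by
  apply rt_unique
  · exact (rt_psd M).submatrix e.symm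
  · simp only [reindex_apply]
    rw [submatrix_mul_equiv, rt_mul_rt hM]

lemma trace_reindex' (e : n ≃ m) (M : Matrix n n ℝ) : (reindex e e M).trace = M.trace := by
  simp only [trace, diag_apply, reindex_apply, submatrix_apply]
  exact Equiv.sum_comp e.symm (fun i => M i i)

lemma phi_reindex (e : n ≃ m) {M : Matrix n n ℝ} (hM : M.PosSemidef) :
    phi (reindex e e M) = phi M := by
  rw [phi, rt_reindex e hM, phi]
  simp only [reindex_apply]
  rw [submatrix_mul_equiv, ← reindex_apply]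
  exact trace_reindex' e _

lemma phi_submatrix_equiv (e : m ≃ n) {M : Matrix n n ℝ} (hM : M.PosSemidef) :
    phi (M.submatrix e e) = phi M := by
  have := phi_reindex e.symm hM
  rwa [reindex_apply, Equiv.symm_symm] at this

/-- orthogonal invariance -/
lemma rt_conj {U : Matrix n n ℝ} (hU : Uᵀ * U = 1) {M : Matrix n n ℝ} (hM : M.PosSemidef) :
    rt (U * M * Uᵀ) = U * rt M * Uᵀ := by
  apply rt_unique
  · exact psd_conj (rt_psd M) U
  · calc U * rt M * Uᵀ * (U * rt M * Uᵀ) = U * rt M * (Uᵀ * U) * rt M * Uᵀ := by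
          simp only [mul_assoc]
      _ = U * (rt M * rt M) * Uᵀ := by rw [hU, mul_one]; simp only [mul_assoc]
      _ = U * M * Uᵀ := by rw [rt_mul_rt hM]

lemma phi_conj {U : Matrix n n ℝ} (hU : Uᵀ * U = 1) {M : Matrix n n ℝ} (hM : M.PosSemidef) :
    phi (U * M * Uᵀ) = phi M := by
  rw [phi, rt_conj hU hM, phi]
  calc (U * rt M * Uᵀ * (U * M * Uᵀ)).trace = (U * (rt M * (Uᵀ * U) * M) * Uᵀ).trace := by
        simp only [mul_assoc]
    _ = (rt M * M).trace := by
        rw [hU, mul_one, trace_mul_comm, ← mul_assoc, hU, one_mul]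

/-- block diagonal additivity -/
lemma rt_fromBlocks {A : Matrix n n ℝ} {B : Matrix m m ℝ} (hA : A.PosSemidef)
    (hB : B.PosSemidef) :
    rt (fromBlocks A 0 0 B) = fromBlocks (rt A) 0 0 (rt B) := by
  apply rt_unique
  · have h1 := (rt_psd A)
    have h2 := (rt_psd B)
    have e : fromBlocks (rt A) 0 0 (rt B) =
        (fromBlocks (rt (rt A)) 0 0 (rt (rt B)))ᵀ * (fromBlocks (rt (rt A)) 0 0 (rt (rt B))) := by
      rw [fromBlocks_transpose, fromBlocks_multiply]
      simp only [rt_transpose, transpose_zero, Matrix.mul_zero, Matrix.zero_mul, add_zero, zero_add,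
        rt_mul_rt h1, rt_mul_rt h2]
    rw [e]
    have := posSemidef_conjTranspose_mul_self (fromBlocks (rt (rt A)) 0 0 (rt (rt B)))
    rwa [conjTranspose_eq_transpose_of_trivial] at this
  · rw [fromBlocks_multiply]
    simp only [Matrix.mul_zero, Matrix.zero_mul, add_zero, zero_add, rt_mul_rt hA, rt_mul_rt hB]

lemma phi_fromBlocks {A : Matrix n n ℝ} {B : Matrix m m ℝ} (hA : A.PosSemidef)
    (hB : B.PosSemidef) :
    phi (fromBlocks A 0 0 B) = phi A + phi B := by
  rw [phi, rt_fromBlocks hA hB, fromBlocks_multiply]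
  simp [phi, trace, Fintype.sum_sum_type]


/-- `phi` of a matrix indexed by a one-element type. -/
theorem phi_unique [Unique n] {M : Matrix n n ℝ} (hM : 0 ≤ M default default) :
    phi M = M default default * Real.sqrt (M default default) := by
  have e : rt M = diagonal (fun _ => Real.sqrt (M default default)) := by
    apply rt_unique
    · rw [posSemidef_diagonal_iff]
      intro i
      exact Real.sqrt_nonneg _
    · rw [diagonal_mul_diagonal]
      ext i j
      rw [Subsingleton.elim i default, Subsingleton.elim j default]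
      simp [Real.mul_self_sqrt hM]
  rw [phi, e]
  simp [trace, Matrix.mul_apply, mul_comm]

lemma diagonal_sign_orth (u : n → ℝ) (hu : ∀ i, u i * u i = 1) :
    (diagonal u)ᵀ * diagonal u = 1 := by
  rw [diagonal_transpose, diagonal_mul_diagonal]
  simp only [hu, diagonal_one]

theorem phi_conj_sign {M : Matrix n n ℝ} (hM : M.PosSemidef) (u : n → ℝ)
    (hu : ∀ i, u i * u i = 1) : phi (diagonal u * M * diagonal u) = phi M := by
  have := phi_conj (diagonal_sign_orth u hu) hM
  rwa [diagonal_transpose] at this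

/-- (A6) convexity of the Bregman divergence in its first argument (midpoint form) -/
theorem breg_mid_le {X Y Z : Matrix n n ℝ} (hX : X.PosSemidef) (hY : Y.PosSemidef)
    (_hZ : Z.PosSemidef) : breg ((1 / 2 : ℝ) • (X + Y)) Z ≤ (breg X Z + breg Y Z) / 2 := by
  have h := phi_mid_le hX hY
  have e : (rt Z * ((1 / 2 : ℝ) • (X + Y) - Z)).trace =
      (1 / 2) * ((rt Z * (X - Z)).trace + (rt Z * (Y - Z)).trace) := by
    have e' : (1 / 2 : ℝ) • (X + Y) - Z = (1 / 2 : ℝ) • ((X - Z) + (Y - Z)) := by module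
    rw [e', mul_smul_comm, trace_smul, mul_add, trace_add, smul_eq_mul]
  rw [breg, breg, breg, e]
  linarith

/-- (A6) sum of Bregman divergences to the average -/
theorem sum_breg_avg {ι : Type*} (s : Finset ι) (hs : s.Nonempty) (y : ι → Matrix n n ℝ)
    (_hy : ∀ i ∈ s, (y i).PosSemidef) :
    ∑ i ∈ s, breg (y i) ((1 / (s.card : ℝ)) • ∑ i ∈ s, y i) =
      ∑ i ∈ s, phi (y i) - s.card * phi ((1 / (s.card : ℝ)) • ∑ i ∈ s, y i) := by
  apply sum_breg_avg'
  have h0 : (s.card : ℝ) ≠ 0 := by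
    have := hs.card_pos
    positivity
  rw [smul_smul, mul_one_div_cancel h0, one_smul]


theorem Gam_nonneg {M : Matrix n n ℝ} (hM : M.PosSemidef) (u : n → ℝ)
    (hu : ∀ i, u i * u i = 1) : 0 ≤ Gam u M := by
  have hc := psd_conj hM (diagonal u)
  rw [diagonal_transpose] at hc
  have h := phi_superadd hM hc
  rw [phi_conj_sign hM u hu] at h
  rw [Gam]
  linarith

/-- half-box sign: `+1` on the first half, `-1` on the second half of `Fin (r + r)`. -/
noncomputable def hsgn (r : ℕ) (j : Fin (r + r)) : ℝ := if (j : ℕ) < r then 1 else -1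

theorem hsgn_mul_self (r : ℕ) (j : Fin (r + r)) : hsgn r j * hsgn r j = 1 := by
  unfold hsgn; split <;> norm_num

/-- splitting of `Gam` for the half-box signs into diagonal blocks -/
theorem Gam_hsgn (r : ℕ) {M : Matrix (Fin (r + r)) (Fin (r + r)) ℝ} (hM : M.PosSemidef) :
    Gam (hsgn r) M =
      phi ((2 : ℝ) • M.submatrix (Fin.castAdd r) (Fin.castAdd r)) +
      phi ((2 : ℝ) • M.submatrix (Fin.natAdd r) (Fin.natAdd r)) - 2 * phi M := by
  have hA : ((2 : ℝ) • M.submatrix (Fin.castAdd r) (Fin.castAdd r)).PosSemidef :=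
    (hM.submatrix _).smul (by norm_num)
  have hD : ((2 : ℝ) • M.submatrix (Fin.natAdd r) (Fin.natAdd r)).PosSemidef :=
    (hM.submatrix _).smul (by norm_num)
  have e : (M + diagonal (hsgn r) * M * diagonal (hsgn r)).submatrix finSumFinEquiv finSumFinEquiv =
      fromBlocks ((2 : ℝ) • M.submatrix (Fin.castAdd r) (Fin.castAdd r)) 0 0
        ((2 : ℝ) • M.submatrix (Fin.natAdd r) (Fin.natAdd r)) := by
    ext i j
    rcases i with i | i <;> rcases j with j | j <;>
      simp [hsgn, diagonal_mul, mul_diagonal, two_mul]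
  have hc := psd_conj hM (diagonal (hsgn r))
  rw [diagonal_transpose] at hc
  have e2 := phi_submatrix_equiv finSumFinEquiv (hM.add hc)
  rw [Gam, ← e2, e, phi_fromBlocks hA hD]

end Crest.Agent.R072
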