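import Crest.Agent.R072.Frob
import Crest.Agent.R072.Defs

-- ▼ part R072/Resolv
section

/-!
# Row 72: resolvents of positive semidefinite real matrices at a fixed parameter `t > 0`
-/

set_option autoImplicit false

open Matrix
open scoped MatrixOrder

namespace Crest.Agent.R072.Nd

variable {m n : Type*} [Fintype m] [Fintype n] [DecidableEq m] [DecidableEq n]

/-- `P + t` -/
def sh (P : Matrix n n ℝ) (t : ℝ) : Matrix n n ℝ := P + t • (1 : Matrix n n ℝ)

omit [Fintype n] in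
theorem posDef_smul_one {t : ℝ} (ht : 0 < t) : (t • (1 : Matrix n n ℝ)).PosDef := by
  have := (PosDef.one (n := n) (R := ℝ)).smul ht
  exact this

theorem sh_posDef {P : Matrix n n ℝ} (hP : 0 ≤ P) {t : ℝ} (ht : 0 < t) : (sh P t).PosDef :=
  (posDef_smul_one ht).posSemidef_add (Matrix.nonneg_iff_posSemidef.mp hP)

theorem sh_isUnit {P : Matrix n n ℝ} (hP : 0 ≤ P) {t : ℝ} (ht : 0 < t) :
    IsUnit (sh P t).det := by
  have := (sh_posDef hP ht).isUnit
  rwa [Matrix.isUnit_iff_isUnit_det] at this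

theorem PosDef.isUnit_det' {P : Matrix n n ℝ} (hP : P.PosDef) : IsUnit P.det := by
  have := hP.isUnit
  rwa [Matrix.isUnit_iff_isUnit_det] at this

/-- push-through identity -/
theorem push_through (Z : Matrix m n ℝ) {t : ℝ} (ht : 0 < t) :
    (sh (Zᵀ * Z) t)⁻¹ * Zᵀ = Zᵀ * (sh (Z * Zᵀ) t)⁻¹ := by
  have h1 := sh_isUnit (psd_transpose_mul_self Z) ht
  have h2 := sh_isUnit (psd_mul_transpose_self Z) ht
  have key : Zᵀ * sh (Z * Zᵀ) t = sh (Zᵀ * Z) t * Zᵀ := by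
    unfold sh
    rw [Matrix.mul_add, Matrix.add_mul, Matrix.mul_smul, Matrix.smul_mul, Matrix.mul_one,
      Matrix.one_mul, Matrix.mul_assoc]
  calc (sh (Zᵀ * Z) t)⁻¹ * Zᵀ
      = (sh (Zᵀ * Z) t)⁻¹ * (Zᵀ * sh (Z * Zᵀ) t) * (sh (Z * Zᵀ) t)⁻¹ := by
        rw [Matrix.mul_assoc, Matrix.mul_assoc Zᵀ, mul_nonsing_inv _ h2, Matrix.mul_one]
    _ = Zᵀ * (sh (Z * Zᵀ) t)⁻¹ := by
        rw [key, ← Matrix.mul_assoc, nonsing_inv_mul _ h1, Matrix.one_mul]

/-- `tr P² (P+t)⁻¹`, written as `tr P - t tr P (P+t)⁻¹` -/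
noncomputable def ht (P : Matrix n n ℝ) (t : ℝ) : ℝ := trace P - t * trace (P * (sh P t)⁻¹)

theorem ht_mul_transpose (Z : Matrix m n ℝ) {t : ℝ} (h : 0 < t) : ht (Z * Zᵀ) t = ht (Zᵀ * Z) t := by
  have e1 : trace (Z * Zᵀ * (sh (Z * Zᵀ) t)⁻¹) = trace (Zᵀ * Z * (sh (Zᵀ * Z) t)⁻¹) := by
    rw [Matrix.mul_assoc, ← push_through Z h, trace_mul_comm, Matrix.mul_assoc, trace_mul_comm]
  unfold ht
  rw [e1, trace_mul_comm Z Zᵀ]

theorem mul_sh_inv {P : Matrix n n ℝ} (hP : 0 ≤ P) {t : ℝ} (h : 0 < t) :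
    P * (sh P t)⁻¹ = 1 - t • (sh P t)⁻¹ := by
  have h1 := mul_nonsing_inv _ (sh_isUnit hP h)
  have h2 : sh P t * (sh P t)⁻¹ = P * (sh P t)⁻¹ + t • (sh P t)⁻¹ := by
    conv_lhs => rw [sh]
    rw [Matrix.add_mul, Matrix.smul_mul, Matrix.one_mul]
    rfl
  rw [h2] at h1
  exact eq_sub_of_add_eq h1

theorem ht_eq {P : Matrix n n ℝ} (hP : 0 ≤ P) {t : ℝ} (h : 0 < t) :
    ht P t = trace P - t * Fintype.card n + t ^ 2 * trace (sh P t)⁻¹ := by
  unfold ht
  rw [mul_sh_inv hP h, trace_sub, trace_smul, trace_one, smul_eq_mul]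
  ring

/-- additivity on orthogonal blocks -/
theorem ht_add {P Q : Matrix n n ℝ} (hP : 0 ≤ P) (hQ : 0 ≤ Q) (hPQ : P * Q = 0) (hQP : Q * P = 0)
    {t : ℝ} (h : 0 < t) : ht (P + Q) t = ht P t + ht Q t := by
  have uP := sh_isUnit hP h
  have uQ := sh_isUnit hQ h
  have uS := sh_isUnit (add_nonneg hP hQ) h
  -- `P (P+t)⁻¹ Q = 0`
  have e1 : P * (sh P t)⁻¹ * Q = 0 := by
    have c : sh P t * Q = t • Q := by
      unfold sh; rw [Matrix.add_mul, hPQ, zero_add, Matrix.smul_mul, Matrix.one_mul]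
    have c2 : (sh P t)⁻¹ * Q = t⁻¹ • Q := by
      have : (sh P t)⁻¹ * (sh P t * Q) = (sh P t)⁻¹ * (t • Q) := by rw [c]
      rw [← Matrix.mul_assoc, nonsing_inv_mul _ uP, Matrix.one_mul, Matrix.mul_smul] at this
      exact (eq_inv_smul_iff₀ h.ne').mpr this.symm
    rw [Matrix.mul_assoc, c2, Matrix.mul_smul, hPQ, smul_zero]
  have e2 : Q * (sh Q t)⁻¹ * P = 0 := by
    have c : sh Q t * P = t • P := by
      unfold sh; rw [Matrix.add_mul, hQP, zero_add, Matrix.smul_mul, Matrix.one_mul]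
    have c2 : (sh Q t)⁻¹ * P = t⁻¹ • P := by
      have : (sh Q t)⁻¹ * (sh Q t * P) = (sh Q t)⁻¹ * (t • P) := by rw [c]
      rw [← Matrix.mul_assoc, nonsing_inv_mul _ uQ, Matrix.one_mul, Matrix.mul_smul] at this
      exact (eq_inv_smul_iff₀ h.ne').mpr this.symm
    rw [Matrix.mul_assoc, c2, Matrix.mul_smul, hQP, smul_zero]
  have key : (P + Q) * (sh (P + Q) t)⁻¹ = P * (sh P t)⁻¹ + Q * (sh Q t)⁻¹ := by
    have hs : (P * (sh P t)⁻¹ + Q * (sh Q t)⁻¹) * sh (P + Q) t = P + Q := by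
      have s1 : sh (P + Q) t = sh P t + Q := by unfold sh; abel
      have s2 : sh (P + Q) t = sh Q t + P := by unfold sh; abel
      rw [Matrix.add_mul]
      conv_lhs =>
        congr
        · rw [s1, Matrix.mul_add, e1, add_zero, Matrix.mul_assoc, nonsing_inv_mul _ uP,
            Matrix.mul_one]
        · rw [s2, Matrix.mul_add, e2, add_zero, Matrix.mul_assoc, nonsing_inv_mul _ uQ,
            Matrix.mul_one]
    calc (P + Q) * (sh (P + Q) t)⁻¹
        = (P * (sh P t)⁻¹ + Q * (sh Q t)⁻¹) * sh (P + Q) t * (sh (P + Q) t)⁻¹ := by rw [hs]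
      _ = _ := by rw [Matrix.mul_assoc, mul_nonsing_inv _ uS, Matrix.mul_one]
  unfold ht
  rw [key, trace_add, trace_add]
  ring

/-- second order operator convexity of the inverse -/
theorem inv_convex {P E : Matrix n n ℝ} (hE : Eᵀ = E) (hP : P.PosDef) (h1 : (P + E).PosDef)
    (h2 : (P - E).PosDef) :
    (2 : ℝ) • (P⁻¹ * E * P⁻¹ * E * P⁻¹) ≤ (P + E)⁻¹ + (P - E)⁻¹ - (2 : ℝ) • P⁻¹ := by
  have uP := PosDef.isUnit_det' hP
  have u1 := PosDef.isUnit_det' h1
  have u2 := PosDef.isUnit_det' h2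
  have hPt : (P⁻¹)ᵀ = P⁻¹ := by
    have := hP.inv.1
    rwa [IsHermitian, conjTranspose_eq_transpose_of_trivial] at this
  -- resolvent expansions
  have a1 : (P + E)⁻¹ = P⁻¹ - P⁻¹ * E * (P + E)⁻¹ := by
    have : P⁻¹ * (P + E) * (P + E)⁻¹ = P⁻¹ := by
      rw [Matrix.mul_assoc, mul_nonsing_inv _ u1, Matrix.mul_one]
    rw [Matrix.mul_add, nonsing_inv_mul _ uP, Matrix.add_mul, Matrix.one_mul] at this
    exact eq_sub_of_add_eq this
  have a2 : (P + E)⁻¹ = P⁻¹ - (P + E)⁻¹ * E * P⁻¹ := by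
    have : (P + E)⁻¹ * (P + E) * P⁻¹ = P⁻¹ := by
      rw [nonsing_inv_mul _ u1, Matrix.one_mul]
    rw [Matrix.mul_assoc, Matrix.add_mul, mul_nonsing_inv _ uP, Matrix.mul_add, Matrix.mul_one,
      ← Matrix.mul_assoc] at this
    exact eq_sub_of_add_eq this
  have b1 : (P - E)⁻¹ = P⁻¹ + P⁻¹ * E * (P - E)⁻¹ := by
    have : P⁻¹ * (P - E) * (P - E)⁻¹ = P⁻¹ := by
      rw [Matrix.mul_assoc, mul_nonsing_inv _ u2, Matrix.mul_one]
    rw [Matrix.mul_sub, nonsing_inv_mul _ uP, Matrix.sub_mul, Matrix.one_mul] at this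
    exact eq_add_of_sub_eq this
  have b2 : (P - E)⁻¹ = P⁻¹ + (P - E)⁻¹ * E * P⁻¹ := by
    have : (P - E)⁻¹ * (P - E) * P⁻¹ = P⁻¹ := by
      rw [nonsing_inv_mul _ u2, Matrix.one_mul]
    rw [Matrix.mul_assoc, Matrix.sub_mul, mul_nonsing_inv _ uP, Matrix.mul_sub, Matrix.mul_one,
      ← Matrix.mul_assoc] at this
    exact eq_add_of_sub_eq this
  set S := (P + E)⁻¹ + (P - E)⁻¹ with hS
  have hS0 : 0 ≤ S := add_nonneg h1.inv.posSemidef.nonneg h2.inv.posSemidef.nonneg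
  have hS1 : S - (2 : ℝ) • P⁻¹ = P⁻¹ * E * S * (E * P⁻¹) := by
    have c1 : (P + E)⁻¹ = P⁻¹ - P⁻¹ * E * P⁻¹ + P⁻¹ * E * (P + E)⁻¹ * (E * P⁻¹) := by
      conv_lhs => rw [a1, a2]
      rw [Matrix.mul_sub, ← Matrix.mul_assoc, ← Matrix.mul_assoc, ← Matrix.mul_assoc]
      abel
    have c2 : (P - E)⁻¹ = P⁻¹ + P⁻¹ * E * P⁻¹ + P⁻¹ * E * (P - E)⁻¹ * (E * P⁻¹) := by
      conv_lhs => rw [b1, b2]
      rw [Matrix.mul_add, ← Matrix.mul_assoc, ← Matrix.mul_assoc, ← Matrix.mul_assoc]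
      abel
    have c3 : S = (P⁻¹ - P⁻¹ * E * P⁻¹ + P⁻¹ * E * (P + E)⁻¹ * (E * P⁻¹))
        + (P⁻¹ + P⁻¹ * E * P⁻¹ + P⁻¹ * E * (P - E)⁻¹ * (E * P⁻¹)) := by
      rw [← c1, ← c2]
    conv_lhs => rw [c3]
    rw [hS, Matrix.mul_add, Matrix.add_mul, two_smul]
    abel
  have hT : (E * P⁻¹)ᵀ = P⁻¹ * E := by rw [transpose_mul, hE, hPt]
  have hconj : ∀ Q : Matrix n n ℝ, 0 ≤ Q → 0 ≤ P⁻¹ * E * Q * (E * P⁻¹) := by
    intro Q hQ
    have := frob_psd_conjT hQ (E * P⁻¹)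
    rwa [hT] at this
  have hS2 : 0 ≤ S - (2 : ℝ) • P⁻¹ := by rw [hS1]; exact hconj S hS0
  rw [← sub_nonneg]
  have : S - (2 : ℝ) • P⁻¹ - (2 : ℝ) • (P⁻¹ * E * P⁻¹ * E * P⁻¹)
      = P⁻¹ * E * (S - (2 : ℝ) • P⁻¹) * (E * P⁻¹) := by
    rw [Matrix.mul_sub, Matrix.sub_mul, ← hS1, Matrix.mul_smul, Matrix.smul_mul]
    simp only [Matrix.mul_assoc]
  rw [this]
  exact hconj _ hS2

/-- Jensen gap at a fixed parameter -/
theorem ht_gap {K E : Matrix n n ℝ} (hE : Eᵀ = E) (hK : 0 ≤ K) (h1 : 0 ≤ K + E)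
    (h2 : 0 ≤ K - E) {t : ℝ} (h : 0 < t) :
    2 * t ^ 2 * trace ((sh K t)⁻¹ * E * (sh K t)⁻¹ * E * (sh K t)⁻¹)
      ≤ ht (K + E) t + ht (K - E) t - 2 * ht K t := by
  have e1 : sh (K + E) t = sh K t + E := by unfold sh; abel
  have e2 : sh (K - E) t = sh K t - E := by unfold sh; abel
  have p1 : (sh K t + E).PosDef := by rw [← e1]; exact sh_posDef h1 h
  have p2 : (sh K t - E).PosDef := by rw [← e2]; exact sh_posDef h2 h
  have key := inv_convex hE (sh_posDef hK h) p1 p2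
  have key2 := trace_nonneg_of_psd (sub_nonneg.mpr key)
  rw [trace_sub, trace_sub, trace_add, trace_smul, trace_smul, smul_eq_mul, smul_eq_mul] at key2
  rw [ht_eq h1 h, ht_eq h2 h, ht_eq hK h, e1, e2, trace_add, trace_sub]
  have ht2 : 0 ≤ t ^ 2 := by positivity
  nlinarith [mul_nonneg ht2 key2]

end Crest.Agent.R072.Nd
end

-- ▼ part R072/NodeDiag
section

/-!
# Row 72: node inequality in the eigenbasis, derivative estimate
-/

set_option autoImplicit false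
set_option linter.unusedSectionVars false

open Matrix
open scoped MatrixOrder

namespace Crest.Agent.R072.Nd

section deriv

variable {m n p : Type*} [Fintype m] [Fintype n] [Fintype p]

/-- entrywise derivative of a matrix-valued function -/
def MDeriv (X : ℝ → Matrix m n ℝ) (X' : Matrix m n ℝ) (t : ℝ) : Prop :=
  ∀ i j, HasDerivAt (fun s => X s i j) (X' i j) t

theorem MDeriv.mul {X : ℝ → Matrix m n ℝ} {Y : ℝ → Matrix n p ℝ} {X' : Matrix m n ℝ}
    {Y' : Matrix n p ℝ} {t : ℝ} (hX : MDeriv X X' t) (hY : MDeriv Y Y' t) :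
    MDeriv (fun s => X s * Y s) (X' * Y t + X t * Y') t := by
  intro i k
  simp only [Matrix.add_apply, mul_apply]
  rw [← Finset.sum_add_distrib]
  exact HasDerivAt.fun_sum fun j _ => (hX i j).mul (hY j k)

theorem MDeriv.const (A : Matrix m n ℝ) (t : ℝ) : MDeriv (fun _ => A) 0 t := fun i j => by
  simpa using hasDerivAt_const t (A i j)

theorem MDeriv.mul_const {X : ℝ → Matrix m n ℝ} {X' : Matrix m n ℝ} {t : ℝ} (hX : MDeriv X X' t)
    (A : Matrix n p ℝ) : MDeriv (fun s => X s * A) (X' * A) t := by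
  have := hX.mul (MDeriv.const A t)
  rwa [Matrix.mul_zero, add_zero] at this

theorem MDeriv.trace {X : ℝ → Matrix m m ℝ} {X' : Matrix m m ℝ} {t : ℝ} (hX : MDeriv X X' t) :
    HasDerivAt (fun s => Matrix.trace (X s)) (Matrix.trace X') t := by
  simp only [Matrix.trace, diag_apply]
  exact HasDerivAt.fun_sum fun i _ => hX i i

end deriv

section

variable {m : Type*} [Fintype m] [DecidableEq m]

/-- `t (M+t)⁻¹` in the eigenbasis -/
noncomputable def dg (e : m → ℝ) (t : ℝ) : Matrix m m ℝ := diagonal fun i => t / (e i + t)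

/-- derivative of `dg` -/
noncomputable def dg' (e : m → ℝ) (t : ℝ) : Matrix m m ℝ := diagonal fun i => e i / (e i + t) ^ 2

/-- `t² R u R` -/
noncomputable def su (u : Matrix m m ℝ) (e : m → ℝ) (t : ℝ) : Matrix m m ℝ := dg e t * u * dg e t

/-- the energy at parameter `t` -/
noncomputable def gen (u : Matrix m m ℝ) (e : m → ℝ) (t : ℝ) : ℝ :=
  ∑ i, ∑ j, e i / (e i + t) ^ 2 * (e j / (e j + t)) * u i j ^ 2

theorem gen_nonneg (u : Matrix m m ℝ) {e : m → ℝ} (he : ∀ i, 0 ≤ e i) {t : ℝ} (ht : 0 < t) :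
    0 ≤ gen u e t := by
  unfold gen
  refine Finset.sum_nonneg fun i _ => Finset.sum_nonneg fun j _ => ?_
  have h1 := he i
  have h2 := he j
  positivity

theorem mderiv_dg (e : m → ℝ) (he : ∀ i, 0 ≤ e i) {t : ℝ} (ht : 0 < t) :
    MDeriv (fun s => dg e s) (dg' e t) t := by
  intro i j
  unfold dg dg'
  by_cases h : i = j
  · subst h
    simp only [diagonal_apply_eq]
    have hne : e i + t ≠ 0 := by have := he i; positivity
    have h1 : HasDerivAt (fun s : ℝ => s / (e i + s)) ((1 * (e i + t) - t * 1) / (e i + t) ^ 2) t :=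
      (hasDerivAt_id t).div ((hasDerivAt_id t).const_add (e i)) hne
    convert h1 using 1
    ring
  · simp only [diagonal_apply_ne _ h]
    exact hasDerivAt_const t 0

theorem mderiv_su (u : Matrix m m ℝ) (e : m → ℝ) (he : ∀ i, 0 ≤ e i) {t : ℝ} (ht : 0 < t) :
    MDeriv (fun s => su u e s) (dg' e t * u * dg e t + dg e t * u * dg' e t) t := by
  unfold su
  exact ((mderiv_dg e he ht).mul_const u).mul (mderiv_dg e he ht)

theorem dg_transpose (e : m → ℝ) (t : ℝ) : (dg e t)ᵀ = dg e t := diagonal_transpose _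

theorem dg'_transpose (e : m → ℝ) (t : ℝ) : (dg' e t)ᵀ = dg' e t := diagonal_transpose _

theorem dg_sq_le (e : m → ℝ) (he : ∀ i, 0 ≤ e i) {t : ℝ} (ht : 0 < t) : dg e t * dg e t ≤ 1 := by
  rw [← sub_nonneg]
  have : (1 : Matrix m m ℝ) - dg e t * dg e t
      = diagonal fun i => 1 - t / (e i + t) * (t / (e i + t)) := by
    unfold dg
    rw [diagonal_mul_diagonal, ← diagonal_one, diagonal_sub]
  rw [this]
  refine (PosSemidef.diagonal fun i => ?_).nonneg
  have h1 := he i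
  have h2 : t / (e i + t) ≤ 1 := by rw [div_le_one (by positivity)]; linarith
  have h3 : 0 ≤ t / (e i + t) := by positivity
  show (0 : ℝ) ≤ 1 - t / (e i + t) * (t / (e i + t))
  nlinarith

theorem su_contraction {u : Matrix m m ℝ} (hu : uᵀ = u) (hu2 : u * u = 1) (e : m → ℝ)
    (he : ∀ i, 0 ≤ e i) {t : ℝ} (ht : 0 < t) : su u e t * (su u e t)ᵀ ≤ 1 := by
  unfold su
  rw [transpose_mul, transpose_mul, dg_transpose, hu]
  have h1 : dg e t * u * dg e t * (dg e t * (u * dg e t))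
      = (dg e t * u) * (dg e t * dg e t) * (dg e t * u)ᵀ := by
    rw [transpose_mul, dg_transpose, hu]
    simp only [Matrix.mul_assoc]
  rw [h1]
  have h2 := le_conj (dg_sq_le e he ht) (dg e t * u)
  refine h2.trans ?_
  rw [Matrix.mul_one, transpose_mul, dg_transpose, hu]
  have h3 : dg e t * u * (u * dg e t) = dg e t * dg e t := by
    rw [Matrix.mul_assoc, ← Matrix.mul_assoc u u, hu2, Matrix.one_mul]
  rw [h3]
  exact dg_sq_le e he ht

theorem su_apply (u : Matrix m m ℝ) (e : m → ℝ) (t : ℝ) (i j : m) :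
    su u e t i j = t / (e i + t) * u i j * (t / (e j + t)) := by
  unfold su dg
  rw [mul_diagonal, diagonal_mul]

variable {p q : Type*} [Fintype p] [Fintype q]

theorem trace_diag_sandwich (e : m → ℝ) (f : m → ℝ) (Y : Matrix m m ℝ) :
    trace (diagonal e * (Y * diagonal f * Yᵀ)) = ∑ i, ∑ j, e i * Y i j ^ 2 * f j := by
  simp only [trace, diag_apply, diagonal_mul]
  refine Finset.sum_congr rfl fun i _ => ?_
  rw [mul_apply, Finset.mul_sum]
  refine Finset.sum_congr rfl fun j _ => ?_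
  rw [mul_diagonal, transpose_apply]
  ring

/-- undifferentiated factor -/
theorem fsq_su_le (u : Matrix m m ℝ) (e : m → ℝ) (he : ∀ i, 0 ≤ e i) {t : ℝ} (ht : 0 < t)
    (A : Matrix p m ℝ) (B : Matrix m q ℝ) (hA : Aᵀ * A ≤ diagonal e) (hB : B * Bᵀ ≤ diagonal e) :
    fsq (A * su u e t * B) ≤ t ^ 3 * gen u e t := by
  refine (fsq_sandwich_le A (su u e t) B hA hB).trans ?_
  rw [trace_diag_sandwich]
  unfold gen
  rw [Finset.mul_sum]
  refine Finset.sum_le_sum fun i _ => ?_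
  rw [Finset.mul_sum]
  refine Finset.sum_le_sum fun j _ => ?_
  rw [su_apply]
  have h1 := he i
  have h2 := he j
  have h3 : t / (e j + t) ≤ 1 := by rw [div_le_one (by positivity)]; linarith
  have h4 : 0 ≤ t / (e j + t) := by positivity
  have h5 : e i * (t / (e i + t) * u i j * (t / (e j + t))) ^ 2 * e j
      = (t ^ 3 * (e i / (e i + t) ^ 2 * (e j / (e j + t)) * u i j ^ 2)) * (t / (e j + t)) := by
    field_simp
  rw [h5]
  have h6 : 0 ≤ t ^ 3 * (e i / (e i + t) ^ 2 * (e j / (e j + t)) * u i j ^ 2) := by positivity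
  nlinarith

/-- differentiated factor, derivative on the right -/
theorem fsq_su'_le (u : Matrix m m ℝ) (e : m → ℝ) (he : ∀ i, 0 ≤ e i) {t : ℝ} (ht : 0 < t)
    (C : Matrix p m ℝ) (hC : Cᵀ * C ≤ diagonal e) :
    fsq (C * (dg e t * u * dg' e t)) ≤ gen uᵀ e t / 4 := by
  have h0 := fsq_sandwich_le C (dg e t * u * dg' e t) (1 : Matrix m m ℝ) (N := diagonal fun _ => 1)
    hC (by rw [transpose_one, Matrix.mul_one, diagonal_one])
  rw [Matrix.mul_one] at h0
  refine h0.trans ?_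
  rw [trace_diag_sandwich]
  unfold gen
  rw [Finset.sum_comm, Finset.sum_div]
  refine Finset.sum_le_sum fun j _ => ?_
  rw [Finset.sum_div]
  refine Finset.sum_le_sum fun i _ => ?_
  have h5 : (dg e t * u * dg' e t) i j = t / (e i + t) * u i j * (e j / (e j + t) ^ 2) := by
    unfold dg dg'
    rw [mul_diagonal, diagonal_mul]
  rw [h5, transpose_apply]
  have h1 := he i
  have h2 := he j
  -- e_i t² e_j² / ((e_i+t)² (e_j+t)⁴) ≤ (1/4) e_j/(e_j+t)² * e_i/(e_i+t)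
  have h6 : e i * (t / (e i + t) * u i j * (e j / (e j + t) ^ 2)) ^ 2 * 1
      = (e j / (e j + t) ^ 2 * (e i / (e i + t)) * u i j ^ 2) *
        ((t / (e i + t)) * (t * e j / (e j + t) ^ 2)) := by
    field_simp
  rw [h6]
  have h7 : 0 ≤ e j / (e j + t) ^ 2 * (e i / (e i + t)) * u i j ^ 2 := by positivity
  have h8 : t / (e i + t) ≤ 1 := by rw [div_le_one (by positivity)]; linarith
  have h8' : 0 ≤ t / (e i + t) := by positivity
  have h9 : t * e j / (e j + t) ^ 2 ≤ 1 / 4 := by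
    rw [div_le_iff₀ (by positivity)]
    nlinarith [sq_nonneg (e j - t)]
  have h9' : 0 ≤ t * e j / (e j + t) ^ 2 := by positivity
  have h10 : (t / (e i + t)) * (t * e j / (e j + t) ^ 2) ≤ 1 / 4 := by nlinarith
  calc _ ≤ (e j / (e j + t) ^ 2 * (e i / (e i + t)) * u i j ^ 2) * (1 / 4) :=
        mul_le_mul_of_nonneg_left h10 h7
    _ = _ := by ring

/-- differentiated factor, derivative on the left -/
theorem fsq_su'_le_left (u : Matrix m m ℝ) (e : m → ℝ) (he : ∀ i, 0 ≤ e i) {t : ℝ} (ht : 0 < t)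
    (A : Matrix m p ℝ) (hA : A * Aᵀ ≤ diagonal e) :
    fsq (dg' e t * u * dg e t * A) ≤ gen u e t / 4 := by
  have h := fsq_su'_le uᵀ e he ht Aᵀ (by rwa [transpose_transpose])
  rw [transpose_transpose] at h
  have h2 : (Aᵀ * (dg e t * uᵀ * dg' e t))ᵀ = dg' e t * u * dg e t * A := by
    rw [transpose_mul, transpose_mul, transpose_mul, transpose_transpose, transpose_transpose,
      dg_transpose, dg'_transpose]
    simp only [Matrix.mul_assoc]
  rw [← h2, fsq_transpose]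
  exact h

end

section node

variable {i0 i1 i2 : Type*} [Fintype i0] [Fintype i1] [Fintype i2] [DecidableEq i0]
  [DecidableEq i1] [DecidableEq i2]

/-- the regularised trilinear trace -/
noncomputable def Wt (u0 : Matrix i0 i0 ℝ) (u1 : Matrix i1 i1 ℝ) (u2 : Matrix i2 i2 ℝ)
    (e0 : i0 → ℝ) (e1 : i1 → ℝ) (e2 : i2 → ℝ) (A : Matrix i0 i1 ℝ) (B : Matrix i1 i2 ℝ)
    (C : Matrix i2 i0 ℝ) (t : ℝ) : ℝ :=
  trace (su u0 e0 t * A * (su u1 e1 t) * B * (su u2 e2 t) * C)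

/-- bound of the terms where the left-most factor is differentiated -/
theorem node_term_le (u0 : Matrix i0 i0 ℝ) (u1 : Matrix i1 i1 ℝ) (u2 : Matrix i2 i2 ℝ)
    (h0 : u0ᵀ = u0) (h1 : u1ᵀ = u1) (h2 : u2ᵀ = u2)
    (q1 : u1 * u1 = 1) (q2 : u2 * u2 = 1)
    {e0 : i0 → ℝ} {e1 : i1 → ℝ} {e2 : i2 → ℝ} (p0 : ∀ i, 0 ≤ e0 i) (p1 : ∀ i, 0 ≤ e1 i)
    (p2 : ∀ i, 0 ≤ e2 i) {A : Matrix i0 i1 ℝ} {B : Matrix i1 i2 ℝ} {C : Matrix i2 i0 ℝ}
    (a0 : A * Aᵀ ≤ diagonal e0) (a1 : Aᵀ * A ≤ diagonal e1) (b1 : B * Bᵀ ≤ diagonal e1)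
    (b2 : Bᵀ * B ≤ diagonal e2) (c2 : C * Cᵀ ≤ diagonal e2) (c0 : Cᵀ * C ≤ diagonal e0)
    {t : ℝ} (ht : 0 < t) :
    |trace ((dg' e0 t * u0 * dg e0 t + dg e0 t * u0 * dg' e0 t) * A * (su u1 e1 t) * B
        * (su u2 e2 t) * C)|
      ≤ √(t ^ 3) * (2 * gen u0 e0 t + gen u1 e1 t + gen u2 e2 t) / 4 := by
  have g0 := gen_nonneg u0 p0 ht
  have g1 := gen_nonneg u1 p1 ht
  have g2 := gen_nonneg u2 p2 ht
  have t3 : 0 ≤ t ^ 3 := by positivity
  -- AM-GM
  have amgm : ∀ x y : ℝ, 0 ≤ x → 0 ≤ y → √(x / 4) * √(t ^ 3 * y) ≤ √(t ^ 3) * (x + y) / 4 := by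
    intro x y hx hy
    rw [Real.sqrt_mul t3, Real.sqrt_div hx]
    have h4 : √(4 : ℝ) = 2 := by
      rw [show (4 : ℝ) = 2 ^ 2 by norm_num]; exact Real.sqrt_sq (by norm_num)
    rw [h4]
    have h5 : √x * √y ≤ (x + y) / 2 := by
      nlinarith [sq_nonneg (√x - √y), Real.sq_sqrt hx, Real.sq_sqrt hy]
    have h6 := mul_le_mul_of_nonneg_left h5 (Real.sqrt_nonneg (t ^ 3))
    calc √x / 2 * (√(t ^ 3) * √y) = (√(t ^ 3) * (√x * √y)) / 2 := by ring
      _ ≤ (√(t ^ 3) * ((x + y) / 2)) / 2 := by linarith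
      _ = _ := by ring
  -- left derivative
  have L : |trace (dg' e0 t * u0 * dg e0 t * A * (su u1 e1 t) * (B * (su u2 e2 t) * C))|
      ≤ √(t ^ 3) * (gen u0 e0 t + gen u2 e2 t) / 4 := by
    refine (abs_trace_mul_mul_le _ _ _ (su_contraction h1 q1 e1 p1 ht)).trans ?_
    refine le_trans ?_ (amgm _ _ g0 g2)
    exact mul_le_mul (Real.sqrt_le_sqrt (fsq_su'_le_left u0 e0 p0 ht A a0))
      (Real.sqrt_le_sqrt (fsq_su_le u2 e2 p2 ht B C b2 c2)) (Real.sqrt_nonneg _)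
      (Real.sqrt_nonneg _)
  -- right derivative
  have R : |trace ((C * (dg e0 t * u0 * dg' e0 t)) * (A * (su u1 e1 t) * B) * (su u2 e2 t))|
      ≤ √(t ^ 3) * (gen u0 e0 t + gen u1 e1 t) / 4 := by
    have e1' : trace ((C * (dg e0 t * u0 * dg' e0 t)) * (A * (su u1 e1 t) * B) * (su u2 e2 t))
        = trace ((A * (su u1 e1 t) * B) * (su u2 e2 t) * (C * (dg e0 t * u0 * dg' e0 t))) := by
      rw [Matrix.mul_assoc (C * _), trace_mul_comm]
    rw [e1']
    refine (abs_trace_mul_mul_le _ _ _ (su_contraction h2 q2 e2 p2 ht)).trans ?_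
    rw [mul_comm]
    refine le_trans ?_ (amgm _ _ g0 g1)
    have hh := fsq_su'_le u0 e0 p0 ht C c0
    rw [h0] at hh
    exact mul_le_mul (Real.sqrt_le_sqrt hh)
      (Real.sqrt_le_sqrt (fsq_su_le u1 e1 p1 ht A B a1 b1)) (Real.sqrt_nonneg _)
      (Real.sqrt_nonneg _)
  have split : trace ((dg' e0 t * u0 * dg e0 t + dg e0 t * u0 * dg' e0 t) * A * (su u1 e1 t) * B
        * (su u2 e2 t) * C)
      = trace (dg' e0 t * u0 * dg e0 t * A * (su u1 e1 t) * (B * (su u2 e2 t) * C))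
        + trace ((C * (dg e0 t * u0 * dg' e0 t)) * (A * (su u1 e1 t) * B) * (su u2 e2 t)) := by
    have r : trace ((C * (dg e0 t * u0 * dg' e0 t)) * (A * (su u1 e1 t) * B) * (su u2 e2 t))
        = trace (dg e0 t * u0 * dg' e0 t * A * (su u1 e1 t) * B * (su u2 e2 t) * C) := by
      rw [show C * (dg e0 t * u0 * dg' e0 t) * (A * su u1 e1 t * B) * su u2 e2 t
        = C * (dg e0 t * u0 * dg' e0 t * A * su u1 e1 t * B * su u2 e2 t) by
          simp only [Matrix.mul_assoc], trace_mul_comm]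
    rw [r, ← trace_add]
    congr 1
    simp only [Matrix.add_mul, Matrix.mul_assoc]
  rw [split]
  refine (abs_add_le _ _).trans ?_
  refine (add_le_add L R).trans (le_of_eq ?_)
  ring

/-- derivative estimate for `Wt` -/
theorem Wt_deriv (u0 : Matrix i0 i0 ℝ) (u1 : Matrix i1 i1 ℝ) (u2 : Matrix i2 i2 ℝ)
    (h0 : u0ᵀ = u0) (h1 : u1ᵀ = u1) (h2 : u2ᵀ = u2)
    (q0 : u0 * u0 = 1) (q1 : u1 * u1 = 1) (q2 : u2 * u2 = 1)
    {e0 : i0 → ℝ} {e1 : i1 → ℝ} {e2 : i2 → ℝ} (p0 : ∀ i, 0 ≤ e0 i) (p1 : ∀ i, 0 ≤ e1 i)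
    (p2 : ∀ i, 0 ≤ e2 i) {A : Matrix i0 i1 ℝ} {B : Matrix i1 i2 ℝ} {C : Matrix i2 i0 ℝ}
    (a0 : A * Aᵀ ≤ diagonal e0) (a1 : Aᵀ * A ≤ diagonal e1) (b1 : B * Bᵀ ≤ diagonal e1)
    (b2 : Bᵀ * B ≤ diagonal e2) (c2 : C * Cᵀ ≤ diagonal e2) (c0 : Cᵀ * C ≤ diagonal e0)
    {t : ℝ} (ht : 0 < t) :
    ∃ w' : ℝ, HasDerivAt (Wt u0 u1 u2 e0 e1 e2 A B C) w' t ∧
      |w'| ≤ √(t ^ 3) * (gen u0 e0 t + gen u1 e1 t + gen u2 e2 t) := by
  have m0 := mderiv_su u0 e0 p0 ht
  have m1 := mderiv_su u1 e1 p1 ht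
  have m2 := mderiv_su u2 e2 p2 ht
  have D := ((((((m0.mul_const A).mul m1).mul_const B).mul m2).mul_const C)).trace
  refine ⟨_, D, ?_⟩
  have T0 := node_term_le u0 u1 u2 h0 h1 h2 q1 q2 p0 p1 p2 a0 a1 b1 b2 c2 c0 ht
  have T1 := node_term_le u1 u2 u0 h1 h2 h0 q2 q0 p1 p2 p0 b1 b2 c2 c0 a0 a1 ht
  have T2 := node_term_le u2 u0 u1 h2 h0 h1 q0 q1 p2 p0 p1 c2 c0 a0 a1 b1 b2 ht
  set X0 := dg' e0 t * u0 * dg e0 t + dg e0 t * u0 * dg' e0 t
  set X1 := dg' e1 t * u1 * dg e1 t + dg e1 t * u1 * dg' e1 t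
  set X2 := dg' e2 t * u2 * dg e2 t + dg e2 t * u2 * dg' e2 t
  have r1 : trace (su u0 e0 t * A * X1 * B * su u2 e2 t * C)
      = trace (X1 * B * su u2 e2 t * C * su u0 e0 t * A) := by
    rw [show su u0 e0 t * A * X1 * B * su u2 e2 t * C
      = (su u0 e0 t * A) * (X1 * B * su u2 e2 t * C) by simp only [Matrix.mul_assoc],
      trace_mul_comm]
    simp only [Matrix.mul_assoc]
  have r2 : trace (su u0 e0 t * A * su u1 e1 t * B * X2 * C)
      = trace (X2 * C * su u0 e0 t * A * su u1 e1 t * B) := by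
    rw [show su u0 e0 t * A * su u1 e1 t * B * X2 * C
      = (su u0 e0 t * A * su u1 e1 t * B) * (X2 * C) by simp only [Matrix.mul_assoc],
      trace_mul_comm]
    simp only [Matrix.mul_assoc]
  have split : trace ((((X0 * A * su u1 e1 t + su u0 e0 t * A * X1) * B) * su u2 e2 t
        + su u0 e0 t * A * su u1 e1 t * B * X2) * C)
      = trace (X0 * A * su u1 e1 t * B * su u2 e2 t * C)
        + trace (X1 * B * su u2 e2 t * C * su u0 e0 t * A)
        + trace (X2 * C * su u0 e0 t * A * su u1 e1 t * B) := by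
    rw [← r1, ← r2, ← trace_add, ← trace_add]
    congr 1
    simp only [Matrix.add_mul, Matrix.mul_assoc]
  rw [split]
  have k1 := abs_add_le (trace (X0 * A * su u1 e1 t * B * su u2 e2 t * C)
        + trace (X1 * B * su u2 e2 t * C * su u0 e0 t * A))
        (trace (X2 * C * su u0 e0 t * A * su u1 e1 t * B))
  have k2 := abs_add_le (trace (X0 * A * su u1 e1 t * B * su u2 e2 t * C))
        (trace (X1 * B * su u2 e2 t * C * su u0 e0 t * A))
  refine (k1.trans (add_le_add k2 le_rfl)).trans ?_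
  refine (add_le_add (add_le_add T0 T1) T2).trans (le_of_eq ?_)
  ring

end node

end Crest.Agent.R072.Nd
end

-- ▼ part R072/NodeSpec

/-!
# Row 72: spectral form of `phi` and of the fixed-parameter functional `ht`, Jensen gap
-/

set_option autoImplicit false
set_option linter.unusedSectionVars false

open Matrix
open scoped MatrixOrder

namespace Crest.Agent.R072.Nd

section spec

variable {n : Type*} [Fintype n] [DecidableEq n]

/-- spectral theorem for real positive semidefinite matrices, transpose form -/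
theorem exists_spec {M : Matrix n n ℝ} (hM : M.PosSemidef) :
    ∃ (V : Matrix n n ℝ) (e : n → ℝ), Vᵀ * V = 1 ∧ V * Vᵀ = 1 ∧ (∀ i, 0 ≤ e i) ∧
      M = V * diagonal e * Vᵀ := by
  refine ⟨(hM.1.eigenvectorUnitary : Matrix n n ℝ), hM.1.eigenvalues, ?_, ?_,
    hM.eigenvalues_nonneg, ?_⟩
  · have := Unitary.coe_star_mul_self hM.1.eigenvectorUnitary
    rwa [star_eq_conjTranspose, conjTranspose_eq_transpose_of_trivial] at this
  · have := Unitary.coe_mul_star_self hM.1.eigenvectorUnitary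
    rwa [Unitary.coe_star, star_eq_conjTranspose, conjTranspose_eq_transpose_of_trivial] at this
  · have := hM.1.spectral_theorem
    rw [Unitary.conjStarAlgAut_apply, star_eq_conjTranspose,
      conjTranspose_eq_transpose_of_trivial] at this
    exact this

theorem spec_mul {V : Matrix n n ℝ} (hV : Vᵀ * V = 1) (a b : n → ℝ) :
    (V * diagonal a * Vᵀ) * (V * diagonal b * Vᵀ) = V * diagonal (fun i => a i * b i) * Vᵀ := by
  rw [show (V * diagonal a * Vᵀ) * (V * diagonal b * Vᵀ)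
    = V * diagonal a * (Vᵀ * V) * diagonal b * Vᵀ by simp only [Matrix.mul_assoc], hV,
    Matrix.mul_one, Matrix.mul_assoc V, diagonal_mul_diagonal]

theorem spec_trace {V : Matrix n n ℝ} (hV : Vᵀ * V = 1) (a : n → ℝ) :
    trace (V * diagonal a * Vᵀ) = ∑ i, a i := by
  rw [Matrix.mul_assoc, trace_mul_comm, Matrix.mul_assoc, hV, Matrix.mul_one, trace_diagonal]

theorem spec_psd (V : Matrix n n ℝ) {a : n → ℝ} (ha : ∀ i, 0 ≤ a i) :
    0 ≤ V * diagonal a * Vᵀ :=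
  frob_psd_conj (PosSemidef.diagonal ha).nonneg V

theorem spec_sqrt {V : Matrix n n ℝ} (hV : Vᵀ * V = 1) {e : n → ℝ} (he : ∀ i, 0 ≤ e i) :
    CFC.sqrt (V * diagonal e * Vᵀ) = V * diagonal (fun i => √(e i)) * Vᵀ := by
  refine CFC.sqrt_unique ?_ (spec_psd V fun i => Real.sqrt_nonneg _)
  rw [spec_mul hV]
  simp only [Real.mul_self_sqrt (he _)]

theorem spec_phi {V : Matrix n n ℝ} (hV : Vᵀ * V = 1) {e : n → ℝ} (he : ∀ i, 0 ≤ e i) :
    phi (V * diagonal e * Vᵀ) = ∑ i, e i * √(e i) := by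
  unfold phi
  rw [spec_sqrt hV he, spec_mul hV, spec_trace hV]
  simp only [mul_comm]

theorem spec_sh_inv {V : Matrix n n ℝ} (hV : Vᵀ * V = 1) (hV' : V * Vᵀ = 1) {e : n → ℝ}
    (he : ∀ i, 0 ≤ e i) {t : ℝ} (h : 0 < t) :
    (sh (V * diagonal e * Vᵀ) t)⁻¹ = V * diagonal (fun i => (e i + t)⁻¹) * Vᵀ := by
  have e1 : sh (V * diagonal e * Vᵀ) t = V * diagonal (fun i => e i + t) * Vᵀ := by
    unfold sh
    have : (diagonal fun i => e i + t) = diagonal e + t • (1 : Matrix n n ℝ) := by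
      rw [← diagonal_one, ← diagonal_smul, diagonal_add]
      congr 1
      ext i
      simp
    rw [this, Matrix.mul_add, Matrix.add_mul, Matrix.mul_smul, Matrix.smul_mul, Matrix.mul_one, hV']
  rw [e1]
  refine inv_eq_right_inv ?_
  rw [spec_mul hV]
  have : (fun i => (e i + t) * (e i + t)⁻¹) = fun _ => (1 : ℝ) := by
    funext i
    have := he i
    exact mul_inv_cancel₀ (by positivity)
  rw [this, diagonal_one, Matrix.mul_one, hV']

theorem spec_ht {V : Matrix n n ℝ} (hV : Vᵀ * V = 1) (hV' : V * Vᵀ = 1) {e : n → ℝ}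
    (he : ∀ i, 0 ≤ e i) {t : ℝ} (h : 0 < t) :
    ht (V * diagonal e * Vᵀ) t = ∑ i, e i ^ 2 / (e i + t) := by
  unfold ht
  rw [spec_sh_inv hV hV' he h, spec_mul hV, spec_trace hV, spec_trace hV, Finset.mul_sum,
    ← Finset.sum_sub_distrib]
  refine Finset.sum_congr rfl fun i _ => ?_
  have := he i
  have hne : e i + t ≠ 0 := by positivity
  field_simp
  ring

/-- Jensen gap at a fixed parameter for sign conjugation -/
theorem ht_sign_gap {V : Matrix n n ℝ} (hV : Vᵀ * V = 1) (hV' : V * Vᵀ = 1) {e : n → ℝ}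
    (he : ∀ i, 0 ≤ e i) {D : Matrix n n ℝ} (hD : Dᵀ = D) (hD2 : D * D = 1) {t : ℝ} (h : 0 < t) :
    2 * t ^ 2 * gen (Vᵀ * D * V) e t ≤
      ht (V * diagonal e * Vᵀ + D * (V * diagonal e * Vᵀ) * D) t
        - 2 * ht (V * diagonal e * Vᵀ) t := by
  set M := V * diagonal e * Vᵀ with hM
  set r : n → ℝ := fun i => √(e i) with hr
  set X := V * diagonal r with hX
  have hrr : (fun i => r i * r i) = e := by
    funext i; exact Real.mul_self_sqrt (he i)
  have hXt : Xᵀ = diagonal r * Vᵀ := by rw [hX, transpose_mul, diagonal_transpose]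
  have hXX : X * Xᵀ = M := by
    rw [hXt, hX, hM]
    rw [show V * diagonal r * (diagonal r * Vᵀ) = V * (diagonal r * diagonal r) * Vᵀ by
      simp only [Matrix.mul_assoc], diagonal_mul_diagonal, hrr]
  have hK : Xᵀ * X = diagonal e := by
    rw [hXt, hX]
    rw [show diagonal r * Vᵀ * (V * diagonal r) = diagonal r * (Vᵀ * V) * diagonal r by
      simp only [Matrix.mul_assoc], hV, Matrix.mul_one, diagonal_mul_diagonal, hrr]
  set K : Matrix n n ℝ := diagonal e with hKd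
  set E := Xᵀ * D * X with hE
  have hEt : Eᵀ = E := by
    have hgen : ∀ Y : Matrix n n ℝ, (Yᵀ * D * Y)ᵀ = Yᵀ * D * Y := fun Y => by
      rw [transpose_mul, transpose_mul, hD, transpose_transpose, Matrix.mul_assoc]
    exact hgen X
  set c : ℝ := √(1 / 2) with hc
  have hcc : c * c = 1 / 2 := Real.mul_self_sqrt (by norm_num)
  set Z1 := c • ((1 + D) * X) with hZ1
  set Z2 := c • ((1 - D) * X) with hZ2
  have t1 : (1 + D)ᵀ = 1 + D := by rw [transpose_add, transpose_one, hD]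
  have t2 : (1 - D)ᵀ = 1 - D := by rw [transpose_sub, transpose_one, hD]
  have s1 : (1 + D) * (1 + D) = (2 : ℝ) • (1 + D) := by
    rw [Matrix.add_mul, Matrix.mul_add, Matrix.one_mul, Matrix.mul_add, Matrix.mul_one, hD2,
      two_smul]
    simp only [Matrix.one_mul]
    abel
  have s2 : (1 - D) * (1 - D) = (2 : ℝ) • (1 - D) := by
    rw [Matrix.sub_mul, Matrix.mul_sub, Matrix.one_mul, Matrix.mul_sub, Matrix.mul_one, hD2,
      two_smul]
    simp only [Matrix.one_mul]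
    abel
  have s12 : (1 + D) * (1 - D) = 0 := by
    rw [Matrix.add_mul, Matrix.mul_sub, Matrix.one_mul, Matrix.mul_sub, Matrix.mul_one, hD2]
    simp
  have s21 : (1 - D) * (1 + D) = 0 := by
    rw [Matrix.sub_mul, Matrix.one_mul, Matrix.mul_add, Matrix.mul_one, hD2]
    abel
  have z1 : Z1ᵀ * Z1 = K + E := by
    rw [hZ1, transpose_smul, transpose_mul, t1, Matrix.smul_mul, Matrix.mul_smul, smul_smul, hcc]
    rw [show Xᵀ * (1 + D) * ((1 + D) * X) = Xᵀ * ((1 + D) * (1 + D)) * X by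
      simp only [Matrix.mul_assoc], s1, Matrix.mul_smul, Matrix.smul_mul, smul_smul]
    rw [show (1 / 2 * 2 : ℝ) = 1 by norm_num, one_smul, Matrix.mul_add, Matrix.add_mul,
      Matrix.mul_one, hK]
  have z2 : Z2ᵀ * Z2 = K - E := by
    rw [hZ2, transpose_smul, transpose_mul, t2, Matrix.smul_mul, Matrix.mul_smul, smul_smul, hcc]
    rw [show Xᵀ * (1 - D) * ((1 - D) * X) = Xᵀ * ((1 - D) * (1 - D)) * X by
      simp only [Matrix.mul_assoc], s2, Matrix.mul_smul, Matrix.smul_mul, smul_smul]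
    rw [show (1 / 2 * 2 : ℝ) = 1 by norm_num, one_smul, Matrix.mul_sub, Matrix.sub_mul,
      Matrix.mul_one, hK]
  have w1 : Z1 * Z1ᵀ = (1 / 2 : ℝ) • ((1 + D) * M * (1 + D)) := by
    rw [hZ1, transpose_smul, transpose_mul, t1, Matrix.smul_mul, Matrix.mul_smul, smul_smul, hcc,
      ← hXX]
    simp only [Matrix.mul_assoc]
  have w2 : Z2 * Z2ᵀ = (1 / 2 : ℝ) • ((1 - D) * M * (1 - D)) := by
    rw [hZ2, transpose_smul, transpose_mul, t2, Matrix.smul_mul, Matrix.mul_smul, smul_smul, hcc,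
      ← hXX]
    simp only [Matrix.mul_assoc]
  have sum : Z1 * Z1ᵀ + Z2 * Z2ᵀ = M + D * M * D := by
    rw [w1, w2, ← smul_add]
    have : (1 + D) * M * (1 + D) + (1 - D) * M * (1 - D) = (2 : ℝ) • (M + D * M * D) := by
      simp only [Matrix.add_mul, Matrix.sub_mul, Matrix.mul_add, Matrix.mul_sub, Matrix.mul_one,
        Matrix.one_mul, two_smul]
      abel
    rw [this, smul_smul]
    norm_num
  have o12 : (Z1 * Z1ᵀ) * (Z2 * Z2ᵀ) = 0 := by
    rw [w1, w2, Matrix.smul_mul, Matrix.mul_smul]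
    rw [show (1 + D) * M * (1 + D) * ((1 - D) * M * (1 - D))
      = (1 + D) * M * ((1 + D) * (1 - D)) * M * (1 - D) by simp only [Matrix.mul_assoc], s12]
    simp
  have o21 : (Z2 * Z2ᵀ) * (Z1 * Z1ᵀ) = 0 := by
    rw [w1, w2, Matrix.smul_mul, Matrix.mul_smul]
    rw [show (1 - D) * M * (1 - D) * ((1 + D) * M * (1 + D))
      = (1 - D) * M * ((1 - D) * (1 + D)) * M * (1 + D) by simp only [Matrix.mul_assoc], s21]
    simp
  have h1 : ht (M + D * M * D) t = ht (K + E) t + ht (K - E) t := by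
    rw [← sum, ht_add (psd_mul_transpose_self Z1) (psd_mul_transpose_self Z2) o12 o21 h,
      ht_mul_transpose Z1 h, ht_mul_transpose Z2 h, z1, z2]
  have h2 : ht M t = ht K t := by
    rw [← hXX, ht_mul_transpose X h, hK]
  have hK0 : 0 ≤ K := (PosSemidef.diagonal he).nonneg
  have g := ht_gap hEt hK0 (by rw [← z1]; exact psd_transpose_mul_self Z1)
    (by rw [← z2]; exact psd_transpose_mul_self Z2) h
  rw [h1, h2]
  refine le_trans (le_of_eq ?_) g
  congr 1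
  -- compute the trace
  have hinv : (sh K t)⁻¹ = diagonal (fun i => (e i + t)⁻¹) := by
    have := spec_sh_inv (V := (1 : Matrix n n ℝ)) (by simp) (by simp) he h
    simpa using this
  rw [hinv]
  have hu : ∀ i j, E i j = r i * (Vᵀ * D * V) i j * r j := by
    intro i j
    rw [hE, hXt, hX]
    rw [show diagonal r * Vᵀ * D * (V * diagonal r) = diagonal r * (Vᵀ * D * V) * diagonal r by
      simp only [Matrix.mul_assoc], mul_diagonal, diagonal_mul]
  unfold gen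
  have hsym : (Vᵀ * D * V)ᵀ = Vᵀ * D * V := by
    rw [transpose_mul, transpose_mul, hD, transpose_transpose, Matrix.mul_assoc]
  simp only [trace, diag_apply]
  refine Finset.sum_congr rfl fun i _ => ?_
  rw [mul_diagonal]
  rw [mul_apply, Finset.sum_mul]
  refine Finset.sum_congr rfl fun j _ => ?_
  rw [mul_diagonal, diagonal_mul, hu i j, hu j i]
  have hji : (Vᵀ * D * V) j i = (Vᵀ * D * V) i j := by
    conv_lhs => rw [← hsym]
    rfl
  rw [hji]
  have ei : r i * r i = e i := Real.mul_self_sqrt (he i)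
  have ej : r j * r j = e j := Real.mul_self_sqrt (he j)
  have hi := he i
  have hj := he j
  have ni : e i + t ≠ 0 := by positivity
  have nj : e j + t ≠ 0 := by positivity
  rw [show (e i + t)⁻¹ * (r i * (Vᵀ * D * V) i j * r j) * (e j + t)⁻¹ *
      (r j * (Vᵀ * D * V) i j * r i) * (e i + t)⁻¹
    = (r i * r i) * (r j * r j) * (Vᵀ * D * V) i j ^ 2 * ((e i + t)⁻¹ ^ 2 * (e j + t)⁻¹) by ring,
    ei, ej]
  field_simp

end spec

end Crest.Agent.R072.Nd
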